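import Vale.Agent.P269.VirZero7

set_option linter.unusedSectionVars false

/-!
# The axioms of Gromov-Witten theory used, and Hori's equation `L_0 Z = 0`
-/

namespace Vale.Agent.P269

open Finset

variable {ι B : Type} [AddCommMonoid B] [DecidableEq B] [HasAntidiagonal B]
variable [Fintype ι] [DecidableEq ι]

namespace GWData

/-- Euler characteristic -/
noncomputable def chi (X : GWData ι B) : ℂ := ∑ c, (-1) ^ X.par c

/-- The Chern number `∫ c₁ c_{dim-1}`, written by the Libgober-Wood formula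
`∑ (-1)^(p+q) (p - dim/2)² = dim·χ/12 + (1/6) ∫ c₁ c_{dim-1}`. -/
noncomputable def c1cn (X : GWData ι B) : ℂ :=
  6 * (∑ c, (-1) ^ X.par c * X.mu c ^ 2) - X.dim / 2 * X.chi

/-- The basic properties of the cohomology ring and of the descendant Gromov-Witten invariants of
a smooth connected projective variety with `H^1 = 0`: Poincare duality and Hodge types, graded
symmetry, the selection rule for Hodge bidegrees, the string equation, the dilaton equation, the
divisor equation for `c₁(X)`, and the genus zero topological recursion relation. -/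
structure GWAxioms (X : GWData ι B) : Prop where
  p_one : X.p X.one = 0
  q_one : X.q X.one = 0
  /-- `H^0(X)` is spanned by the unit -/
  conn : ∀ a, X.p a + X.q a = 0 → a = X.one
  /-- `H^1(X) = 0` -/
  noH1 : ∀ a, X.p a + X.q a ≠ 1
  E_symm : ∀ a b, X.E a b = (-1) ^ (X.par a * X.par b) * X.E b a
  E_deg : ∀ a b, X.E a b ≠ 0 → X.p a + X.p b = X.dim ∧ X.q a + X.q b = X.dim
  E_inv : X.E * X.Einv = 1
  R_deg : ∀ a b, X.R a b ≠ 0 → X.p b = X.p a + 1 ∧ X.q b = X.q a + 1
  R_adj : X.R * X.E = X.E * X.R.transpose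
  F_symm : ∀ g d P s t S, X.F g d (P ++ s :: t :: S)
    = (-1) ^ (X.par s.2 * X.par t.2) * X.F g d (P ++ t :: s :: S)
  /-- selection rule: `∑ (m_i + p_i - 1) = (1-g)(dim-3) + c₁·d = ∑ (m_i + q_i - 1)` -/
  F_dim : ∀ g d S, X.F g d S ≠ 0 →
    (S.map fun s => (s.1 : ℤ) + X.p s.2 - 1).sum = (1 - (g : ℤ)) * ((X.dim : ℤ) - 3) + X.c1 d ∧
    (S.map fun s => (s.1 : ℤ) + X.q s.2 - 1).sum = (1 - (g : ℤ)) * ((X.dim : ℤ) - 3) + X.c1 d
  /-- string equation -/
  string : ∀ g d S, X.F g d ((0, X.one) :: S)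
    = der lowR (X.F g d) S + if g = 0 ∧ d = 0 then quad X.E S else 0
  /-- dilaton equation -/
  dilaton : ∀ g d S, X.F g d ((1, X.one) :: S) = (2 * (g : ℂ) - 2 + S.length) * X.F g d S
    + if g = 1 ∧ d = 0 ∧ S = [] then X.chi / 24 else 0
  /-- divisor equation for `c₁(X) = ∑ R(one, b) φ_b` -/
  divisor : ∀ g d S, ∑ b, X.R X.one b * X.F g d ((0, b) :: S)
    = X.c1 d * X.F g d S + der (hR X.R) (X.F g d) S
      + (if g = 0 ∧ d = 0 then quad (X.R * X.E) S else 0)
      + (if g = 1 ∧ d = 0 ∧ S = [] then - X.c1cn / 24 else 0)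
  /-- genus zero topological recursion relation
  `⟨⟨τ_{m+1}(a) y z⟩⟩ = ∑ ⟨⟨τ_m(a) φ_μ⟩⟩ η^{μν} ⟨⟨φ_ν y z⟩⟩` -/
  trr : ∀ d m a y z S, X.F 0 d (z :: y :: (m + 1, a) :: S)
    = ∑ μ, ∑ ν, X.Einv ν μ * mul X.par (X.par a + X.par μ)
      (fun d T => X.F 0 d ((0, μ) :: (m, a) :: T)) (fun d T => X.F 0 d (z :: y :: (0, ν) :: T)) d S

variable {X : GWData ι B}

lemma der_diag (c : Ins ι → ℂ) (f : Ser ι) (S : List (Ins ι)) :
    der (fun s φ => c s * φ s) f S = (S.map c).sum * f S := by
  induction S generalizing f with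
  | nil => simp
  | cons s S ih =>
    rw [der_cons, ih (fun T => f (s :: T))]
    simp only [List.map_cons, List.sum_cons]
    ring

lemma virA_eq (X : GWData ι B) (n : ℕ) (f : Ser ι) (S : List (Ins ι)) :
    X.virA n f S = - X.lam n (1, X.one) (fun x => f (x :: S)) := by
  simp only [virA, lam]
  congr 1
  apply sum_congr rfl
  intro i hi
  rw [mem_range] at hi
  rw [if_pos (by omega)]
  apply sum_congr rfl
  intro b _
  have e1 : 1 + n - 1 - i = n - i := by omega
  have e2 : X.mu X.one + ((1 : ℕ) : ℂ) + 1 / 2 = X.mu X.one + 3 / 2 := by push_cast; ring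
  rw [e1, e2]

lemma sum_mu (X : GWData ι B) (S : List (Ins ι)) :
    (S.map fun s => X.mu s.2 + s.1 + 1 / 2).sum
      = ((S.map fun s => (s.1 : ℤ) + X.p s.2 - 1).sum : ℤ) + S.length * ((3 - X.dim) / 2) := by
  induction S with
  | nil => simp
  | cons s S ih =>
    simp only [List.map_cons, List.sum_cons, List.length_cons]
    rw [ih]
    simp only [mu]
    push_cast
    ring

/-- Hori's equation `L_0 Z = 0` -/
theorem hori_of (hA : X.GWAxioms) (g : ℕ) (d : B) (S : List (Ins ι)) : X.vir 1 g d S = 0 := by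
  have h1 : X.virA 1 (X.F g d) S = - ((X.mu X.one + 3 / 2) * X.F g d ((1, X.one) :: S)
      + ∑ b, X.R X.one b * X.F g d ((0, b) :: S)) := by
    rw [virA_eq, lam1_eq]
    congr 1
    have : X.mu X.one + ((1 : ℕ) : ℂ) + 1 / 2 = X.mu X.one + 3 / 2 := by push_cast; ring
    simp only [this]
    simp
  have h2 : der (X.lam 1) (X.F g d) S
      = (S.map fun s => X.mu s.2 + s.1 + 1 / 2).sum * X.F g d S + der (hR X.R) (X.F g d) S := by
    rw [← der_diag, ← der_addA]
    apply der_congrA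
    intro s φ
    rw [lam1_eq]
    rfl
  have h3 : X.virC 1 g d S = 0 := by simp [virC]
  have h4 : X.virD 1 g d S = if g = 0 ∧ d = 0 then quad (X.R * X.E) S else 0 := by
    simp only [virD, pow_one]
  have h5 : X.virK 1 g d S = if g = 1 ∧ d = 0 ∧ S = [] then
      X.chi / 16 - (∑ c, (-1) ^ X.par c * X.mu c ^ 2) / 4 else 0 := by
    simp [virK, chi]
  rw [vir, h1, h2, h3, h4, h5, hA.dilaton, hA.divisor]
  have hmu : X.mu X.one = - X.dim / 2 := by
    simp only [mu, hA.p_one]; push_cast; ring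
  have h6 : (S.map fun s => X.mu s.2 + s.1 + 1 / 2).sum * X.F g d S
      = ((1 - g) * (X.dim - 3) + X.c1 d + S.length * ((3 - X.dim) / 2)) * X.F g d S := by
    by_cases h0 : X.F g d S = 0
    · rw [h0]; ring
    · rw [sum_mu, (hA.F_dim g d S h0).1]
      push_cast
      ring
  rw [h6, hmu]
  by_cases hc : g = 1 ∧ d = 0 ∧ S = []
  · simp only [if_pos hc, c1cn]
    obtain ⟨rfl, rfl, rfl⟩ := hc
    simp only [one_ne_zero, false_and, if_false]
    push_cast
    ring
  · simp only [if_neg hc]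
    ring

theorem isGW_of (hA : X.GWAxioms) : X.IsGW where
  p_one := hA.p_one
  q_one := hA.q_one
  conn := hA.conn
  noH1 := hA.noH1
  E_symm := hA.E_symm
  E_deg := hA.E_deg
  E_inv := hA.E_inv
  R_deg := hA.R_deg
  R_adj := hA.R_adj
  F_symm := hA.F_symm
  F_dim := hA.F_dim
  string := by
    intro g d S
    rw [vir, virA_zero, virC_zero, der_congrA (lam_zero X), hA.string]
    simp [virD, virK]
  hori := hori_of hA

lemma dilaton_of (hA : X.GWAxioms) : X.Dilaton := hA.dilaton

lemma trr_of (hA : X.GWAxioms) : X.TRR0 := hA.trr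

end GWData

end Vale.Agent.P269
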