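import Vale.Agent.P269.VirDefs

/-!
# Elementary lemmas: coefficients, derivations, superspace product
-/

namespace Vale.Agent.P269

open Finset Polynomial

section vc

/-- the generating polynomial -/
noncomputable def vP (n : ℕ) (x : ℂ) : Polynomial ℂ :=
  ∏ j ∈ range n, (X + C (x + (j : ℂ)))

lemma vc_def (n i : ℕ) (x : ℂ) : vc n i x = (vP n x).coeff i := rfl

lemma vP_succ (n : ℕ) (x : ℂ) : vP (n + 1) x = vP n x * (X + C (x + n)) := by
  simp [vP, prod_range_succ]

lemma vP_succ' (n : ℕ) (x : ℂ) : vP (n + 1) (x - 1) = (X + C (x - 1)) * vP n x := by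
  rw [vP, prod_range_succ', mul_comm]
  simp only [Nat.cast_zero, add_zero, vP]
  congr 1
  apply prod_congr rfl
  intro j _
  congr 2
  push_cast
  ring

lemma vc_succ_sub (n i : ℕ) (x : ℂ) :
    vc (n + 1) i x - vc (n + 1) i (x - 1) = (n + 1) * vc n i x := by
  rw [vc_def, vc_def, vc_def, ← coeff_sub, vP_succ, vP_succ']
  have : vP n x * (X + C (x + n)) - (X + C (x - 1)) * vP n x = C ((n : ℂ) + 1) * vP n x := by
    have h : (C (x + n) : Polynomial ℂ) - C (x - 1) = C ((n : ℂ) + 1) := by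
      rw [← C_sub]; congr 1; ring
    calc _ = (C (x + n) - C (x - 1)) * vP n x := by ring
      _ = _ := by rw [h]
  rw [this, coeff_C_mul]

lemma vc_zero_zero (x : ℂ) : vc 0 0 x = 1 := by simp [vc]

lemma vP_natDegree_le (n : ℕ) (x : ℂ) : (vP n x).natDegree ≤ n := by
  induction n with
  | zero => simp [vP]
  | succ n ih =>
    rw [vP_succ]
    refine natDegree_mul_le.trans ?_
    have : (X + C (x + n) : Polynomial ℂ).natDegree ≤ 1 := by
      rw [natDegree_X_add_C]
    omega

lemma vc_gt (n i : ℕ) (x : ℂ) (h : n < i) : vc n i x = 0 := by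
  rw [vc_def]
  exact coeff_eq_zero_of_natDegree_lt (lt_of_le_of_lt (vP_natDegree_le n x) h)

lemma vc_succ_succ (n i : ℕ) (x : ℂ) :
    vc (n + 1) (i + 1) x = vc n i x + (x + n) * vc n (i + 1) x := by
  rw [vc_def, vc_def, vc_def, vP_succ, mul_add, coeff_add, coeff_mul_X, coeff_mul_C]
  ring

lemma vc_succ_zero (n : ℕ) (x : ℂ) :
    vc (n + 1) 0 x = (x + n) * vc n 0 x := by
  rw [vc_def, vc_def, vP_succ, mul_add, coeff_add, coeff_mul_C]
  simp
  ring

lemma vc_self (n : ℕ) (x : ℂ) : vc n n x = 1 := by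
  induction n with
  | zero => exact vc_zero_zero x
  | succ n ih => rw [vc_succ_succ, ih, vc_gt n (n + 1) x (Nat.lt_succ_self n)]; ring

lemma vc_succ_self (n : ℕ) (x : ℂ) : vc (n + 1) n x = (n + 1) * x + n * (n + 1) / 2 := by
  induction n with
  | zero => rw [vc_succ_zero, vc_zero_zero]; simp
  | succ n ih =>
    rw [vc_succ_succ, ih, vc_self]
    push_cast
    ring

lemma vc_two_zero (x : ℂ) : vc 2 0 x = x * (x + 1) := by
  rw [vc_succ_zero, vc_succ_zero, vc_zero_zero]; push_cast; ring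

lemma vc_reflect (n i : ℕ) (x : ℂ) :
    vc n i (-x - n + 1) = (-1) ^ (n + i) * vc n i x := by
  have key : vP n (-x - n + 1) = C ((-1 : ℂ) ^ n) * (vP n x).comp (-X) := by
    unfold vP
    rw [Polynomial.prod_comp, ← Finset.prod_range_reflect]
    rw [C_pow]
    have : (C (-1 : ℂ) : Polynomial ℂ) ^ n = ∏ _j ∈ range n, (C (-1 : ℂ)) := by
      simp
    rw [this, ← prod_mul_distrib]
    apply prod_congr rfl
    intro j hj
    rw [mem_range] at hj
    have h1 : ((n - 1 - j : ℕ) : ℂ) = (n : ℂ) - 1 - j := by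
      rw [Nat.cast_sub (by omega), Nat.cast_sub (by omega)]; simp
    rw [h1]
    simp only [add_comp, X_comp, C_comp]
    have h2 : (C (-x - (n : ℂ) + 1 + ((n : ℂ) - 1 - j)) : Polynomial ℂ) = - C (x + j) := by
      rw [← C_neg]; congr 1; ring
    rw [h2, C_neg, C_1]
    ring
  rw [vc_def, key, coeff_C_mul, vc_def]
  have hc : ((vP n x).comp (-X)).coeff i = (-1) ^ i * (vP n x).coeff i := by
    have := Polynomial.comp_C_mul_X_coeff (r := (-1 : ℂ)) (n := i) (p := vP n x)
    simp only [C_neg, C_1, neg_mul, one_mul] at this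
    rw [this]; ring
  rw [hc, pow_add]
  ring

end vc

end Vale.Agent.P269
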