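import Vale.Agent.P269.VirQuad

set_option linter.unusedSectionVars false

/-!
# Three-point contributions and the string equation of the constraints
-/

namespace Vale.Agent.P269

open Finset

variable {ι B : Type} [Fintype ι] [DecidableEq ι] [AddCommMonoid B] [DecidableEq B]
  [HasAntidiagonal B]

namespace GWData

variable {X : GWData ι B}

lemma E_even (hX : X.IsGW) (a b : ι) (h : X.E a b ≠ 0) : Even (X.par a + X.par b) := by
  obtain ⟨h1, h2⟩ := hX.E_deg a b h
  refine ⟨X.dim, ?_⟩
  simp only [par]; omega

lemma inv_even (hX : X.IsGW) (a b : ι) (h : X.Einv a b ≠ 0) : Even (X.par a + X.par b) := by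
  obtain ⟨h1, h2⟩ := inv_deg hX a b h
  refine ⟨X.dim, ?_⟩
  simp only [par]; omega

lemma pow_even (hX : X.IsGW) (i : ℕ) (a b : ι) (h : (X.R ^ i) a b ≠ 0) :
    Even (X.par a + X.par b) := by
  obtain ⟨h1, h2⟩ := pow_deg hX i a b h
  refine ⟨X.par a + i, ?_⟩
  simp only [par]; omega

lemma neg_one_eq_of_even {x y : ℕ} (h : Even (x + y)) : ((-1 : ℂ)) ^ x = (-1) ^ y := by
  have h4 := h.neg_one_pow (α := ℂ)
  rw [pow_add] at h4
  have h5 : ((-1 : ℂ)) ^ y * (-1) ^ y = 1 := by
    rw [← pow_add, ← two_mul, pow_mul]; norm_num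
  have h6 : ((-1 : ℂ)) ^ y ≠ 0 := pow_ne_zero _ (by norm_num)
  exact mul_right_cancel₀ h6 (h4.trans h5.symm)

lemma quad_dd_succ (M : Matrix ι ι ℂ) (m : ℕ) (a : ι) : dd (m + 1, a) (quad M) = fun _ => 0 := by
  funext T
  simp only [dd]
  match T with
  | [] => rfl
  | [t] => rw [quad_two]; simp
  | t :: u :: T => exact quad_three M _ _ _ _

/-- the product with a linear series -/
lemma conv_quad (hX : X.IsGW) (a b : ι) (k : ℕ) (G : Ser ι) (hG : GSym X.par G)
    (hab : Even (X.par a + X.par b)) (S : List (Ins ι)) :
    conv X.par (X.par a) (dd (0, a) (quad X.E)) (dd (k, b) G) S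
      = der (fun s φ => (if s.1 = 0 then X.E a s.2 else 0) * φ (k, b)) G S := by
  apply conv_linear
  · simp only [dd]; exact quad_one _ _
  · intro s; simp only [dd]; rw [quad_two]; simp
  · intro s t T; simp only [dd]; exact quad_three _ _ _ _ _
  · intro s hs
    by_cases h : s.1 = 0
    · rw [if_pos h] at hs
      exact E_even hX _ _ hs
    · rw [if_neg h] at hs; exact absurd rfl hs
  · exact hab
  · exact hG

lemma left_sum (hX : X.IsGW) (n : ℕ) (G : Ser ι) (hG : GSym X.par G) (S : List (Ins ι)) :
    ∑ i ∈ range n, ∑ c, ∑ a, ∑ b, ∑ M ∈ range (n - i),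
        X.kap (n + 1) i M c a b * conv X.par (X.par a) (dd (M, a) (quad X.E))
          (dd (n - 1 - i - M, b) G) S = - der (X.xR n) G S := by
  have h1 : ∀ i ∈ range n, ∀ c a b, ∑ M ∈ range (n - i),
        X.kap (n + 1) i M c a b * conv X.par (X.par a) (dd (M, a) (quad X.E))
          (dd (n - 1 - i - M, b) G) S
      = der (fun s φ => X.kap (n + 1) i 0 c a b *
          ((if s.1 = 0 then X.E a s.2 else 0) * φ (n - 1 - i, b))) G S := by
    intro i hi c a b
    rw [mem_range] at hi
    have hm : n - i = (n - 1 - i) + 1 := by omega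
    rw [hm, sum_range_succ']
    have z : ∑ M ∈ range (n - 1 - i), X.kap (n + 1) i (M + 1) c a b *
        conv X.par (X.par a) (dd (M + 1, a) (quad X.E)) (dd (n - 1 - i - (M + 1), b) G) S = 0 := by
      apply sum_eq_zero; intro M _
      rw [quad_dd_succ, conv_zero_left, mul_zero]
    rw [z, zero_add, der_smulA, Nat.sub_zero]
    by_cases hk : X.kap (n + 1) i 0 c a b = 0
    · rw [hk]; ring
    · congr 1
      simp only [kap] at hk
      have k1 := right_ne_zero_of_mul hk
      have k2 := right_ne_zero_of_mul (left_ne_zero_of_mul hk)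
      apply conv_quad hX a b _ G hG
      have e1 := inv_even hX _ _ k2
      have e2 := pow_even hX _ _ _ k1
      have : Even ((X.par c + X.par a) + (X.par c + X.par b)) := e1.add e2
      rw [show (X.par c + X.par a) + (X.par c + X.par b)
        = 2 * X.par c + (X.par a + X.par b) by ring] at this
      rw [Nat.even_add] at this
      exact this.mp (even_two_mul _)
  rw [sum_congr rfl (fun i hi => sum_congr rfl (fun c _ => sum_congr rfl (fun a _ =>
    sum_congr rfl (fun b _ => h1 i hi c a b))))]
  simp only [← der_sumA]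
  have h2 : ∀ s φ, (∑ i ∈ range n, ∑ c, ∑ a, ∑ b, X.kap (n + 1) i 0 c a b *
          ((if s.1 = 0 then X.E a s.2 else 0) * φ (n - 1 - i, b))) = (-1) * X.xR n s φ := by
    intro s φ
    simp only [xR]
    by_cases hs : s.1 = 0
    · simp only [if_pos hs]
      rw [mul_sum]
      apply sum_congr rfl
      intro i _
      have h3 : ∀ c, ∑ a, ∑ b, X.kap (n + 1) i 0 c a b * (X.E a s.2 * φ (n - 1 - i, b))
          = (if c = s.2 then 1 else 0) * ∑ b, (-1) * (vc (n + 1) i (X.mu c - 1 / 2)
            * (X.R ^ i) c b * φ (n - 1 - i, b)) := by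
        intro c
        have h4 := congrFun (congrFun (inv_mul hX) c) s.2
        rw [Matrix.mul_apply, Matrix.one_apply] at h4
        rw [← h4, sum_mul]
        apply sum_congr rfl
        intro a _
        rw [mul_sum]
        apply sum_congr rfl
        intro b _
        simp only [kap, zero_add, pow_one, Nat.cast_zero, sub_zero]
        ring
      rw [sum_congr rfl (fun c _ => h3 c)]
      simp only [ite_mul, one_mul, zero_mul]
      rw [Finset.sum_ite_eq' univ s.2]
      simp only [mem_univ, if_true]
      rw [mul_sum]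
    · simp only [if_neg hs]
      simp
  rw [der_congrA h2, der_smulA]
  ring

/-- collected coefficient -/
noncomputable def kap2 (X : GWData ι B) (n i M : ℕ) (a b : ι) : ℂ := ∑ c, X.kap n i M c a b

lemma kap2_eq (hX : X.IsGW) (n i M : ℕ) (a b : ι) :
    X.kap2 n i M a b = (-1) ^ (M + 1) * vc n i (- X.mu a - M - 1 / 2) *
      (X.Einv.transpose * X.R ^ i) a b := by
  rw [kap2, Matrix.mul_apply, mul_sum]
  apply sum_congr rfl
  intro c _
  simp only [kap, Matrix.transpose_apply]
  by_cases h : X.Einv c a = 0
  · rw [h]; ring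
  · have := (inv_deg hX c a h).1
    have e : X.mu c = - X.mu a := by
      simp only [mu]
      have : (X.p c : ℂ) + X.p a = X.dim := by exact_mod_cast this
      linear_combination this
    rw [e]; ring

lemma inv_symm (hX : X.IsGW) (a b : ι) :
    X.Einv a b = (-1) ^ (X.par a * X.par b) * X.Einv b a := by
  classical
  let M : Matrix ι ι ℂ := fun a b => (-1) ^ (X.par a * X.par b) * X.Einv b a
  have sq : ∀ k : ℕ, ((-1 : ℂ)) ^ (k * k) = (-1) ^ k := by
    intro k
    apply neg_one_eq_of_even
    rw [← Nat.mul_succ]
    exact Nat.even_mul_succ_self k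
  have hM : M * X.E = 1 := by
    ext a c
    rw [Matrix.mul_apply]
    have h1 : ∀ b, M a b * X.E b c
        = (-1) ^ (X.par a + X.par c) * (X.E c b * X.Einv b a) := by
      intro b
      simp only [M]
      by_cases h : X.Einv b a = 0
      · rw [h]; ring
      · by_cases h' : X.E b c = 0
        · have : X.E c b = 0 := by rw [hX.E_symm, h']; ring
          rw [h', this]; ring
        · rw [hX.E_symm b c]
          have e1 := inv_even hX b a h
          have e2 := E_even hX b c h'
          -- parities of a, b, c agree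
          have p1 : ((-1 : ℂ)) ^ (X.par a * X.par b) = (-1) ^ (X.par a) := by
            rw [mul_comm, ← sq (X.par a)]
            apply neg_one_eq_of_even
            rw [← add_mul]
            exact e1.mul_right _
          have p2 : ((-1 : ℂ)) ^ (X.par b * X.par c) = (-1) ^ (X.par c) := by
            rw [← sq (X.par c)]
            apply neg_one_eq_of_even
            rw [← add_mul]
            exact e2.mul_right _
          rw [p1, p2, pow_add]; ring
    rw [sum_congr rfl (fun b _ => h1 b), ← mul_sum]
    have h2 := congrFun (congrFun hX.E_inv c) a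
    rw [Matrix.mul_apply] at h2
    rw [h2, Matrix.one_apply, Matrix.one_apply]
    by_cases hac : a = c
    · subst hac
      have : ((-1 : ℂ)) ^ (X.par a + X.par a) = 1 := Even.neg_one_pow ⟨X.par a, rfl⟩
      rw [this]; simp
    · rw [if_neg hac, if_neg (Ne.symm hac)]; ring
  have hu : M = X.Einv := by
    calc M = M * (X.E * X.Einv) := by rw [hX.E_inv, Matrix.mul_one]
      _ = (M * X.E) * X.Einv := (Matrix.mul_assoc _ _ _).symm
      _ = X.Einv := by rw [hM, Matrix.one_mul]
  exact (congrFun (congrFun hu a) b).symm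

lemma invR_symm (hX : X.IsGW) (i : ℕ) (a b : ι) :
    (X.Einv.transpose * X.R ^ i) b a
      = (-1) ^ (X.par a * X.par b) * (X.Einv.transpose * X.R ^ i) a b := by
  -- (Einvᵀ R^i)ᵀ = (R^i)ᵀ Einv = Einv R^i
  have h1 : X.Einv * X.R ^ i = (X.R ^ i).transpose * X.Einv := by
    calc X.Einv * X.R ^ i = X.Einv * (X.R ^ i * (X.E * X.Einv)) := by
          rw [hX.E_inv, Matrix.mul_one]
      _ = X.Einv * (X.R ^ i * X.E) * X.Einv := by simp only [Matrix.mul_assoc]
      _ = X.Einv * (X.E * (X.R ^ i).transpose) * X.Einv := by rw [pow_adj hX i]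
      _ = (X.Einv * X.E) * (X.R ^ i).transpose * X.Einv := by simp only [Matrix.mul_assoc]
      _ = _ := by rw [inv_mul hX, Matrix.one_mul]
  have h2 : (X.Einv.transpose * X.R ^ i) b a = (X.Einv * X.R ^ i) a b := by
    have : (X.Einv.transpose * X.R ^ i) b a = (X.Einv.transpose * X.R ^ i).transpose a b := rfl
    rw [this, Matrix.transpose_mul, Matrix.transpose_transpose, ← h1]
  rw [h2, Matrix.mul_apply, Matrix.mul_apply, mul_sum]
  apply sum_congr rfl
  intro c _
  simp only [Matrix.transpose_apply]
  by_cases h : (X.R ^ i) c b = 0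
  · rw [h]; ring
  · rw [inv_symm hX a c]
    have e := pow_even hX i c b h
    have p1 : ((-1 : ℂ)) ^ (X.par a * X.par c) = (-1) ^ (X.par a * X.par b) := by
      apply neg_one_eq_of_even
      rw [← mul_add]
      exact e.mul_left _
    rw [p1]; ring

/-- the quadratic coefficients are graded symmetric -/
lemma kap2_symm (hX : X.IsGW) (n i M M' : ℕ) (a b : ι) (h : i + M + M' + 1 = n) :
    X.kap2 (n + 1) i M' b a = (-1) ^ (X.par a * X.par b) * X.kap2 (n + 1) i M a b := by
  rw [kap2_eq hX, kap2_eq hX, invR_symm hX]
  by_cases hz : (X.Einv.transpose * X.R ^ i) a b = 0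
  · rw [hz]; ring
  · -- degrees
    rw [Matrix.mul_apply] at hz
    obtain ⟨c, _, hc⟩ := Finset.exists_ne_zero_of_sum_ne_zero hz
    have h1 := inv_deg hX c a (left_ne_zero_of_mul hc)
    have h2 := pow_deg hX i c b (right_ne_zero_of_mul hc)
    have h3 : X.mu b = i - X.mu a := by
      simp only [mu]
      have e1 : (X.p c : ℂ) + X.p a = X.dim := by exact_mod_cast h1.1
      have e2 : (X.p b : ℂ) = X.p c + i := by exact_mod_cast h2.1
      linear_combination e2 + e1
    have hn : (n : ℂ) = i + M + M' + 1 := by rw [← h]; push_cast; ring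
    have h4 : - X.mu b - M' - 1 / 2 = -(-X.mu a - M - 1 / 2) - ((n + 1 : ℕ) : ℂ) + 1 := by
      rw [h3]; push_cast; rw [hn]; ring
    rw [h4, vc_reflect]
    have h5 : ((-1 : ℂ)) ^ (M' + 1) * (-1) ^ (n + 1 + i) = (-1) ^ (M + 1) := by
      rw [← pow_add]
      apply neg_one_eq_of_even
      refine ⟨n + 1, ?_⟩
      omega
    rw [← h5]; ring

lemma F_even (hX : X.IsGW) (g : ℕ) (d : B) (S : List (Ins ι)) (h : X.F g d S ≠ 0) :
    Even ((S.map fun s => X.par s.2).sum) := by
  obtain ⟨h1, h2⟩ := hX.F_dim g d S h
  have key : ∀ T : List (Ins ι), ((T.map fun s => X.par s.2).sum : ℤ)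
      = (T.map fun s => (s.1 : ℤ) + X.p s.2 - 1).sum + (T.map fun s => (s.1 : ℤ) + X.q s.2 - 1).sum
        - 2 * (T.map fun s => (s.1 : ℤ) - 1).sum := by
    intro T
    induction T with
    | nil => simp
    | cons t T ih =>
      simp only [List.map_cons, List.sum_cons, par] at *
      push_cast at *
      rw [ih]; ring
  have h3 := key S
  rw [h1, h2] at h3
  have : Even (((S.map fun s => X.par s.2).sum : ℕ) : ℤ) := by
    refine ⟨(1 - (g : ℤ)) * ((X.dim : ℤ) - 3) + X.c1 d - (S.map fun s => (s.1 : ℤ) - 1).sum, ?_⟩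
    rw [h3]; ring
  exact_mod_cast this

lemma right_sum (hX : X.IsGW) (n g : ℕ) (d : B) (S : List (Ins ι)) :
    ∑ i ∈ range n, ∑ c, ∑ a, ∑ b, ∑ M ∈ range (n - i),
        X.kap (n + 1) i M c a b * conv X.par (X.par a) (dd (M, a) (X.F g d))
          (dd (n - 1 - i - M, b) (quad X.E)) S = - der (X.xR n) (X.F g d) S := by
  rw [← left_sum hX n (X.F g d) (gsym hX g d) S]
  apply sum_congr rfl
  intro i hi
  rw [mem_range] at hi
  -- sum over c inside
  have hL : ∀ (W : ι → ι → ℕ → ℂ), ∑ c, ∑ a, ∑ b, ∑ M ∈ range (n - i),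
      X.kap (n + 1) i M c a b * W a b M
      = ∑ a, ∑ b, ∑ M ∈ range (n - i), X.kap2 (n + 1) i M a b * W a b M := by
    intro W
    rw [sum_comm]
    apply sum_congr rfl; intro a _
    rw [sum_comm]
    apply sum_congr rfl; intro b _
    rw [sum_comm]
    apply sum_congr rfl; intro M _
    rw [kap2, sum_mul]
  rw [hL (fun a b M => conv X.par (X.par a) (dd (M, a) (X.F g d))
          (dd (n - 1 - i - M, b) (quad X.E)) S),
    hL (fun a b M => conv X.par (X.par a) (dd (M, a) (quad X.E))
          (dd (n - 1 - i - M, b) (X.F g d)) S)]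
  rw [sum_comm]
  apply sum_congr rfl; intro b _
  apply sum_congr rfl; intro a _
  have hm : n - i = (n - 1 - i) + 1 := by omega
  rw [hm, ← Finset.sum_range_reflect]
  apply sum_congr rfl; intro M hM
  rw [mem_range] at hM
  have e1 : n - 1 - i + 1 - 1 - M = n - 1 - i - M := by omega
  have e2 : n - 1 - i - (n - 1 - i - M) = M := by omega
  rw [e1, e2]
  rw [conv_comm X.par (X.par a) (X.par b)]
  · rw [kap2_symm hX n i M (n - 1 - i - M) b a (by omega)]
    have h5 : ((-1 : ℂ)) ^ (X.par b * X.par a) * (-1) ^ (X.par a * X.par b) = 1 := by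
      rw [mul_comm (X.par b), ← pow_add, ← two_mul, pow_mul]; norm_num
    linear_combination (X.kap2 (n + 1) i M b a * conv X.par (X.par b) (dd (M, b) (quad X.E))
      (dd (n - 1 - i - M, a) (X.F g d)) S) * h5
  · intro T hT
    have := F_even hX g d ((n - 1 - i - M, a) :: T) hT
    simpa using this

/-- the genus one constant -/
lemma const_sum (hX : X.IsGW) (n g : ℕ) (d : B) (S : List (Ins ι)) :
    ∑ i ∈ range n, ∑ c, ∑ a, ∑ b, ∑ M ∈ range (n - i),
        X.kap (n + 1) i M c a b *
          (if g = 1 ∧ d = 0 then dd (M, a) (dd (n - 1 - i - M, b) (quad X.E)) S else 0)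
      = 2 * ((n + 1) * X.virK n g d S) := by
  by_cases hg : g = 1 ∧ d = 0
  · simp only [if_pos hg]
    obtain ⟨hg1, hd⟩ := hg
    by_cases hS : S = []
    · subst hS
      have h1 : ∀ i ∈ range n, ∀ c a b, ∑ M ∈ range (n - i), X.kap (n + 1) i M c a b *
          dd (M, a) (dd (n - 1 - i - M, b) (quad X.E)) []
          = if i = n - 1 then X.kap (n + 1) i 0 c a b * X.E b a else 0 := by
        intro i hi c a b
        rw [mem_range] at hi
        have hm : n - i = (n - 1 - i) + 1 := by omega
        rw [hm, sum_range_succ']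
        simp only [dd, quad_two]
        have z : ∑ M ∈ range (n - 1 - i), X.kap (n + 1) i (M + 1) c a b *
            (if n - 1 - i - (M + 1) = 0 ∧ M + 1 = 0 then X.E b a else 0) = 0 := by
          apply sum_eq_zero; intro M _
          rw [if_neg (by omega), mul_zero]
        rw [z, zero_add]
        have hiff : (n - 1 - i - 0 = 0 ∧ True) ↔ i = n - 1 := by
          rw [and_true]; omega
        by_cases hin : i = n - 1
        · rw [if_pos hin, if_pos (hiff.mpr hin)]
        · rw [if_neg hin, if_neg (fun h => hin (hiff.mp h)), mul_zero]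
      rw [sum_congr rfl (fun i hi => sum_congr rfl (fun c _ => sum_congr rfl (fun a _ =>
        sum_congr rfl (fun b _ => h1 i hi c a b))))]
      obtain _ | n := n
      · simp [virK]
      · have h2 : ∀ i, ∑ c, ∑ a, ∑ b, (if i = n + 1 - 1 then
            X.kap (n + 1 + 1) i 0 c a b * X.E b a else 0)
            = if i = n then ∑ c, ∑ a, ∑ b, X.kap (n + 1 + 1) i 0 c a b * X.E b a else 0 := by
          intro i
          have : n + 1 - 1 = n := rfl
          rw [this]
          split_ifs
          · rfl
          · simp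
        rw [sum_congr rfl (fun i _ => h2 i)]
        rw [Finset.sum_ite_eq' (range (n + 1)) n]
        rw [if_pos (by simp)]
        have h3 : ∀ c a, ∑ b, X.kap (n + 1 + 1) n 0 c a b * X.E b a
            = - vc (n + 1 + 1) n (X.mu c - 1 / 2) * X.Einv c a * (X.R ^ n * X.E) c a := by
          intro c a
          rw [Matrix.mul_apply, mul_sum]
          apply sum_congr rfl
          intro b _
          simp only [kap, zero_add, pow_one, Nat.cast_zero, sub_zero]
          ring
        rw [sum_congr rfl (fun c _ => sum_congr rfl (fun a _ => h3 c a))]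
        obtain _ | n := n
        · -- n = 1: the supertrace
          simp only [pow_zero, Matrix.one_mul]
          have h4 : ∀ c, ∑ a, - vc (0 + 1 + 1) 0 (X.mu c - 1 / 2) * X.Einv c a * X.E c a
              = - (X.mu c ^ 2 - 1 / 4) * (-1) ^ X.par c := by
            intro c
            have h5 : ∀ a, X.Einv c a * X.E c a = (-1) ^ X.par c * (X.Einv c a * X.E a c) := by
              intro a
              by_cases h : X.Einv c a = 0
              · rw [h]; ring
              · rw [hX.E_symm c a]
                have e := inv_even hX c a h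
                have p1 : ((-1 : ℂ)) ^ (X.par c * X.par a) = (-1) ^ (X.par c) := by
                  have sq : ((-1 : ℂ)) ^ (X.par c * X.par c) = (-1) ^ X.par c := by
                    apply neg_one_eq_of_even
                    rw [← Nat.mul_succ]
                    exact Nat.even_mul_succ_self _
                  rw [← sq]
                  apply neg_one_eq_of_even
                  rw [← mul_add, add_comm]
                  exact e.mul_left _
                rw [p1]; ring
            have h6 := congrFun (congrFun (inv_mul hX) c) c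
            rw [Matrix.mul_apply, Matrix.one_apply_eq] at h6
            calc _ = - vc 2 0 (X.mu c - 1 / 2) * ∑ a, X.Einv c a * X.E c a := by
                  rw [mul_sum]; apply sum_congr rfl; intro a _; ring
              _ = - vc 2 0 (X.mu c - 1 / 2) * ((-1) ^ X.par c * ∑ a, X.Einv c a * X.E a c) := by
                  rw [mul_sum _ _ ((-1 : ℂ) ^ X.par c)]
                  rw [sum_congr rfl (fun a _ => h5 a)]
              _ = _ := by rw [h6, vc_two_zero]; ring
          rw [sum_congr rfl (fun c _ => h4 c)]
          simp only [virK]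
          rw [if_pos (by simp [hg1, hd])]
          have h7 : ∑ c, - (X.mu c ^ 2 - 1 / 4) * (-1) ^ X.par c
              = (1 / 4) * (∑ c, (-1) ^ X.par c) - ∑ c, (-1) ^ X.par c * X.mu c ^ 2 := by
            rw [mul_sum, ← sum_sub_distrib]
            apply sum_congr rfl; intro c _; ring
          rw [h7]
          push_cast
          ring
        · -- n ≥ 2: degree reasons
          have h4 : ∀ c a, X.Einv c a * (X.R ^ (n + 1) * X.E) c a = 0 := by
            intro c a
            by_contra hne
            have k1 := inv_deg hX c a (left_ne_zero_of_mul hne)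
            have k2 := right_ne_zero_of_mul hne
            rw [Matrix.mul_apply] at k2
            obtain ⟨b, _, hb⟩ := Finset.exists_ne_zero_of_sum_ne_zero k2
            have k3 := pow_deg hX (n + 1) c b (left_ne_zero_of_mul hb)
            have k4 := hX.E_deg b a (right_ne_zero_of_mul hb)
            omega
          have h5 : ∑ c, ∑ a, - vc (n + 1 + 1 + 1) (n + 1) (X.mu c - 1 / 2) * X.Einv c a *
              (X.R ^ (n + 1) * X.E) c a = 0 := by
            apply sum_eq_zero; intro c _; apply sum_eq_zero; intro a _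
            rw [mul_assoc, h4, mul_zero]
          rw [h5]
          simp [virK]
    · have h1 : ∀ (x y : Ins ι), dd x (dd y (quad X.E)) S = 0 := by
        intro x y
        simp only [dd]
        apply quad_len
        intro h
        apply hS
        have : S.length = 0 := by simpa using h
        exact List.length_eq_zero_iff.mp this
      simp only [h1, mul_zero, sum_const_zero, virK]
      rw [if_neg (by rintro ⟨_, _, _, h⟩; exact hS h)]
      ring
  · simp only [if_neg hg, mul_zero, sum_const_zero, virK]
    rw [if_neg (by rintro ⟨_, h1, h2, _⟩; exact hg ⟨h1, h2⟩)]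
    ring

/-- **String equation of the Virasoro constraints**: `T z_k = (k + 1) z_{k-1}`. -/
theorem TT_vir (hX : X.IsGW) (n g : ℕ) (d : B) (S : List (Ins ι)) :
    TT (0, X.one) (X.vir (n + 1) g d) S = (n + 1) * X.vir n g d S := by
  have e0 : X.vir (n + 1) g d = fun T => (((X.virA (n + 1) (X.F g d) T
      + der (X.lam (n + 1)) (X.F g d) T) + X.virC (n + 1) g d T) + X.virD (n + 1) g d T)
      + X.virK (n + 1) g d T := rfl
  rw [e0, TT_add, TT_add, TT_add, TT_add]
  rw [TT_virA hX n (X.F g d) (gsym hX g d), TT_lin, TT_virC hX]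
  -- the constant term
  have hK : TT (0, X.one) (X.virK (n + 1) g d) S = 0 := by
    simp only [TT]
    have h1 : X.virK (n + 1) g d ((0, X.one) :: S) = 0 := by
      simp only [virK]
      rw [if_neg (by rintro ⟨_, _, _, h⟩; exact absurd h (by simp))]
    have h2 : der lowR (X.virK (n + 1) g d) S = 0 := by
      match S with
      | [] => rfl
      | s :: S =>
        apply der_vanish linR_lowR
        intro T hT
        simp only [virK]
        rw [if_neg]
        rintro ⟨_, _, _, h⟩
        rw [h] at hT
        simp at hT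
    rw [h1, h2]; ring
  rw [hK]
  -- three-point contributions of the quadratic term
  have hE : 1 / 2 * ∑ i ∈ range n, ∑ c, ∑ a, ∑ b, ∑ M ∈ range (n - i),
        X.kap (n + 1) i M c a b * X.eB g d (M, a) (n - 1 - i - M, b) S
      = - der (X.xR n) (X.F g d) S + (n + 1) * X.virK n g d S := by
    have h1 := const_sum hX n g d S
    have h2 := left_sum hX n (X.F g d) (gsym hX g d) S
    have h3 := right_sum hX n g d S
    have h4 : ∑ i ∈ range n, ∑ c, ∑ a, ∑ b, ∑ M ∈ range (n - i),
        X.kap (n + 1) i M c a b * X.eB g d (M, a) (n - 1 - i - M, b) S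
        = (∑ i ∈ range n, ∑ c, ∑ a, ∑ b, ∑ M ∈ range (n - i),
        X.kap (n + 1) i M c a b *
          (if g = 1 ∧ d = 0 then dd (M, a) (dd (n - 1 - i - M, b) (quad X.E)) S else 0))
        + (∑ i ∈ range n, ∑ c, ∑ a, ∑ b, ∑ M ∈ range (n - i),
        X.kap (n + 1) i M c a b * conv X.par (X.par a) (dd (M, a) (quad X.E))
          (dd (n - 1 - i - M, b) (X.F g d)) S)
        + ∑ i ∈ range n, ∑ c, ∑ a, ∑ b, ∑ M ∈ range (n - i),
        X.kap (n + 1) i M c a b * conv X.par (X.par a) (dd (M, a) (X.F g d))
          (dd (n - 1 - i - M, b) (quad X.E)) S := by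
      simp only [eB, mul_add, sum_add_distrib]
    rw [h4, h1, h2, h3]
    ring
  rw [hE]
  have hone := lam_one X n (X.F g d) S
  by_cases hgd : g = 0 ∧ d = 0
  · have hq : TT (0, X.one) (X.F g d) = quad X.E := by
      funext T; rw [TT_F hX, if_pos hgd]
    have hD : X.virD (n + 1) g d = quad (X.R ^ (n + 1) * X.E) := by
      funext T; simp only [virD]; rw [if_pos hgd]
    have hD' : X.virD n g d S = quad (X.R ^ n * X.E) S := by
      simp only [virD]; rw [if_pos hgd]
    have hid := quad_identity hX n S
    rw [hq, hD]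
    simp only [vir]
    rw [hD']
    linear_combination hone + hid
  · have hq : TT (0, X.one) (X.F g d) = fun _ => 0 := by
      funext T; rw [TT_F hX, if_neg hgd]
    have hD : X.virD (n + 1) g d = fun _ => 0 := by
      funext T; simp only [virD]; rw [if_neg hgd]
    have hD' : X.virD n g d S = 0 := by
      simp only [virD]; rw [if_neg hgd]
    rw [hq, hD, TT_zero, der_zero (linR_lam X (n + 1))]
    have hA : X.virA (n + 1) (fun _ => 0) S = 0 := by simp [virA]
    rw [hA]
    simp only [vir]
    rw [hD']
    linear_combination hone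

end GWData

end Vale.Agent.P269
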