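import Mathlib

/-!
# Descendant Gromov-Witten data and the Virasoro constraints in superspace form

Formal framework. `Ser ι` is the space of (super) power series in the descendant variables
`t^a_m`, given by their Taylor coefficients: `f [s₁, …, sₙ]` is the value at `t = 0` of
`∂_{sₙ} ⋯ ∂_{s₁} f` (left derivatives), `s = (m, a)` standing for `t^a_m`.
For the genus `g` potential `F_g = ∑ ⟨t, …, t⟩ / n!` this is the descendant invariant
`⟨τ(sₙ) ⋯ τ(s₁)⟩_g` with the insertions written from right to left.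
-/

namespace Vale.Agent.P269

open Finset

/-- An insertion `τ_m(φ_a)`, written `(m, a)`. -/
abbrev Ins (ι : Type) := ℕ × ι

/-- Taylor coefficients of a series in the variables `t^a_m`. -/
abbrev Ser (ι : Type) := List (Ins ι) → ℂ

/-- The left derivative `∂/∂t_s`. -/
def dd {ι : Type} (s : Ins ι) (f : Ser ι) : Ser ι := fun S => f (s :: S)

/-- The even derivation `∑ t^s A(s, s') ∂_{s'}`: every insertion `s` is replaced in turn by
`A s`, a linear form `φ ↦ ∑ A(s, s') φ(s')`. -/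
def der {ι : Type} (A : Ins ι → (Ins ι → ℂ) → ℂ) : Ser ι → List (Ins ι) → ℂ
  | _, [] => 0
  | f, s :: S => A s (fun s' => f (s' :: S)) + der A (fun T => f (s :: T)) S

/-- The product of two series in superspace: `conv par e f g` are the Taylor coefficients of
`f * g` when `f` has parity `e`; it is the Leibniz rule
`∂_s (f g) = (∂_s f) g + (-1)^(e |s|) f (∂_s g)`. -/
noncomputable def conv {ι : Type} (par : ι → ℕ) : ℕ → Ser ι → Ser ι → List (Ins ι) → ℂ
  | _, f, g, [] => f [] * g []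
  | e, f, g, s :: S => conv par (e + par s.2) (fun T => f (s :: T)) g S
      + (-1) ^ (e * par s.2) * conv par e f (fun T => g (s :: T)) S

/-- The series `½ ∑ M a b t^a_0 t^b_0` (for a graded symmetric matrix `M`). -/
def quad {ι : Type} (M : Matrix ι ι ℂ) : List (Ins ι) → ℂ
  | [(0, a), (0, b)] => M a b
  | _ => 0

/-- `[x]^k_i = e_{k+1-i}(x, x+1, …, x+k)` for `n = k + 1`: the coefficient of `N^i` in
`(N + x)(N + x + 1) ⋯ (N + x + k)`. -/
noncomputable def vc (n i : ℕ) (x : ℂ) : ℂ :=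
  (∏ j ∈ range n, (Polynomial.X + Polynomial.C (x + (j : ℂ)))).coeff i

/-- Cohomological and Gromov-Witten data of a target: a homogeneous basis `φ_a` (`a : ι`) of
`H^*(X; ℂ)` with `φ_a ∈ H^{p a, q a}(X)`, `one` the index of the unit class, `E a b = ∫ φ_b ∪ φ_a`
the Poincare pairing, `Einv` its inverse, `R` the matrix of `c₁(TX) ∪`, `c1 d` the degree of
`c₁(TX)` on the curve class `d`, and the descendant invariants `F g d` of genus `g` and class
`d`. -/
structure GWData (ι B : Type) [AddCommMonoid B] where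
  dim : ℕ
  p : ι → ℕ
  q : ι → ℕ
  one : ι
  E : Matrix ι ι ℂ
  Einv : Matrix ι ι ℂ
  R : Matrix ι ι ℂ
  c1 : B →+ ℤ
  F : ℕ → B → Ser ι

variable {ι B : Type} [Fintype ι] [DecidableEq ι] [AddCommMonoid B] [DecidableEq B]
  [HasAntidiagonal B]

namespace GWData

variable (X : GWData ι B)

/-- Cohomological parity (degree `p + q`). -/
def par (a : ι) : ℕ := X.p a + X.q a

/-- Hodge grading operator `μ = p - dim X / 2`. -/
noncomputable def mu (a : ι) : ℂ := (X.p a : ℂ) - (X.dim : ℂ) / 2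

/-- The linear part of `L_k`, `n = k + 1`: the replacement
`τ_m(φ_a) ↦ ∑_i [μ_a + m + 1/2]^k_i τ_{m+k-i}(c₁^i φ_a)` (terms with `m + k - i < 0` absent). -/
noncomputable def lam (n : ℕ) (s : Ins ι) (φ : Ins ι → ℂ) : ℂ :=
  ∑ i ∈ range (n + 1), if i + 1 ≤ s.1 + n then
    ∑ b, vc n i (X.mu s.2 + s.1 + 1 / 2) * (X.R ^ i) s.2 b * φ (s.1 + n - 1 - i, b) else 0

/-- The term of `L_k` coming from the dilaton shift,
`-∑_i [3/2 + μ_0]^k_i τ_{k+1-i}(c₁^i)`. -/
noncomputable def virA (n : ℕ) (f : Ser ι) (S : List (Ins ι)) : ℂ :=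
  - ∑ i ∈ range (n + 1), ∑ b, vc n i (X.mu X.one + 3 / 2) * (X.R ^ i) X.one b * f ((n - i, b) :: S)

/-- The term `ħ/2 ∑ (-1)^m [μ^a + m + 1/2]^k_i (R^i)^{ab} ∂_{-m-1,a} ∂_{m+k-i,b}` of `L_k`
(with `M = -m-1`) applied to `exp(∑ ħ^(g-1) F_g)`, divided by it; genus `g`, class `d` part. -/
noncomputable def virC (n g : ℕ) (d : B) (S : List (Ins ι)) : ℂ :=
  1 / 2 * ∑ i ∈ range (n - 1), ∑ M ∈ range (n - 1 - i), ∑ c, ∑ a, ∑ b,
    (-1) ^ (M + 1) * vc n i (X.mu c - M - 1 / 2) * X.Einv c a * (X.R ^ i) c b *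
    ((if g = 0 then 0 else dd (M, a) (dd (n - 2 - i - M, b) (X.F (g - 1) d)) S) +
      ∑ x ∈ antidiagonal g, ∑ y ∈ antidiagonal d,
        conv X.par (X.par a) (dd (M, a) (X.F x.1 y.1)) (dd (n - 2 - i - M, b) (X.F x.2 y.2)) S)

/-- The term `1/(2ħ) (R^{k+1} t_0, t_0)` of `L_k`. -/
noncomputable def virD (n g : ℕ) (d : B) (S : List (Ins ι)) : ℂ :=
  if g = 0 ∧ d = 0 then quad (X.R ^ n * X.E) S else 0

/-- The scalar term `χ(X)/16 - str(μ²)/4` of `L_0`. -/
noncomputable def virK (n g : ℕ) (d : B) (S : List (Ins ι)) : ℂ :=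
  if n = 1 ∧ g = 1 ∧ d = 0 ∧ S = [] then
    (∑ c, (-1) ^ X.par c) / 16 - (∑ c, (-1) ^ X.par c * X.mu c ^ 2) / 4 else 0

/-- `vir n g d S` is the coefficient at the insertions `S` of the genus `g`, class `d` part of
`Z⁻¹ L_k Z`, where `k = n - 1 ≥ -1`. -/
noncomputable def vir (n g : ℕ) (d : B) (S : List (Ins ι)) : ℂ :=
  X.virA n (X.F g d) S + der (X.lam n) (X.F g d) S + X.virC n g d S + X.virD n g d S
    + X.virK n g d S

/-- Standard properties of the Gromov-Witten theory of a smooth connected projective variety with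
`H^1 = 0` (all published): graded symmetry, the bidegree selection rule, the string equation
`L_{-1} Z = 0` and Hori's equation `L_0 Z = 0`. -/
structure IsGW : Prop where
  p_one : X.p X.one = 0
  q_one : X.q X.one = 0
  /-- `H^0(X)` is spanned by the unit -/
  conn : ∀ a, X.p a + X.q a = 0 → a = X.one
  /-- `H^1(X) = 0` -/
  noH1 : ∀ a, X.p a + X.q a ≠ 1
  E_symm : ∀ a b, X.E a b = (-1) ^ (X.par a * X.par b) * X.E b a
  E_deg : ∀ a b, X.E a b ≠ 0 → X.p a + X.p b = X.dim ∧ X.q a + X.q b = X.dim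
  E_inv : X.E * X.Einv = 1
  R_deg : ∀ a b, X.R a b ≠ 0 → X.p b = X.p a + 1 ∧ X.q b = X.q a + 1
  R_adj : X.R * X.E = X.E * X.R.transpose
  F_symm : ∀ g d P s t S, X.F g d (P ++ s :: t :: S)
    = (-1) ^ (X.par s.2 * X.par t.2) * X.F g d (P ++ t :: s :: S)
  /-- selection rule: `∑ (m_i + p_i - 1) = (1-g)(dim-3) + c₁·d = ∑ (m_i + q_i - 1)` -/
  F_dim : ∀ g d S, X.F g d S ≠ 0 →
    (S.map fun s => (s.1 : ℤ) + X.p s.2 - 1).sum = (1 - (g : ℤ)) * ((X.dim : ℤ) - 3) + X.c1 d ∧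
    (S.map fun s => (s.1 : ℤ) + X.q s.2 - 1).sum = (1 - (g : ℤ)) * ((X.dim : ℤ) - 3) + X.c1 d
  /-- `L_{-1} Z = 0` -/
  string : ∀ g d S, X.vir 0 g d S = 0
  /-- `L_0 Z = 0` -/
  hori : ∀ g d S, X.vir 1 g d S = 0

end GWData

end Vale.Agent.P269
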