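import Vale.Agent.P269.VirOps

/-!
# Degrees of the structure matrices; the string equation; the commutator of `lam` with lowering
-/

set_option linter.unusedSectionVars false

namespace Vale.Agent.P269

open Finset

variable {ι B : Type} [Fintype ι] [DecidableEq ι] [AddCommMonoid B] [DecidableEq B]
  [HasAntidiagonal B]

namespace GWData

variable {X : GWData ι B}

lemma pow_deg (hX : X.IsGW) (i : ℕ) (a b : ι) (h : (X.R ^ i) a b ≠ 0) :
    X.p b = X.p a + i ∧ X.q b = X.q a + i := by
  induction i generalizing b with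
  | zero =>
    rw [pow_zero, Matrix.one_apply] at h
    have : a = b := by by_contra hc; exact h (by simp [hc])
    subst this; simp
  | succ i ih =>
    rw [pow_succ, Matrix.mul_apply] at h
    obtain ⟨c, _, hc⟩ := Finset.exists_ne_zero_of_sum_ne_zero h
    have h1 := left_ne_zero_of_mul hc
    have h2 := right_ne_zero_of_mul hc
    obtain ⟨i1, i2⟩ := ih c h1
    obtain ⟨j1, j2⟩ := hX.R_deg c b h2
    omega

lemma pow_adj (hX : X.IsGW) (i : ℕ) : X.R ^ i * X.E = X.E * (X.R ^ i).transpose := by
  induction i with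
  | zero => simp
  | succ i ih =>
    rw [pow_succ', Matrix.mul_assoc, ih, ← Matrix.mul_assoc, hX.R_adj, Matrix.mul_assoc,
      ← Matrix.transpose_mul, ← pow_succ, ← pow_succ']

lemma inv_mul (hX : X.IsGW) : X.Einv * X.E = 1 := by
  exact mul_eq_one_comm.mp hX.E_inv

lemma inv_deg (hX : X.IsGW) (c a : ι) (h : X.Einv c a ≠ 0) :
    X.p c + X.p a = X.dim ∧ X.q c + X.q a = X.dim := by
  -- the graded part of `Einv` is also an inverse
  classical
  let M : Matrix ι ι ℂ := fun c a =>
    if X.p c + X.p a = X.dim ∧ X.q c + X.q a = X.dim then X.Einv c a else 0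
  have hM : X.E * M = 1 := by
    ext a c
    rw [Matrix.mul_apply]
    have h1 : ∀ b, X.E a b * M b c =
        if X.p a = X.p c ∧ X.q a = X.q c then X.E a b * X.Einv b c else 0 := by
      intro b
      by_cases hE : X.E a b = 0
      · simp [hE]
      · obtain ⟨e1, e2⟩ := hX.E_deg a b hE
        simp only [M]
        by_cases h2 : X.p b + X.p c = X.dim ∧ X.q b + X.q c = X.dim
        · rw [if_pos h2, if_pos (by omega)]
        · rw [if_neg h2, if_neg (by omega)]; ring
    rw [Finset.sum_congr rfl (fun b _ => h1 b)]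
    have h3 := congrFun (congrFun hX.E_inv a) c
    rw [Matrix.mul_apply] at h3
    by_cases h2 : X.p a = X.p c ∧ X.q a = X.q c
    · simp only [if_pos h2]; exact h3
    · simp only [if_neg h2, sum_const_zero]
      have : a ≠ c := by rintro rfl; exact h2 ⟨rfl, rfl⟩
      rw [Matrix.one_apply_ne this]
  have hu : M = X.Einv := by
    calc M = X.Einv * X.E * M := by rw [inv_mul hX, Matrix.one_mul]
      _ = X.Einv * (X.E * M) := Matrix.mul_assoc _ _ _
      _ = X.Einv := by rw [hM, Matrix.mul_one]
  by_contra hc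
  apply h
  rw [← hu]
  exact if_neg hc

lemma par_one (hX : X.IsGW) : X.par X.one = 0 := by
  simp [par, hX.p_one, hX.q_one]

lemma gsym (hX : X.IsGW) (g : ℕ) (d : B) : GSym X.par (X.F g d) := fun P s t S =>
  hX.F_symm g d P s t S

lemma linR_lam (X : GWData ι B) (n : ℕ) : LinR (X.lam n) := by
  constructor
  · intro s φ ψ
    simp only [lam]
    rw [← sum_add_distrib]
    apply sum_congr rfl
    intro i _
    split_ifs
    · rw [← sum_add_distrib]
      apply sum_congr rfl
      intro b _
      ring
    · simp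
  · intro s c φ
    simp only [lam]
    rw [mul_sum]
    apply sum_congr rfl
    intro i _
    split_ifs
    · rw [mul_sum]
      apply sum_congr rfl
      intro b _
      ring
    · simp

lemma lam_zero (X : GWData ι B) (s : Ins ι) (φ : Ins ι → ℂ) : X.lam 0 s φ = lowR s φ := by
  obtain ⟨_ | m, a⟩ := s
  · simp [lam]
  · simp [lam, vc_zero_zero, Matrix.one_apply]

lemma virA_zero (X : GWData ι B) (f : Ser ι) (S : List (Ins ι)) :
    X.virA 0 f S = - f ((0, X.one) :: S) := by
  simp [virA, vc_zero_zero, Matrix.one_apply]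

lemma virC_zero (X : GWData ι B) (g : ℕ) (d : B) (S : List (Ins ι)) : X.virC 0 g d S = 0 := by
  simp [virC]

/-- the string equation -/
lemma TT_F (hX : X.IsGW) (g : ℕ) (d : B) (S : List (Ins ι)) :
    TT (0, X.one) (X.F g d) S = if g = 0 ∧ d = 0 then quad X.E S else 0 := by
  have h := hX.string g d S
  simp only [vir, virA_zero, virC_zero, virD, virK, pow_zero, Matrix.one_mul] at h
  rw [der_congrA (lam_zero X)] at h
  simp only [TT]
  simp only [zero_ne_one, false_and, if_false, add_zero] at h
  linear_combination -h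

/-- the defect of commutation at `m = 0` -/
noncomputable def xR (X : GWData ι B) (n : ℕ) (s : Ins ι) (φ : Ins ι → ℂ) : ℂ :=
  if s.1 = 0 then ∑ i ∈ range n, ∑ b, vc (n + 1) i (X.mu s.2 - 1 / 2) * (X.R ^ i) s.2 b
    * φ (n - 1 - i, b) else 0

lemma lam_comm (X : GWData ι B) (n : ℕ) (s : Ins ι) (φ : Ins ι → ℂ) :
    X.lam (n + 1) s (fun s' => lowR s' φ) - lowR s (fun s' => X.lam (n + 1) s' φ)
      = (n + 1) * X.lam n s φ + X.xR n s φ := by
  obtain ⟨_ | m, a⟩ := s
  · simp only [lowR_zero, sub_zero, lam, xR, if_pos, zero_add, Nat.cast_zero, add_zero]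
    have h1 : (∑ i ∈ range (n + 1 + 1), if i + 1 ≤ n + 1 then
        ∑ b, vc (n + 1) i (X.mu a + 1 / 2) * (X.R ^ i) a b * lowR (n + 1 - 1 - i, b) φ else 0)
        = ∑ i ∈ range n, ∑ b, vc (n + 1) i (X.mu a + 1 / 2) * (X.R ^ i) a b * φ (n - 1 - i, b) := by
      rw [sum_range_succ, sum_range_succ]
      have z1 : ¬ (n + 1 + 1 ≤ n + 1) := by omega
      rw [if_neg z1, add_zero, if_pos (le_refl _)]
      have z2 : (∑ b, vc (n + 1) n (X.mu a + 1 / 2) * (X.R ^ n) a b *
          lowR (n + 1 - 1 - n, b) φ) = 0 := by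
        apply sum_eq_zero; intro b _
        have : n + 1 - 1 - n = 0 := by omega
        rw [this]; simp
      rw [z2, add_zero]
      apply sum_congr rfl
      intro i hi
      rw [mem_range] at hi
      rw [if_pos (by omega)]
      apply sum_congr rfl
      intro b _
      have : n + 1 - 1 - i = (n - 1 - i) + 1 := by omega
      rw [this, lowR_succ]
    have h2 : (∑ i ∈ range (n + 1), if i + 1 ≤ n then
        ∑ b, vc n i (X.mu a + 1 / 2) * (X.R ^ i) a b * φ (n - 1 - i, b) else 0)
        = ∑ i ∈ range n, ∑ b, vc n i (X.mu a + 1 / 2) * (X.R ^ i) a b * φ (n - 1 - i, b) := by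
      rw [sum_range_succ, if_neg (by omega), add_zero]
      apply sum_congr rfl
      intro i hi
      rw [mem_range] at hi
      rw [if_pos (by omega)]
    rw [h1, h2, mul_sum, ← sum_add_distrib]
    apply sum_congr rfl
    intro i _
    rw [mul_sum, ← sum_add_distrib]
    apply sum_congr rfl
    intro b _
    have := vc_succ_sub n i (X.mu a + 1 / 2)
    have e : X.mu a + 1 / 2 - 1 = X.mu a - 1 / 2 := by ring
    rw [e] at this
    linear_combination ((X.R ^ i) a b * φ (n - 1 - i, b)) * this
  · simp only [lowR_succ, lam, xR, Nat.succ_ne_zero, if_false, add_zero]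
    have h1 : (∑ i ∈ range (n + 1 + 1), if i + 1 ≤ m + 1 + (n + 1) then
        ∑ b, vc (n + 1) i (X.mu a + ((m + 1 : ℕ) : ℂ) + 1 / 2) * (X.R ^ i) a b *
          lowR (m + 1 + (n + 1) - 1 - i, b) φ else 0)
        = ∑ i ∈ range (n + 1 + 1), if i + 1 ≤ m + (n + 1) then
        ∑ b, vc (n + 1) i (X.mu a + m + 1 + 1 / 2) * (X.R ^ i) a b *
          φ (m + (n + 1) - 1 - i, b) else 0 := by
      apply sum_congr rfl
      intro i hi
      by_cases hc : i + 1 ≤ m + (n + 1)
      · rw [if_pos hc, if_pos (by omega)]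
        apply sum_congr rfl
        intro b _
        have : m + 1 + (n + 1) - 1 - i = (m + (n + 1) - 1 - i) + 1 := by omega
        rw [this, lowR_succ]
        have e : X.mu a + ((m + 1 : ℕ) : ℂ) + 1 / 2 = X.mu a + m + 1 + 1 / 2 := by
          push_cast; ring
        rw [e]
      · rw [if_neg hc]
        split_ifs with h2
        · apply sum_eq_zero; intro b _
          have : m + 1 + (n + 1) - 1 - i = 0 := by omega
          rw [this]; simp
        · rfl
    have h2 : (∑ i ∈ range (n + 1), if i + 1 ≤ m + 1 + n then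
        ∑ b, vc n i (X.mu a + ((m + 1 : ℕ) : ℂ) + 1 / 2) * (X.R ^ i) a b *
          φ (m + 1 + n - 1 - i, b) else 0)
        = ∑ i ∈ range (n + 1 + 1), if i + 1 ≤ m + (n + 1) then
        ∑ b, vc n i (X.mu a + m + 1 + 1 / 2) * (X.R ^ i) a b *
          φ (m + (n + 1) - 1 - i, b) else 0 := by
      rw [sum_range_succ _ (n + 1)]
      have z : (if n + 1 + 1 ≤ m + (n + 1) then
        ∑ b, vc n (n + 1) (X.mu a + m + 1 + 1 / 2) * (X.R ^ (n + 1)) a b *
          φ (m + (n + 1) - 1 - (n + 1), b) else 0) = 0 := by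
        split_ifs
        · apply sum_eq_zero; intro b _
          rw [vc_gt n (n + 1) _ (Nat.lt_succ_self n)]; ring
        · rfl
      rw [z, add_zero]
      apply sum_congr rfl
      intro i hi
      have e0 : m + 1 + n = m + (n + 1) := by omega
      rw [e0]
      split_ifs
      · apply sum_congr rfl
        intro b _
        have e : X.mu a + ((m + 1 : ℕ) : ℂ) + 1 / 2 = X.mu a + m + 1 + 1 / 2 := by
          push_cast; ring
        rw [e]
      · rfl
    rw [h1, h2, mul_sum, ← sum_sub_distrib]
    apply sum_congr rfl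
    intro i _
    split_ifs
    · rw [mul_sum, ← sum_sub_distrib]
      apply sum_congr rfl
      intro b _
      have := vc_succ_sub n i (X.mu a + m + 1 + 1 / 2)
      have e : X.mu a + m + 1 + 1 / 2 - 1 = X.mu a + m + 1 / 2 := by ring
      rw [e] at this
      linear_combination ((X.R ^ i) a b * φ (m + (n + 1) - 1 - i, b)) * this
    · simp

end GWData

end Vale.Agent.P269
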