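import Vale.Agent.P269.VirSel

set_option linter.unusedSectionVars false

/-!
# The dilaton equation for the Virasoro expressions
-/

namespace Vale.Agent.P269

open Finset

variable {ι B : Type} [Fintype ι] [DecidableEq ι] [AddCommMonoid B] [DecidableEq B]
  [HasAntidiagonal B]

/-- the identity replacement -/
def idR (s : Ins ι) (φ : Ins ι → ℂ) : ℂ := φ s

lemma good_idR (par : ι → ℕ) : Good par (idR (ι := ι)) :=
  ⟨⟨fun _ _ _ => rfl, fun _ _ _ => rfl⟩, fun _ _ _ _ _ => rfl,
    fun s _ _ h => h s ⟨par s.2, rfl⟩⟩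

lemma der_idR (f : Ser ι) (S : List (Ins ι)) : der idR f S = S.length * f S := by
  induction S generalizing f with
  | nil => simp
  | cons s S ih =>
    rw [der_cons, ih (fun T => f (s :: T))]
    simp only [idR, List.length_cons]
    push_cast
    ring

namespace GWData

variable {X : GWData ι B}

/-- the dilaton equation -/
def Dilaton (X : GWData ι B) : Prop := ∀ g d S, X.F g d ((1, X.one) :: S)
  = (2 * (g : ℂ) - 2 + S.length) * X.F g d S
    + if g = 1 ∧ d = 0 ∧ S = [] then (∑ c, (-1) ^ X.par c) / 24 else 0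

/-- a series concentrated on the empty list -/
def cst (c : ℂ) (S : List (Ins ι)) : ℂ := if S = [] then c else 0

lemma dd_cst (c : ℂ) (s : Ins ι) : dd s (cst c) = fun _ => 0 := by
  funext T; simp [dd, cst]

lemma der_cst {A : Ins ι → (Ins ι → ℂ) → ℂ} (hA : LinR A) (c : ℂ) (S : List (Ins ι)) :
    der A (cst c) S = 0 := by
  cases S with
  | nil => rfl
  | cons s S =>
    apply der_vanish hA
    intro T hT
    have : T ≠ [] := by rintro rfl; simp at hT
    simp [cst, this]

lemma TH_dil (hD : X.Dilaton) (g : ℕ) (d : B) :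
    TH (1, X.one) idR (X.F g d) = fun S => (2 * (g : ℂ) - 2) * X.F g d S
      + (if g = 1 ∧ d = 0 then 1 else 0) * cst ((∑ c, (-1) ^ X.par c) / 24) S := by
  funext S
  simp only [TH]
  rw [hD, der_idR]
  have : (if g = 1 ∧ d = 0 ∧ S = [] then (∑ c, (-1 : ℂ) ^ X.par c) / 24 else 0)
      = (if g = 1 ∧ d = 0 then 1 else 0) * cst ((∑ c, (-1 : ℂ) ^ X.par c) / 24) S := by
    simp only [cst]
    by_cases h : g = 1 ∧ d = 0
    · by_cases h2 : S = []
      · simp [h, h2]
      · simp [h2]
    · have : ¬ (g = 1 ∧ d = 0 ∧ S = []) := fun h' => h ⟨h'.1, h'.2.1⟩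
      simp [h, this]
  rw [this]
  ring

lemma TH_dil_dd (hX : X.IsGW) (hD : X.Dilaton) (g : ℕ) (d : B) (x : Ins ι) (S : List (Ins ι)) :
    TH (1, X.one) idR (dd x (X.F g d)) S = (2 * (g : ℂ) - 1) * dd x (X.F g d) S := by
  have hone : Even (X.par (1, X.one).2) := by
    show Even (X.par X.one)
    rw [par_one hX]; exact ⟨0, rfl⟩
  rw [TH_dd (1, X.one) (gsym hX g d) hone, TH_dil hD]
  have h1 := congrFun (dd_cst ((∑ c, (-1 : ℂ) ^ X.par c) / 24) x) S
  simp only [dd, idR] at h1 ⊢
  rw [h1]
  ring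

lemma TH_dil_dd_dd (hX : X.IsGW) (hD : X.Dilaton) (g : ℕ) (d : B) (x y : Ins ι)
    (S : List (Ins ι)) :
    TH (1, X.one) idR (dd x (dd y (X.F g d))) S = (2 * (g : ℂ)) * dd x (dd y (X.F g d)) S := by
  have hone : Even (X.par (1, X.one).2) := by
    show Even (X.par X.one)
    rw [par_one hX]; exact ⟨0, rfl⟩
  rw [TH_dd (1, X.one) ((gsym hX g d).dd y) hone]
  have h1 : TH (1, X.one) idR (dd y (X.F g d)) = fun T => (2 * (g : ℂ) - 1) * dd y (X.F g d) T := by
    funext T; exact TH_dil_dd hX hD g d y T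
  rw [h1]
  simp only [dd, idR]
  ring

lemma TH_dil_pB (hX : X.IsGW) (hD : X.Dilaton) (g : ℕ) (d : B) (x y : Ins ι)
    (S : List (Ins ι)) :
    TH (1, X.one) idR (X.pB g d x y) S = (2 * (g : ℂ) - 2) * X.pB g d x y S := by
  have hone : Even (X.par (1, X.one).2) := by
    show Even (X.par X.one)
    rw [par_one hX]; exact ⟨0, rfl⟩
  have hid := good_idR (ι := ι) X.par
  have e : X.pB g d x y = fun T => (if g = 0 then 0 else dd x (dd y (X.F (g - 1) d)) T) +
    ∑ u ∈ antidiagonal g, ∑ v ∈ antidiagonal d,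
      conv X.par (X.par x.2) (dd x (X.F u.1 v.1)) (dd y (X.F u.2 v.2)) T := rfl
  rw [e, TH_add (1, X.one) hid.toLinR, TH_sum (1, X.one) hid.toLinR]
  simp only
  rw [mul_add, mul_sum]
  congr 1
  · by_cases hg : g = 0
    · simp only [if_pos hg, mul_zero]
      exact TH_zero (1, X.one) hid.toLinR S
    · simp only [if_neg hg]
      rw [show (fun T => dd x (dd y (X.F (g - 1) d)) T) = dd x (dd y (X.F (g - 1) d)) from rfl,
        TH_dil_dd_dd hX hD]
      have : ((g - 1 : ℕ) : ℂ) = (g : ℂ) - 1 := by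
        rw [Nat.cast_sub (by omega)]; simp
      rw [this]; ring
  · apply sum_congr rfl
    intro u hu
    rw [TH_sum (1, X.one) hid.toLinR, mul_sum]
    apply sum_congr rfl
    intro v _
    rw [TH_conv (1, X.one) hid hone]
    have h1 : ∀ g d z, TH (1, X.one) idR (dd z (X.F g d))
        = fun T => (2 * (g : ℂ) - 1) * dd z (X.F g d) T := by
      intro g d z; funext T; exact TH_dil_dd hX hD g d z T
    rw [h1, h1, conv_smul_left, conv_smul_right]
    rw [HasAntidiagonal.mem_antidiagonal] at hu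
    have : (g : ℂ) = (u.1 : ℂ) + u.2 := by rw [← hu]; push_cast; ring
    rw [this]; ring

lemma TH_quad_dil (M : Matrix ι ι ℂ) (S : List (Ins ι)) :
    TH (1, X.one) idR (quad M) S = - 2 * quad M S := by
  simp only [TH]
  rw [der_idR]
  match S with
  | [] => simp [quad_nil, quad_one]
  | [s] => simp [quad_two, quad_one]
  | [s, t] => rw [quad_three]; simp
  | s :: t :: u :: S => rw [quad_len _ _ (by simp), quad_len _ _ (by simp)]; ring

theorem dil_vir (hX : X.IsGW) (hD : X.Dilaton) (n g : ℕ) (d : B) (S : List (Ins ι)) :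
    X.vir n g d ((1, X.one) :: S) = (2 * (g : ℂ) - 2 + S.length) * X.vir n g d S := by
  have hone : Even (X.par (1, X.one).2) := by
    show Even (X.par X.one)
    rw [par_one hX]; exact ⟨0, rfl⟩
  have hid := good_idR (ι := ι) X.par
  suffices h : TH (1, X.one) idR (X.vir n g d) S = (2 * (g : ℂ) - 2) * X.vir n g d S by
    simp only [TH] at h
    rw [der_idR] at h
    linear_combination h
  have e0 : X.vir n g d = fun T => (((X.virA n (X.F g d) T
      + der (X.lam n) (X.F g d) T) + X.virC n g d T) + X.virD n g d T)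
      + X.virK n g d T := rfl
  rw [e0, TH_add _ hid.toLinR, TH_add _ hid.toLinR, TH_add _ hid.toLinR, TH_add _ hid.toLinR]
  -- the term A
  have hA : TH (1, X.one) idR (fun T => X.virA n (X.F g d) T) S
      = (2 * (g : ℂ) - 2) * X.virA n (X.F g d) S + X.virA n (X.F g d) S := by
    have e : (fun T => X.virA n (X.F g d) T) = fun T => (-1) * ∑ i ∈ range (n + 1), ∑ b,
        (vc n i (X.mu X.one + 3 / 2) * (X.R ^ i) X.one b) * dd (n - i, b) (X.F g d) T := by
      funext T; simp only [virA, dd]; ring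
    rw [e, TH_smul _ hid.toLinR, TH_sum _ hid.toLinR]
    have e2 : X.virA n (X.F g d) S = (-1) * ∑ i ∈ range (n + 1), ∑ b,
        (vc n i (X.mu X.one + 3 / 2) * (X.R ^ i) X.one b) * dd (n - i, b) (X.F g d) S := by
      simp only [virA, dd]; ring
    rw [e2]
    have e3 : ∀ i ∈ range (n + 1), TH (1, X.one) idR (fun T => ∑ b,
        (vc n i (X.mu X.one + 3 / 2) * (X.R ^ i) X.one b) * dd (n - i, b) (X.F g d) T) S
        = (2 * (g : ℂ) - 1) * ∑ b,
        (vc n i (X.mu X.one + 3 / 2) * (X.R ^ i) X.one b) * dd (n - i, b) (X.F g d) S := by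
      intro i _
      rw [TH_sum _ hid.toLinR, mul_sum]
      apply sum_congr rfl
      intro b _
      rw [TH_smul _ hid.toLinR, TH_dil_dd hX hD]
      ring
    rw [sum_congr rfl e3, ← mul_sum]
    ring
  have hB : TH (1, X.one) idR (fun T => der (X.lam n) (X.F g d) T) S
      = (2 * (g : ℂ) - 2) * der (X.lam n) (X.F g d) S - X.virA n (X.F g d) S := by
    rw [show (fun T => der (X.lam n) (X.F g d) T) = der (X.lam n) (X.F g d) from rfl,
      TH_der _ hid (linR_lam X n), TH_dil hD]
    have h1 : der (fun s φ => X.lam n s (fun s' => idR s' φ) - idR s (fun s' => X.lam n s' φ))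
        (X.F g d) S = 0 := by
      rw [der_congrA (A' := fun _ _ => 0)]
      · have := der_smulA 0 (fun (_ : Ins ι) (_ : Ins ι → ℂ) => (0 : ℂ)) (X.F g d) S
        simpa using this
      · intro s φ; simp [idR]
    have h2 : der (X.lam n) (fun S => (2 * (g : ℂ) - 2) * X.F g d S
        + (if g = 1 ∧ d = 0 then 1 else 0) * cst ((∑ c, (-1) ^ X.par c) / 24) S) S
        = (2 * (g : ℂ) - 2) * der (X.lam n) (X.F g d) S := by
      rw [der_add (linR_lam X n), der_smul (linR_lam X n), der_smul (linR_lam X n)]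
      have h5 := der_cst (linR_lam X n) ((∑ c, (-1 : ℂ) ^ X.par c) / 24) S
      linear_combination (if g = 1 ∧ d = 0 then (1 : ℂ) else 0) * h5
    have h3 : X.lam n (1, X.one) (fun s' => X.F g d (s' :: S)) = - X.virA n (X.F g d) S := by
      simp only [lam, virA, neg_neg]
      apply sum_congr rfl
      intro i hi
      rw [mem_range] at hi
      rw [if_pos (by omega)]
      apply sum_congr rfl
      intro b _
      have e1 : 1 + n - 1 - i = n - i := by omega
      have e2 : X.mu X.one + ((1 : ℕ) : ℂ) + 1 / 2 = X.mu X.one + 3 / 2 := by push_cast; ring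
      rw [e1, e2]
    rw [h1, h2, h3]
    ring
  have hC : TH (1, X.one) idR (fun T => X.virC n g d T) S
      = (2 * (g : ℂ) - 2) * X.virC n g d S := by
    have e : (fun T => X.virC n g d T) = fun T => 1 / 2 * ∑ i ∈ range (n - 1), ∑ c, ∑ a, ∑ b,
        ∑ M ∈ range (n - 1 - i),
        X.kap n i M c a b * X.pB g d (M, a) (n - 2 - i - M, b) T := by
      funext T; exact virC_eq X n g d T
    rw [e, virC_eq, TH_smul _ hid.toLinR, TH_sum _ hid.toLinR]
    rw [show ∀ x y z : ℂ, x * (y * z) = y * (x * z) from fun x y z => by ring]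
    congr 1
    rw [mul_sum]
    apply sum_congr rfl; intro i _
    rw [TH_sum _ hid.toLinR, mul_sum]
    apply sum_congr rfl; intro c _
    rw [TH_sum _ hid.toLinR, mul_sum]
    apply sum_congr rfl; intro a _
    rw [TH_sum _ hid.toLinR, mul_sum]
    apply sum_congr rfl; intro b _
    rw [TH_sum _ hid.toLinR, mul_sum]
    apply sum_congr rfl; intro M _
    rw [TH_smul _ hid.toLinR, TH_dil_pB hX hD]
    ring
  have hQ : TH (1, X.one) idR (fun T => X.virD n g d T) S
      = (2 * (g : ℂ) - 2) * X.virD n g d S := by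
    by_cases h : g = 0 ∧ d = 0
    · have e : (fun T => X.virD n g d T) = quad (X.R ^ n * X.E) := by
        funext S; simp only [virD, if_pos h]
      rw [e, TH_quad_dil]
      simp only [virD, if_pos h]
      rw [h.1]; push_cast; ring
    · have e : (fun T => X.virD n g d T) = fun _ => 0 := by
        funext S; simp only [virD, if_neg h]
      rw [e, TH_zero _ hid.toLinR]
      simp only [virD, if_neg h, mul_zero]
  have hK : TH (1, X.one) idR (fun T => X.virK n g d T) S
      = (2 * (g : ℂ) - 2) * X.virK n g d S := by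
    simp only [TH]
    rw [der_idR]
    simp only [virK]
    by_cases h : n = 1 ∧ g = 1 ∧ d = 0 ∧ S = []
    · obtain ⟨rfl, rfl, rfl, rfl⟩ := h
      simp
    · rw [if_neg h, if_neg (by simp)]; ring
  rw [hA, hB, hC, hQ, hK]
  ring

end GWData

end Vale.Agent.P269
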