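import Vale.Agent.P269.VirDil

set_option linter.unusedSectionVars false

/-!
# The divisor equation for the Virasoro expressions
-/

namespace Vale.Agent.P269

open Finset

variable {ι B : Type} [Fintype ι] [DecidableEq ι] [AddCommMonoid B] [DecidableEq B]
  [HasAntidiagonal B]

/-- the replacement `τ_m(φ_a) ↦ τ_{m-1}(h ∪ φ_a)`, where `h ∪ φ_a = ∑ H a b φ_b` -/
noncomputable def hR (H : Matrix ι ι ℂ) (s : Ins ι) (φ : Ins ι → ℂ) : ℂ :=
  ∑ b, H s.2 b * (if s.1 = 0 then 0 else φ (s.1 - 1, b))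

lemma good_hR {par : ι → ℕ} {H : Matrix ι ι ℂ} (hH : ∀ a b, H a b ≠ 0 → Even (par a + par b)) :
    Good par (hR H) := by
  refine ⟨⟨?_, ?_⟩, ?_, ?_⟩
  · intro s φ ψ
    simp only [hR]
    rw [← sum_add_distrib]
    apply sum_congr rfl
    intro b _
    split_ifs <;> ring
  · intro s c φ
    simp only [hR]
    rw [mul_sum]
    apply sum_congr rfl
    intro b _
    split_ifs <;> ring
  · intro A hA s t φ
    simp only [hR]
    rw [hA.sum]
    apply sum_congr rfl
    intro b _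
    rw [hA.smul]
    split_ifs
    · rw [hA.zero]
    · rfl
  · intro s φ ψ h
    simp only [hR]
    apply sum_congr rfl
    intro b _
    by_cases h0 : H s.2 b = 0
    · rw [h0]; ring
    · split_ifs
      · rfl
      · rw [h _ (hH _ _ h0)]

lemma conv_good_left {par : ι → ℕ} {A : Ins ι → (Ins ι → ℂ) → ℂ} (hA : Good par A) (x : Ins ι)
    (f : Ins ι → Ser ι) (g : Ser ι) (S : List (Ins ι)) :
    conv par (par x.2) (fun T => A x (fun x' => f x' T)) g S
      = A x (fun x' => conv par (par x'.2) (f x') g S) := by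
  rw [← conv_lin_left hA.toLinR (par x.2) x f g S]
  apply hA.ev
  intro s' hs'
  exact conv_parity par hs' _ _ _

namespace GWData

variable {X : GWData ι B}

/-- `φ_h` is a divisor class of type `(1, 1)`: `H` is the matrix of `φ_h ∪`, `deg d` its degree
on the curve class `d`; the divisor equation, with the exceptional terms in degree zero. -/
structure IsDivisor (X : GWData ι B) (h : ι) (H : Matrix ι ι ℂ) (deg : B →+ ℂ) (c : ℂ) :
    Prop where
  p_h : X.p h = 1
  q_h : X.q h = 1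
  H_one : ∀ b, H X.one b = if b = h then 1 else 0
  H_deg : ∀ a b, H a b ≠ 0 → X.p b = X.p a + 1 ∧ X.q b = X.q a + 1
  H_adj : H * X.E = X.E * H.transpose
  H_comm : H * X.R = X.R * H
  /-- the divisor equation -/
  F_div : ∀ g d S, X.F g d ((0, h) :: S) = deg d * X.F g d S + der (hR H) (X.F g d) S
    + (if g = 0 ∧ d = 0 then quad (H * X.E) S else 0)
    + (if g = 1 ∧ d = 0 ∧ S = [] then c else 0)

variable {h : ι} {H : Matrix ι ι ℂ} {deg : B →+ ℂ} {c : ℂ}

lemma H_even (hH : X.IsDivisor h H deg c) (a b : ι) (h0 : H a b ≠ 0) :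
    Even (X.par a + X.par b) := by
  obtain ⟨h1, h2⟩ := hH.H_deg a b h0
  refine ⟨X.par a + 1, ?_⟩
  simp only [par]; omega

lemma H_mu (hH : X.IsDivisor h H deg c) (a b : ι) (h0 : H a b ≠ 0) :
    X.mu b = X.mu a + 1 := by
  obtain ⟨h1, _⟩ := hH.H_deg a b h0
  simp only [mu]; rw [h1]; push_cast; ring

lemma gd (hH : X.IsDivisor h H deg c) : Good X.par (hR H) := good_hR (H_even hH)

lemma H_pow (hH : X.IsDivisor h H deg c) (i : ℕ) : H * X.R ^ i = X.R ^ i * H := by
  have : Commute H X.R := hH.H_comm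
  exact this.pow_right i

lemma HE_deg (hX : X.IsGW) (hH : X.IsDivisor h H deg c) (a b : ι) (h0 : (H * X.E) a b ≠ 0) :
    X.p a + 1 + X.p b = X.dim ∧ X.q a + 1 + X.q b = X.dim := by
  rw [Matrix.mul_apply] at h0
  obtain ⟨e, _, he⟩ := Finset.exists_ne_zero_of_sum_ne_zero h0
  have h1 := hH.H_deg _ _ (left_ne_zero_of_mul he)
  have h2 := hX.E_deg _ _ (right_ne_zero_of_mul he)
  omega

lemma HE_even (hX : X.IsGW) (hH : X.IsDivisor h H deg c) (a b : ι) (h0 : (H * X.E) a b ≠ 0) :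
    Even (X.par a + X.par b) := by
  obtain ⟨h1, h2⟩ := HE_deg hX hH a b h0
  have : X.par a + X.par b + 2 * 1 = 2 * X.dim := by simp only [par]; omega
  rw [Nat.even_iff]; omega

lemma h_even (hH : X.IsDivisor h H deg c) : Even (X.par ((0, h) : Ins ι).2) := by
  show Even (X.par h)
  simp only [par]; rw [hH.p_h, hH.q_h]; exact ⟨1, rfl⟩

lemma TH_div (hH : X.IsDivisor h H deg c) (g : ℕ) (d : B) :
    TH (0, h) (hR H) (X.F g d) = fun S => deg d * X.F g d S
      + ((if g = 0 ∧ d = 0 then 1 else 0) * quad (H * X.E) S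
      + (if g = 1 ∧ d = 0 then 1 else 0) * cst c S) := by
  funext S
  simp only [TH]
  rw [hH.F_div]
  have h1 : (if g = 0 ∧ d = 0 then quad (H * X.E) S else 0)
      = (if g = 0 ∧ d = 0 then 1 else 0) * quad (H * X.E) S := by
    split_ifs <;> simp
  have h2 : (if g = 1 ∧ d = 0 ∧ S = [] then c else 0)
      = (if g = 1 ∧ d = 0 then 1 else 0) * cst c S := by
    simp only [cst]
    by_cases h : g = 1 ∧ d = 0
    · by_cases h2 : S = []
      · simp [h, h2]
      · simp [h2]
    · have : ¬ (g = 1 ∧ d = 0 ∧ S = []) := fun h' => h ⟨h'.1, h'.2.1⟩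
      simp [h, this]
  rw [h1, h2]
  ring

lemma TH_div_dd (hX : X.IsGW) (hH : X.IsDivisor h H deg c) (g : ℕ) (d : B) (x : Ins ι) :
    TH (0, h) (hR H) (dd x (X.F g d)) = fun S => deg d * dd x (X.F g d) S
      + ((if g = 0 ∧ d = 0 then 1 else 0) * dd x (quad (H * X.E)) S
      + hR H x (fun x' => dd x' (X.F g d) S)) := by
  funext S
  rw [TH_dd (0, h) (gsym hX g d) (h_even hH), TH_div hH]
  have h1 := congrFun (dd_cst c x) S
  simp only [dd] at h1 ⊢
  rw [h1]
  ring

lemma TH_div_dd_dd (hX : X.IsGW) (hH : X.IsDivisor h H deg c) (g : ℕ) (d : B) (x y : Ins ι)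
    (S : List (Ins ι)) :
    TH (0, h) (hR H) (dd x (dd y (X.F g d))) S = deg d * dd x (dd y (X.F g d)) S
      + (if g = 0 ∧ d = 0 then 1 else 0) * dd x (dd y (quad (H * X.E))) S
      + hR H x (fun x' => dd x' (dd y (X.F g d)) S)
      + hR H y (fun y' => dd x (dd y' (X.F g d)) S) := by
  rw [TH_dd (0, h) ((gsym hX g d).dd y) (h_even hH), TH_div_dd hX hH]
  simp only [dd]
  ring

/-- the exceptional terms -/
noncomputable def eQ (X : GWData ι B) (Q : Matrix ι ι ℂ) (g : ℕ) (d : B) (x y : Ins ι)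
    (S : List (Ins ι)) : ℂ :=
  (if g = 1 ∧ d = 0 then dd x (dd y (quad Q)) S else 0) +
    conv X.par (X.par x.2) (dd x (quad Q)) (dd y (X.F g d)) S +
    conv X.par (X.par x.2) (dd x (X.F g d)) (dd y (quad Q)) S

lemma TH_div_pB (hX : X.IsGW) (hH : X.IsDivisor h H deg c) (g : ℕ) (d : B) (x y : Ins ι)
    (S : List (Ins ι)) :
    TH (0, h) (hR H) (X.pB g d x y) S = deg d * X.pB g d x y S
      + (hR H x (fun x' => X.pB g d x' y S)
      + hR H y (fun y' => X.pB g d x y' S)) + X.eQ (H * X.E) g d x y S := by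
  have hg := gd hH
  have e0 : X.pB g d x y = fun T => (if g = 0 then 0 else dd x (dd y (X.F (g - 1) d)) T) +
    ∑ u ∈ antidiagonal g, ∑ v ∈ antidiagonal d,
      conv X.par (X.par x.2) (dd x (X.F u.1 v.1)) (dd y (X.F u.2 v.2)) T := rfl
  rw [e0, TH_add _ hg.toLinR, TH_sum _ hg.toLinR]
  simp only [TH_sum _ hg.toLinR]
  -- first part
  have h1 : TH (0, h) (hR H) (fun T => if g = 0 then 0 else dd x (dd y (X.F (g - 1) d)) T) S
      = (if g = 1 ∧ d = 0 then dd x (dd y (quad (H * X.E))) S else 0)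
        + deg d * (if g = 0 then 0 else dd x (dd y (X.F (g - 1) d)) S)
        + hR H x (fun x' => if g = 0 then 0 else dd x' (dd y (X.F (g - 1) d)) S)
        + hR H y (fun y' => if g = 0 then 0 else dd x (dd y' (X.F (g - 1) d)) S) := by
    by_cases hg0 : g = 0
    · subst hg0
      simp only [if_true]
      rw [TH_zero _ hg.toLinR, hg.toLinR.zero, hg.toLinR.zero]
      simp
    · simp only [if_neg hg0]
      rw [show (fun T => dd x (dd y (X.F (g - 1) d)) T) = dd x (dd y (X.F (g - 1) d)) from rfl,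
        TH_div_dd_dd hX hH]
      have : (g - 1 = 0 ∧ d = 0) ↔ (g = 1 ∧ d = 0) := by
        constructor
        · rintro ⟨h, h'⟩; exact ⟨by omega, h'⟩
        · rintro ⟨h, h'⟩; exact ⟨by omega, h'⟩
      simp only [this]
      split_ifs <;> ring
  have h2 : ∀ (u : ℕ × ℕ) (v : B × B), v ∈ antidiagonal d → TH (0, h) (hR H)
      (conv X.par (X.par x.2) (dd x (X.F u.1 v.1)) (dd y (X.F u.2 v.2))) S
      = (if u.1 = 0 ∧ v.1 = 0 then
          conv X.par (X.par x.2) (dd x (quad (H * X.E))) (dd y (X.F u.2 v.2)) S else 0)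
        + (if u.2 = 0 ∧ v.2 = 0 then
          conv X.par (X.par x.2) (dd x (X.F u.1 v.1)) (dd y (quad (H * X.E))) S else 0)
        + deg d * conv X.par (X.par x.2) (dd x (X.F u.1 v.1)) (dd y (X.F u.2 v.2)) S
        + hR H x (fun x' => conv X.par (X.par x'.2) (dd x' (X.F u.1 v.1)) (dd y (X.F u.2 v.2)) S)
        + hR H y (fun y' => conv X.par (X.par x.2) (dd x (X.F u.1 v.1))
            (dd y' (X.F u.2 v.2)) S) := by
    intro u v hv
    rw [TH_conv _ hg (h_even hH), TH_div_dd hX hH, TH_div_dd hX hH, conv_add_left, conv_add_left,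
      conv_add_right, conv_add_right, conv_smul_left, conv_smul_left, conv_smul_right,
      conv_smul_right, conv_good_left hg x (fun x' => dd x' (X.F u.1 v.1)),
      ← conv_lin_right hg.toLinR _ y _ (fun y' => dd y' (X.F u.2 v.2))]
    rw [HasAntidiagonal.mem_antidiagonal] at hv
    have hd : deg d = deg v.1 + deg v.2 := by rw [← hv, map_add]
    rw [hd]
    split_ifs <;> ring
  rw [h1]
  have h3 : ∀ u ∈ antidiagonal g, ∀ v ∈ antidiagonal d, TH (0, h) (hR H)
      (fun T => conv X.par (X.par x.2) (dd x (X.F u.1 v.1)) (dd y (X.F u.2 v.2)) T) S = _ :=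
    fun u _ v hv => h2 u v hv
  rw [sum_congr rfl (fun u hu => sum_congr rfl (fun v hv => h3 u hu v hv))]
  simp only [sum_add_distrib]
  rw [sum_anti_left g d (fun g' d' => conv X.par (X.par x.2) (dd x (quad (H * X.E)))
      (dd y (X.F g' d')) S),
    sum_anti_right g d (fun g' d' => conv X.par (X.par x.2) (dd x (X.F g' d'))
      (dd y (quad (H * X.E))) S)]
  simp only [pB, eQ]
  rw [hg.toLinR.add, hg.toLinR.add]
  simp only [hg.toLinR.sum, mul_add, mul_sum]
  ring

/-! ### the shift terms of the quadratic part cancel -/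

lemma shift_sum2 (m : ℕ) (κ κ' : ℕ → ℂ) (G : ℕ → ℕ → ℂ) :
    ∑ M ∈ range (m + 1), (κ M * (if M = 0 then 0 else G (M - 1) (m - M))
      + κ' M * (if m - M = 0 then 0 else G M (m - M - 1)))
      = ∑ N ∈ range m, (κ (N + 1) + κ' N) * G N (m - 1 - N) := by
  simp only [add_mul, sum_add_distrib]
  congr 1
  · rw [sum_range_succ']
    simp only [Nat.succ_ne_zero, if_false, if_true, mul_zero, add_zero]
    apply sum_congr rfl
    intro N hN
    have h1 : N + 1 - 1 = N := rfl
    have h2 : m - (N + 1) = m - 1 - N := by omega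
    rw [h1, h2]
  · rw [sum_range_succ]
    simp only [Nat.sub_self, if_true, mul_zero, add_zero]
    apply sum_congr rfl
    intro N hN
    rw [mem_range] at hN
    have h1 : ¬ (m - N = 0) := by omega
    have h2 : m - N - 1 = m - 1 - N := by omega
    rw [if_neg h1, h2]

lemma invH (hX : X.IsGW) (hH : X.IsDivisor h H deg c) : X.Einv * H = H.transpose * X.Einv := by
  calc X.Einv * H = X.Einv * (H * (X.E * X.Einv)) := by rw [hX.E_inv, Matrix.mul_one]
    _ = X.Einv * (H * X.E) * X.Einv := by simp only [Matrix.mul_assoc]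
    _ = X.Einv * (X.E * H.transpose) * X.Einv := by rw [hH.H_adj]
    _ = (X.Einv * X.E) * H.transpose * X.Einv := by simp only [Matrix.mul_assoc]
    _ = _ := by rw [inv_mul hX, Matrix.one_mul]

lemma kap_shift (hX : X.IsGW) (hH : X.IsDivisor h H deg c) (n i N : ℕ) (a' b' : ι) :
    (∑ e, ∑ a, X.kap n i (N + 1) e a b' * H a a') + ∑ e, ∑ b, X.kap n i N e a' b * H b b' = 0 := by
  have h1 : ∀ e, ∑ a, X.kap n i (N + 1) e a b' * H a a'
      = ∑ c', (-1) ^ N * vc n i (X.mu c' - N - 1 / 2) * X.Einv c' a' * (H c' e * (X.R ^ i) e b') := by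
    intro e
    have h2 : ∑ a, X.kap n i (N + 1) e a b' * H a a'
        = (-1) ^ N * vc n i (X.mu e - ((N + 1 : ℕ) : ℂ) - 1 / 2) * (X.R ^ i) e b'
          * (X.Einv * H) e a' := by
      rw [Matrix.mul_apply, mul_sum]
      apply sum_congr rfl; intro a _
      simp only [kap]
      rw [pow_succ, pow_succ]; ring
    rw [h2, invH hX hH, Matrix.mul_apply, mul_sum]
    apply sum_congr rfl; intro c' _
    rw [Matrix.transpose_apply]
    by_cases h0 : H c' e = 0
    · rw [h0]; ring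
    · rw [H_mu hH c' e h0]
      have : X.mu c' + 1 - ((N + 1 : ℕ) : ℂ) - 1 / 2 = X.mu c' - N - 1 / 2 := by push_cast; ring
      rw [this]; ring
  rw [sum_congr rfl (fun e _ => h1 e), sum_comm, ← sum_add_distrib]
  apply sum_eq_zero; intro c' _
  have h3 : ∑ e, (-1) ^ N * vc n i (X.mu c' - N - 1 / 2) * X.Einv c' a' * (H c' e * (X.R ^ i) e b')
      = (-1) ^ N * vc n i (X.mu c' - N - 1 / 2) * X.Einv c' a' * (H * X.R ^ i) c' b' := by
    rw [Matrix.mul_apply, mul_sum]
  have h4 : ∑ b, X.kap n i N c' a' b * H b b'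
      = - ((-1) ^ N * vc n i (X.mu c' - N - 1 / 2) * X.Einv c' a' * (X.R ^ i * H) c' b') := by
    rw [Matrix.mul_apply, mul_sum, ← sum_neg_distrib]
    apply sum_congr rfl; intro b _
    simp only [kap]
    rw [pow_succ]; ring
  rw [h3, h4, H_pow hH]
  ring

lemma perm1 (m : ℕ) (f : ι → ι → ι → ℕ → ι → ℂ) :
    (∑ e, ∑ a, ∑ b, ∑ M ∈ range m, ∑ a', f e a b M a')
      = ∑ a', ∑ b, ∑ M ∈ range m, ∑ e, ∑ a, f e a b M a' := by
  calc _ = ∑ e, ∑ a, ∑ b, ∑ a', ∑ M ∈ range m, f e a b M a' :=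
        sum_congr rfl fun e _ => sum_congr rfl fun a _ => sum_congr rfl fun b _ => sum_comm
    _ = ∑ e, ∑ a, ∑ a', ∑ b, ∑ M ∈ range m, f e a b M a' :=
        sum_congr rfl fun e _ => sum_congr rfl fun a _ => sum_comm
    _ = ∑ e, ∑ a', ∑ a, ∑ b, ∑ M ∈ range m, f e a b M a' :=
        sum_congr rfl fun e _ => sum_comm
    _ = ∑ a', ∑ e, ∑ a, ∑ b, ∑ M ∈ range m, f e a b M a' := sum_comm
    _ = ∑ a', ∑ e, ∑ b, ∑ a, ∑ M ∈ range m, f e a b M a' :=
        sum_congr rfl fun a' _ => sum_congr rfl fun e _ => sum_comm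
    _ = ∑ a', ∑ b, ∑ e, ∑ a, ∑ M ∈ range m, f e a b M a' :=
        sum_congr rfl fun a' _ => sum_comm
    _ = ∑ a', ∑ b, ∑ e, ∑ M ∈ range m, ∑ a, f e a b M a' :=
        sum_congr rfl fun a' _ => sum_congr rfl fun b _ => sum_congr rfl fun e _ => sum_comm
    _ = _ := sum_congr rfl fun a' _ => sum_congr rfl fun b _ => sum_comm

lemma perm2 (m : ℕ) (f : ι → ι → ι → ℕ → ι → ℂ) :
    (∑ e, ∑ a, ∑ b, ∑ M ∈ range m, ∑ b', f e a b M b')
      = ∑ a, ∑ b', ∑ M ∈ range m, ∑ e, ∑ b, f e a b M b' := by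
  calc _ = ∑ a, ∑ e, ∑ b, ∑ M ∈ range m, ∑ b', f e a b M b' := sum_comm
    _ = ∑ a, ∑ e, ∑ b, ∑ b', ∑ M ∈ range m, f e a b M b' :=
        sum_congr rfl fun e _ => sum_congr rfl fun a _ => sum_congr rfl fun b _ => sum_comm
    _ = ∑ a, ∑ e, ∑ b', ∑ b, ∑ M ∈ range m, f e a b M b' :=
        sum_congr rfl fun e _ => sum_congr rfl fun a _ => sum_comm
    _ = ∑ a, ∑ b', ∑ e, ∑ b, ∑ M ∈ range m, f e a b M b' :=
        sum_congr rfl fun e _ => sum_comm
    _ = ∑ a, ∑ b', ∑ e, ∑ M ∈ range m, ∑ b, f e a b M b' :=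
        sum_congr rfl fun a' _ => sum_congr rfl fun b _ => sum_congr rfl fun e _ => sum_comm
    _ = _ := sum_congr rfl fun a' _ => sum_congr rfl fun b _ => sum_comm

lemma shift_cancel (hX : X.IsGW) (hH : X.IsDivisor h H deg c) (n i m : ℕ)
    (G : Ins ι → Ins ι → ℂ) :
    ∑ e, ∑ a, ∑ b, ∑ M ∈ range (m + 1), X.kap n i M e a b *
      (hR H (M, a) (fun x' => G x' (m - M, b)) + hR H (m - M, b) (fun y' => G (M, a) y')) = 0 := by
  have h1 : ∑ e, ∑ a, ∑ b, ∑ M ∈ range (m + 1), X.kap n i M e a b *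
      (hR H (M, a) (fun x' => G x' (m - M, b)) + hR H (m - M, b) (fun y' => G (M, a) y'))
      = ∑ a', ∑ b', ∑ M ∈ range (m + 1),
        ((∑ e, ∑ a, X.kap n i M e a b' * H a a') *
          (if M = 0 then 0 else G (M - 1, a') (m - M, b'))
        + (∑ e, ∑ b, X.kap n i M e a' b * H b b') *
          (if m - M = 0 then 0 else G (M, a') (m - M - 1, b'))) := by
    simp only [hR, mul_add, sum_add_distrib, mul_sum, sum_mul]
    congr 1
    · rw [perm1 (m + 1) (fun e a b M a' => X.kap n i M e a b * (H a a' *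
              (if M = 0 then 0 else G (M - 1, a') (m - M, b))))]
      exact sum_congr rfl fun _ _ => sum_congr rfl fun _ _ => sum_congr rfl fun _ _ =>
        sum_congr rfl fun _ _ => sum_congr rfl fun _ _ => by ring
    · rw [perm2 (m + 1) (fun e a b M b' => X.kap n i M e a b * (H b b' *
              (if m - M = 0 then 0 else G (M, a) (m - M - 1, b'))))]
      exact sum_congr rfl fun _ _ => sum_congr rfl fun _ _ => sum_congr rfl fun _ _ =>
        sum_congr rfl fun _ _ => sum_congr rfl fun _ _ => by ring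
  rw [h1]
  apply sum_eq_zero; intro a' _
  apply sum_eq_zero; intro b' _
  rw [shift_sum2 m (fun M => ∑ e, ∑ a, X.kap n i M e a b' * H a a')
    (fun M => ∑ e, ∑ b, X.kap n i M e a' b * H b b') (fun M M' => G (M, a') (M', b'))]
  apply sum_eq_zero; intro N _
  rw [kap_shift hX hH, zero_mul]

end GWData

end Vale.Agent.P269
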