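import Vale.Agent.P269.VirDiv

set_option linter.unusedSectionVars false

/-!
# The divisor equation for the Virasoro expressions, continued
-/

namespace Vale.Agent.P269

open Finset

variable {ι B : Type} [Fintype ι] [DecidableEq ι] [AddCommMonoid B] [DecidableEq B]
  [HasAntidiagonal B]

namespace GWData

variable {X : GWData ι B} {h : ι} {H : Matrix ι ι ℂ} {deg : B →+ ℂ} {c : ℂ}

/-- the value of `lam` at the divisor insertion -/
lemma lam_h (hX : X.IsGW) (hH : X.IsDivisor h H deg c) (n : ℕ) (φ : Ins ι → ℂ) :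
    X.lam n (0, h) φ = ∑ i ∈ range (n + 1), ∑ b, vc n i (X.mu X.one + 3 / 2)
      * (X.R ^ i) X.one b * hR H (n - i, b) φ := by
  simp only [lam]
  apply sum_congr rfl
  intro i hi
  rw [mem_range] at hi
  by_cases hc : i + 1 ≤ n
  · rw [if_pos (by omega)]
    have h1 : ∑ b, vc n i (X.mu X.one + 3 / 2) * (X.R ^ i) X.one b * hR H (n - i, b) φ
        = ∑ b', vc n i (X.mu X.one + 3 / 2) * (X.R ^ i * H) X.one b' * φ (n - i - 1, b') := by
      simp only [hR, Matrix.mul_apply]
      rw [sum_congr rfl (fun b _ => mul_sum _ _ _), sum_comm]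
      apply sum_congr rfl; intro b' _
      rw [mul_sum, sum_mul]
      apply sum_congr rfl; intro b _
      rw [if_neg (by omega)]
      ring
    rw [h1, ← H_pow hH]
    apply sum_congr rfl; intro b _
    have h2 : (H * X.R ^ i) X.one b = (X.R ^ i) h b := by
      rw [Matrix.mul_apply]
      simp only [hH.H_one, ite_mul, one_mul, zero_mul]
      rw [Finset.sum_ite_eq' univ h]
      simp
    have h3 : X.mu h + ((0 : ℕ) : ℂ) + 1 / 2 = X.mu X.one + 3 / 2 := by
      simp only [mu]; rw [hH.p_h, hX.p_one]; push_cast; ring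
    have h4 : 0 + n - 1 - i = n - i - 1 := by omega
    rw [h2, h3, h4]
  · rw [if_neg (by omega)]
    symm
    apply sum_eq_zero; intro b _
    simp only [hR]
    have : n - i = 0 := by omega
    simp [this]

/-- the defect of commutation at `m = 0` -/
noncomputable def yR (X : GWData ι B) (H : Matrix ι ι ℂ) (n : ℕ) (s : Ins ι) (φ : Ins ι → ℂ) :
    ℂ :=
  if s.1 = 0 then ∑ i ∈ range (n - 1), ∑ b, vc n i (X.mu s.2 + 1 / 2) * (H * X.R ^ i) s.2 b
    * φ (n - 2 - i, b) else 0

lemma lam_hR (hH : X.IsDivisor h H deg c) (n : ℕ) (s : Ins ι) (φ : Ins ι → ℂ) :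
    X.lam n s (fun s' => hR H s' φ) - hR H s (fun s' => X.lam n s' φ) = X.yR H n s φ := by
  have h1 : ∀ i, ∀ k, ∑ b, vc n i (X.mu s.2 + s.1 + 1 / 2) * (X.R ^ i) s.2 b * hR H (k, b) φ
      = ∑ b, vc n i (X.mu s.2 + s.1 + 1 / 2) * (H * X.R ^ i) s.2 b *
        (if k = 0 then 0 else φ (k - 1, b)) := by
    intro i k
    rw [H_pow hH i]
    simp only [hR, Matrix.mul_apply]
    rw [sum_congr rfl (fun b _ => mul_sum _ _ _), sum_comm]
    apply sum_congr rfl; intro b' _
    rw [mul_sum, sum_mul]
    apply sum_congr rfl; intro b _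
    ring
  have h2 : X.lam n s (fun s' => hR H s' φ) = ∑ i ∈ range (n + 1), if i + 1 ≤ s.1 + n then
      ∑ b, vc n i (X.mu s.2 + s.1 + 1 / 2) * (H * X.R ^ i) s.2 b *
        (if s.1 + n - 1 - i = 0 then 0 else φ (s.1 + n - 1 - i - 1, b)) else 0 := by
    simp only [lam]
    apply sum_congr rfl; intro i _
    by_cases hc : i + 1 ≤ s.1 + n
    · rw [if_pos hc, if_pos hc]; exact h1 i _
    · rw [if_neg hc, if_neg hc]
  rw [h2]
  obtain ⟨_ | m, a⟩ := s
  · have h3 : hR H (0, a) (fun s' => X.lam n s' φ) = 0 := by simp [hR]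
    rw [h3, sub_zero]
    simp only [yR, if_true]
    obtain _ | n := n
    · simp
    · rw [sum_range_succ, if_neg (by omega), add_zero, sum_range_succ]
      have z : (if n + 1 ≤ 0 + (n + 1) then ∑ b, vc (n + 1) n (X.mu a + ((0 : ℕ) : ℂ) + 1 / 2)
          * (H * X.R ^ n) a b * (if 0 + (n + 1) - 1 - n = 0 then 0
            else φ (0 + (n + 1) - 1 - n - 1, b)) else 0) = 0 := by
        rw [if_pos (by omega)]
        apply sum_eq_zero; intro b _
        rw [if_pos (by omega), mul_zero]
      rw [z, add_zero]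
      have h5 : n + 1 - 1 = n := rfl
      rw [h5]
      apply sum_congr rfl; intro i hi
      rw [mem_range] at hi
      rw [if_pos (by omega)]
      apply sum_congr rfl; intro b _
      rw [if_neg (by omega)]
      have h6 : 0 + (n + 1) - 1 - i - 1 = n + 1 - 2 - i := by omega
      rw [h6]
      simp
  · have h3 : hR H (m + 1, a) (fun s' => X.lam n s' φ)
        = ∑ i ∈ range (n + 1), if i + 1 ≤ m + n then
          ∑ b, vc n i (X.mu a + ((m + 1 : ℕ) : ℂ) + 1 / 2) * (H * X.R ^ i) a b *
            φ (m + n - 1 - i, b) else 0 := by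
      simp only [hR, lam, Nat.succ_ne_zero, if_false, Nat.add_sub_cancel]
      rw [sum_congr rfl (fun b _ => mul_sum _ _ _), sum_comm]
      apply sum_congr rfl; intro i _
      by_cases hc : i + 1 ≤ m + n
      · simp only [if_pos hc]
        simp only [Matrix.mul_apply]
        rw [sum_congr rfl (fun b _ => mul_sum _ _ _), sum_comm]
        apply sum_congr rfl; intro b' _
        rw [mul_sum, sum_mul]
        apply sum_congr rfl; intro b _
        by_cases h0 : H a b = 0
        · rw [h0]; ring
        · rw [H_mu hH a b h0]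
          have : X.mu a + 1 + m + 1 / 2 = X.mu a + ((m + 1 : ℕ) : ℂ) + 1 / 2 := by
            push_cast; ring
          rw [this]; ring
      · simp only [if_neg hc, mul_zero, sum_const_zero]
    rw [h3, ← sum_sub_distrib]
    simp only [yR, Nat.succ_ne_zero, if_false]
    apply sum_eq_zero; intro i _
    by_cases hc : i + 1 ≤ m + n
    · rw [if_pos hc, if_pos (by omega), ← sum_sub_distrib]
      apply sum_eq_zero; intro b _
      rw [if_neg (by omega)]
      have : m + 1 + n - 1 - i - 1 = m + n - 1 - i := by omega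
      rw [this]; ring
    · rw [if_neg hc, sub_zero]
      by_cases hc2 : i + 1 ≤ m + 1 + n
      · rw [if_pos hc2]
        apply sum_eq_zero; intro b _
        rw [if_pos (by omega), mul_zero]
      · rw [if_neg hc2]

/-! ### the exceptional terms in the quadratic part -/

lemma left_sumQ (hX : X.IsGW) (hH : X.IsDivisor h H deg c) (n : ℕ) (G : Ser ι)
    (hG : GSym X.par G) (S : List (Ins ι)) :
    ∑ i ∈ range n, ∑ e, ∑ a, ∑ b, ∑ M ∈ range (n - i),
        X.kap (n + 1) i M e a b * conv X.par (X.par a) (dd (M, a) (quad (H * X.E)))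
          (dd (n - 1 - i - M, b) G) S = - der (X.yR H (n + 1)) G S := by
  have h1 : ∀ i ∈ range n, ∀ e a b, ∑ M ∈ range (n - i),
        X.kap (n + 1) i M e a b * conv X.par (X.par a) (dd (M, a) (quad (H * X.E)))
          (dd (n - 1 - i - M, b) G) S
      = der (fun s φ => X.kap (n + 1) i 0 e a b *
          ((if s.1 = 0 then (H * X.E) a s.2 else 0) * φ (n - 1 - i, b))) G S := by
    intro i hi e a b
    rw [mem_range] at hi
    have hm : n - i = (n - 1 - i) + 1 := by omega
    rw [hm, sum_range_succ']
    have z : ∑ M ∈ range (n - 1 - i), X.kap (n + 1) i (M + 1) e a b *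
        conv X.par (X.par a) (dd (M + 1, a) (quad (H * X.E)))
          (dd (n - 1 - i - (M + 1), b) G) S = 0 := by
      apply sum_eq_zero; intro M _
      rw [quad_dd_succ, conv_zero_left, mul_zero]
    rw [z, zero_add, der_smulA, Nat.sub_zero]
    by_cases hk : X.kap (n + 1) i 0 e a b = 0
    · rw [hk]; ring
    · congr 1
      simp only [kap] at hk
      have k1 := right_ne_zero_of_mul hk
      have k2 := right_ne_zero_of_mul (left_ne_zero_of_mul hk)
      apply conv_linear
      · simp only [dd]; exact quad_one _ _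
      · intro s; simp only [dd]; rw [quad_two]; simp
      · intro s t T; simp only [dd]; exact quad_three _ _ _ _ _
      · intro s hs
        by_cases h : s.1 = 0
        · rw [if_pos h] at hs
          exact HE_even hX hH _ _ hs
        · rw [if_neg h] at hs; exact absurd rfl hs
      · have e1 := inv_even hX _ _ k2
        have e2 := pow_even hX _ _ _ k1
        have : Even ((X.par e + X.par a) + (X.par e + X.par b)) := e1.add e2
        rw [show (X.par e + X.par a) + (X.par e + X.par b)
          = 2 * X.par e + (X.par a + X.par b) by ring] at this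
        rw [Nat.even_add] at this
        exact this.mp (even_two_mul _)
      · exact hG
  rw [sum_congr rfl (fun i hi => sum_congr rfl (fun c _ => sum_congr rfl (fun a _ =>
    sum_congr rfl (fun b _ => h1 i hi c a b))))]
  simp only [← der_sumA]
  have h2 : ∀ s φ, (∑ i ∈ range n, ∑ e, ∑ a, ∑ b, X.kap (n + 1) i 0 e a b *
          ((if s.1 = 0 then (H * X.E) a s.2 else 0) * φ (n - 1 - i, b)))
          = (-1) * X.yR H (n + 1) s φ := by
    intro s φ
    simp only [yR]
    by_cases hs : s.1 = 0
    · simp only [if_pos hs]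
      rw [mul_sum, Nat.add_sub_cancel]
      apply sum_congr rfl
      intro i _
      have h3 : ∀ e, ∑ a, ∑ b, X.kap (n + 1) i 0 e a b * ((H * X.E) a s.2 * φ (n - 1 - i, b))
          = ∑ b, (-1) * (vc (n + 1) i (X.mu s.2 + 1 / 2)
            * (H s.2 e * (X.R ^ i) e b) * φ (n - 1 - i, b)) := by
        intro e
        rw [sum_comm]
        apply sum_congr rfl; intro b _
        have h4 : ∑ a, X.Einv e a * (H * X.E) a s.2 = H s.2 e := by
          have : (X.Einv * (H * X.E)) e s.2 = H s.2 e := by
            rw [hH.H_adj, ← Matrix.mul_assoc, inv_mul hX, Matrix.one_mul, Matrix.transpose_apply]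
          rw [← this, Matrix.mul_apply]
        have h5 : ∑ a, X.kap (n + 1) i 0 e a b * ((H * X.E) a s.2 * φ (n - 1 - i, b))
            = (-1) * (vc (n + 1) i (X.mu e - 1 / 2) * ((∑ a, X.Einv e a * (H * X.E) a s.2)
              * (X.R ^ i) e b) * φ (n - 1 - i, b)) := by
          rw [sum_mul, mul_sum, sum_mul, mul_sum]
          apply sum_congr rfl; intro a _
          simp only [kap, zero_add, pow_one, Nat.cast_zero, sub_zero]
          ring
        rw [h5, h4]
        by_cases h0 : H s.2 e = 0
        · rw [h0]; ring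
        · rw [H_mu hH s.2 e h0]
          have : X.mu s.2 + 1 - 1 / 2 = X.mu s.2 + 1 / 2 := by ring
          rw [this]
      rw [sum_congr rfl (fun e _ => h3 e), sum_comm, mul_sum]
      apply sum_congr rfl; intro b _
      rw [Matrix.mul_apply, mul_sum, sum_mul, mul_sum]
      have h6 : n + 1 - 2 - i = n - 1 - i := by omega
      rw [h6]
    · simp only [if_neg hs]
      simp
  rw [der_congrA h2, der_smulA]
  ring

/-- exchanging the two factors -/
lemma swap_sum (hX : X.IsGW) (n g : ℕ) (d : B) (Q : Ser ι) (S : List (Ins ι)) :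
    ∑ i ∈ range n, ∑ e, ∑ a, ∑ b, ∑ M ∈ range (n - i),
        X.kap (n + 1) i M e a b * conv X.par (X.par a) (dd (M, a) (X.F g d))
          (dd (n - 1 - i - M, b) Q) S
    = ∑ i ∈ range n, ∑ e, ∑ a, ∑ b, ∑ M ∈ range (n - i),
        X.kap (n + 1) i M e a b * conv X.par (X.par a) (dd (M, a) Q)
          (dd (n - 1 - i - M, b) (X.F g d)) S := by
  apply sum_congr rfl
  intro i hi
  rw [mem_range] at hi
  -- sum over c inside
  have hL : ∀ (W : ι → ι → ℕ → ℂ), ∑ c, ∑ a, ∑ b, ∑ M ∈ range (n - i),
      X.kap (n + 1) i M c a b * W a b M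
      = ∑ a, ∑ b, ∑ M ∈ range (n - i), X.kap2 (n + 1) i M a b * W a b M := by
    intro W
    rw [sum_comm]
    apply sum_congr rfl; intro a _
    rw [sum_comm]
    apply sum_congr rfl; intro b _
    rw [sum_comm]
    apply sum_congr rfl; intro M _
    rw [kap2, sum_mul]
  rw [hL (fun a b M => conv X.par (X.par a) (dd (M, a) (X.F g d))
          (dd (n - 1 - i - M, b) Q) S),
    hL (fun a b M => conv X.par (X.par a) (dd (M, a) Q)
          (dd (n - 1 - i - M, b) (X.F g d)) S)]
  rw [sum_comm]
  apply sum_congr rfl; intro b _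
  apply sum_congr rfl; intro a _
  have hm : n - i = (n - 1 - i) + 1 := by omega
  rw [hm, ← Finset.sum_range_reflect]
  apply sum_congr rfl; intro M hM
  rw [mem_range] at hM
  have e1 : n - 1 - i + 1 - 1 - M = n - 1 - i - M := by omega
  have e2 : n - 1 - i - (n - 1 - i - M) = M := by omega
  rw [e1, e2]
  rw [conv_comm X.par (X.par a) (X.par b)]
  · rw [kap2_symm hX n i M (n - 1 - i - M) b a (by omega)]
    have h5 : ((-1 : ℂ)) ^ (X.par b * X.par a) * (-1) ^ (X.par a * X.par b) = 1 := by
      rw [mul_comm (X.par b), ← pow_add, ← two_mul, pow_mul]; norm_num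
    linear_combination (X.kap2 (n + 1) i M b a * conv X.par (X.par b) (dd (M, b) Q)
      (dd (n - 1 - i - M, a) (X.F g d)) S) * h5
  · intro T hT
    have := F_even hX g d ((n - 1 - i - M, a) :: T) hT
    simpa using this

/-- there is no genus one constant -/
lemma const_sumQ (hX : X.IsGW) (hH : X.IsDivisor h H deg c) (n g : ℕ) (d : B)
    (S : List (Ins ι)) :
    ∑ i ∈ range n, ∑ e, ∑ a, ∑ b, ∑ M ∈ range (n - i),
        X.kap (n + 1) i M e a b *
          (if g = 1 ∧ d = 0 then dd (M, a) (dd (n - 1 - i - M, b) (quad (H * X.E))) S else 0)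
      = 0 := by
  apply sum_eq_zero; intro i _
  apply sum_eq_zero; intro e _
  apply sum_eq_zero; intro a _
  apply sum_eq_zero; intro b _
  apply sum_eq_zero; intro M _
  by_contra hc
  have h1 := left_ne_zero_of_mul hc
  have h2 := right_ne_zero_of_mul hc
  simp only [kap] at h1
  have k1 := pow_deg hX _ _ _ (right_ne_zero_of_mul h1)
  have k2 := inv_deg hX _ _ (right_ne_zero_of_mul (left_ne_zero_of_mul h1))
  by_cases hg : g = 1 ∧ d = 0
  · rw [if_pos hg] at h2
    simp only [dd] at h2
    obtain ⟨a', b', hS, hab⟩ := quad_ne h2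
    have h3 := HE_deg hX hH _ _ hab
    have h4 : S = [] := by
      cases S with
      | nil => rfl
      | cons s S => simp at hS
    subst h4
    simp only [List.cons.injEq, Prod.mk.injEq, and_true] at hS
    obtain ⟨⟨_, rfl⟩, ⟨_, rfl⟩⟩ := hS
    omega
  · rw [if_neg hg] at h2; exact h2 rfl

end GWData

end Vale.Agent.P269
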