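import Vale.Agent.P269.VirDiv2

set_option linter.unusedSectionVars false

/-!
# The divisor equation for the Virasoro expressions: the pairing terms and the conclusion
-/

namespace Vale.Agent.P269

open Finset

variable {ι B : Type} [Fintype ι] [DecidableEq ι] [AddCommMonoid B] [DecidableEq B]
  [HasAntidiagonal B]

namespace GWData

variable {X : GWData ι B} {h : ι} {H : Matrix ι ι ℂ} {deg : B →+ ℂ} {c : ℂ}

lemma RHE (hX : X.IsGW) (hH : X.IsDivisor h H deg c) (i : ℕ) (a b : ι) :
    ∑ e, (X.R ^ i) b e * (H * X.E) a e = (X.R ^ i * (H * X.E)) a b := by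
  have h1 : X.R ^ i * (H * X.E) = (H * X.E) * (X.R ^ i).transpose := by
    rw [← Matrix.mul_assoc, ← H_pow hH, Matrix.mul_assoc, Matrix.mul_assoc, pow_adj hX]
  rw [h1, Matrix.mul_apply]
  apply sum_congr rfl; intro e _
  rw [Matrix.transpose_apply]; ring

lemma quad_identityQ (hX : X.IsGW) (hH : X.IsDivisor h H deg c) (n : ℕ) (S : List (Ins ι)) :
    X.virA (n + 1) (quad (H * X.E)) S + der (X.lam (n + 1)) (quad (H * X.E)) S
      + TH (0, h) (hR H) (quad (X.R ^ (n + 1) * X.E)) S = 0 := by
  match S with
  | [] =>
    simp only [virA, quad_one, der_nil, TH, mul_zero, sum_const_zero]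
    ring
  | [s] =>
    simp only [quad_one, der_cons, der_nil, TH, virA, mul_zero]
    rw [(linR_lam X (n + 1)).zero, (gd hH).toLinR.zero, sum_range_succ]
    have z : ∑ i ∈ range (n + 1), ∑ b, vc (n + 1) i (X.mu X.one + 3 / 2) * (X.R ^ i) X.one b
        * quad (H * X.E) [(n + 1 - i, b), s] = 0 := by
      apply sum_eq_zero; intro i hi
      rw [mem_range] at hi
      apply sum_eq_zero; intro b _
      rw [quad_two, if_neg (by simp; omega), mul_zero]
    rw [z, zero_add]
    have z2 : ∑ b, vc (n + 1) (n + 1) (X.mu X.one + 3 / 2) * (X.R ^ (n + 1)) X.one b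
        * quad (H * X.E) [(n + 1 - (n + 1), b), s]
        = quad (X.R ^ (n + 1) * X.E) [(0, h), s] := by
      simp only [quad_two, Nat.sub_self, true_and, vc_self, one_mul]
      by_cases hs : s.1 = 0
      · simp only [if_pos hs]
        have e1 : ∑ b, (X.R ^ (n + 1)) X.one b * (H * X.E) b s.2
            = (X.R ^ (n + 1) * (H * X.E)) X.one s.2 := by rw [Matrix.mul_apply]
        rw [e1, ← Matrix.mul_assoc, ← H_pow hH, Matrix.mul_assoc, Matrix.mul_apply]
        simp only [hH.H_one, ite_mul, one_mul, zero_mul]
        rw [Finset.sum_ite_eq' univ h]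
        simp
      · simp [hs]
    rw [z2]; ring
  | [s, t] =>
    simp only [der_cons, der_nil, TH, virA]
    have z1 : ∑ i ∈ range (n + 1 + 1), ∑ b, vc (n + 1) i (X.mu X.one + 3 / 2) * (X.R ^ i) X.one b
        * quad (H * X.E) ((n + 1 - i, b) :: [s, t]) = 0 := by
      apply sum_eq_zero; intro i _; apply sum_eq_zero; intro b _
      rw [quad_len _ _ (by simp), mul_zero]
    have z2 : quad (X.R ^ (n + 1) * X.E) ((0, h) :: [s, t]) = 0 := quad_len _ _ (by simp)
    rw [z1, z2]
    obtain ⟨m, a⟩ := s
    obtain ⟨k, b⟩ := t
    -- evaluation of the two `lam` terms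
    have L1 : X.lam (n + 1) (m, a) (fun s' => quad (H * X.E) [s', (k, b)])
        = if k = 0 then (if m = 0 then vc (n + 1) n (X.mu a + 1 / 2)
            * (X.R ^ n * (H * X.E)) a b
          else if m = 1 then (X.R ^ (n + 1) * (H * X.E)) a b else 0) else 0 := by
      simp only [lam, quad_two]
      by_cases hk : k = 0
      · subst hk
        simp only [if_true, and_true]
        by_cases hm : m = 0
        · subst hm
          rw [if_pos rfl, sum_range_succ, sum_range_succ,
            if_neg (show ¬ (n + 1 + 1 ≤ 0 + (n + 1)) by omega), add_zero,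
            if_pos (show n + 1 ≤ 0 + (n + 1) by omega)]
          have z : ∑ i ∈ range n, (if i + 1 ≤ 0 + (n + 1) then
              ∑ c, vc (n + 1) i (X.mu a + ((0 : ℕ) : ℂ) + 1 / 2) * (X.R ^ i) a c *
                (if 0 + (n + 1) - 1 - i = 0 then (H * X.E) c b else 0) else 0) = 0 := by
            apply sum_eq_zero; intro i hi
            rw [mem_range] at hi
            rw [if_pos (by omega)]
            apply sum_eq_zero; intro c _
            rw [if_neg (by omega), mul_zero]
          rw [z, zero_add, Matrix.mul_apply (M := X.R ^ n)]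
          simp only [Nat.cast_zero, add_zero]
          rw [mul_sum]
          apply sum_congr rfl
          intro c _
          rw [if_pos (by omega)]
          ring
        · by_cases hm1 : m = 1
          · subst hm1
            rw [if_neg (by omega), if_pos rfl, sum_range_succ,
              if_pos (show n + 1 + 1 ≤ 1 + (n + 1) by omega)]
            have z : ∑ i ∈ range (n + 1), (if i + 1 ≤ 1 + (n + 1) then
                ∑ c, vc (n + 1) i (X.mu a + ((1 : ℕ) : ℂ) + 1 / 2) * (X.R ^ i) a c *
                  (if 1 + (n + 1) - 1 - i = 0 then (H * X.E) c b else 0) else 0) = 0 := by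
              apply sum_eq_zero; intro i hi
              rw [mem_range] at hi
              rw [if_pos (by omega)]
              apply sum_eq_zero; intro c _
              rw [if_neg (by omega), mul_zero]
            rw [z, zero_add, Matrix.mul_apply (M := X.R ^ (n + 1))]
            apply sum_congr rfl
            intro c _
            rw [if_pos (by omega), vc_self]
            ring
          · rw [if_neg hm, if_neg hm1]
            apply sum_eq_zero; intro i hi
            rw [mem_range] at hi
            rw [if_pos (by omega)]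
            apply sum_eq_zero; intro c _
            rw [if_neg (by omega), mul_zero]
      · simp [hk]
    have L2 : X.lam (n + 1) (k, b) (fun s' => quad (H * X.E) [(m, a), s'])
        = if m = 0 then (if k = 0 then vc (n + 1) n (X.mu b + 1 / 2)
            * (X.R ^ n * (H * X.E)) a b
          else if k = 1 then (X.R ^ (n + 1) * (H * X.E)) a b else 0) else 0 := by
      simp only [lam, quad_two]
      by_cases hk : m = 0
      · subst hk
        simp only [if_true, true_and]
        by_cases hm : k = 0
        · subst hm
          rw [if_pos rfl, sum_range_succ, sum_range_succ,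
            if_neg (show ¬ (n + 1 + 1 ≤ 0 + (n + 1)) by omega), add_zero,
            if_pos (show n + 1 ≤ 0 + (n + 1) by omega)]
          have z : ∑ i ∈ range n, (if i + 1 ≤ 0 + (n + 1) then
              ∑ c, vc (n + 1) i (X.mu b + ((0 : ℕ) : ℂ) + 1 / 2) * (X.R ^ i) b c *
                (if 0 + (n + 1) - 1 - i = 0 then (H * X.E) a c else 0) else 0) = 0 := by
            apply sum_eq_zero; intro i hi
            rw [mem_range] at hi
            rw [if_pos (by omega)]
            apply sum_eq_zero; intro c _
            rw [if_neg (by omega), mul_zero]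
          rw [z, zero_add, ← RHE hX hH n a b]
          simp only [Nat.cast_zero, add_zero]
          rw [mul_sum]
          apply sum_congr rfl
          intro c _
          rw [if_pos (by omega)]
          ring
        · by_cases hm1 : k = 1
          · subst hm1
            rw [if_neg (by omega), if_pos rfl, sum_range_succ,
              if_pos (show n + 1 + 1 ≤ 1 + (n + 1) by omega)]
            have z : ∑ i ∈ range (n + 1), (if i + 1 ≤ 1 + (n + 1) then
                ∑ c, vc (n + 1) i (X.mu b + ((1 : ℕ) : ℂ) + 1 / 2) * (X.R ^ i) b c *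
                  (if 1 + (n + 1) - 1 - i = 0 then (H * X.E) a c else 0) else 0) = 0 := by
              apply sum_eq_zero; intro i hi
              rw [mem_range] at hi
              rw [if_pos (by omega)]
              apply sum_eq_zero; intro c _
              rw [if_neg (by omega), mul_zero]
            rw [z, zero_add, ← RHE hX hH (n + 1) a b]
            apply sum_congr rfl
            intro c _
            rw [if_pos (by omega), vc_self]
            ring
          · rw [if_neg hm, if_neg hm1]
            apply sum_eq_zero; intro i hi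
            rw [mem_range] at hi
            rw [if_pos (by omega)]
            apply sum_eq_zero; intro c _
            rw [if_neg (by omega), mul_zero]
      · simp [hk]
    -- evaluation of the two `hR` terms
    have M1 : hR H (m, a) (fun s' => quad (X.R ^ (n + 1) * X.E) [s', (k, b)])
        = if m = 1 ∧ k = 0 then (X.R ^ (n + 1) * (H * X.E)) a b else 0 := by
      simp only [hR, quad_two]
      by_cases hc : m = 1 ∧ k = 0
      · obtain ⟨rfl, rfl⟩ := hc
        rw [if_pos ⟨rfl, rfl⟩, ← Matrix.mul_assoc, ← H_pow hH, Matrix.mul_assoc,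
          Matrix.mul_apply (M := H)]
        simp
      · rw [if_neg hc]
        apply sum_eq_zero; intro e _
        by_cases hm : m = 0
        · simp [hm]
        · rw [if_neg hm, if_neg (by omega), mul_zero]
    have M2 : hR H (k, b) (fun s' => quad (X.R ^ (n + 1) * X.E) [(m, a), s'])
        = if m = 0 ∧ k = 1 then (X.R ^ (n + 1) * (H * X.E)) a b else 0 := by
      simp only [hR, quad_two]
      by_cases hc : m = 0 ∧ k = 1
      · obtain ⟨rfl, rfl⟩ := hc
        rw [if_pos ⟨rfl, rfl⟩, hH.H_adj, ← Matrix.mul_assoc, Matrix.mul_apply (N := H.transpose)]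
        apply sum_congr rfl; intro e _
        simp [Matrix.transpose_apply, mul_comm]
      · rw [if_neg hc]
        apply sum_eq_zero; intro e _
        by_cases hm : k = 0
        · simp [hm]
        · rw [if_neg hm, if_neg (by omega), mul_zero]
    have z0 : ∀ s' t' : Ins ι, quad (X.R ^ (n + 1) * X.E) [s', t'] =
      quad (X.R ^ (n + 1) * X.E) [s', t'] := fun _ _ => rfl
    rw [L1, L2, M1, M2]
    by_cases hm : m = 0
    · subst hm
      by_cases hk : k = 0
      · subst hk
        simp only [if_true]
        by_cases hE : (X.R ^ n * (H * X.E)) a b = 0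
        · rw [hE]; simp
        · -- degree relation
          rw [Matrix.mul_apply] at hE
          obtain ⟨e, _, he⟩ := Finset.exists_ne_zero_of_sum_ne_zero hE
          have h1 := pow_deg hX n a e (left_ne_zero_of_mul he)
          have h2 := HE_deg hX hH e b (right_ne_zero_of_mul he)
          have h3 : X.mu b + 1 / 2 = -(X.mu a + 1 / 2) - ((n + 1 : ℕ) : ℂ) + 1 := by
            simp only [mu]
            have : (X.p a : ℂ) + n + 1 + X.p b = X.dim := by
              rw [h1.1] at h2; exact_mod_cast h2.1
            push_cast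
            linear_combination this
          rw [h3, vc_reflect]
          have h4 : ((-1 : ℂ)) ^ (n + 1 + n) = -1 := by
            have : n + 1 + n = 2 * n + 1 := by ring
            rw [this, pow_succ, pow_mul]; norm_num
          rw [h4]
          simp
      · by_cases hk1 : k = 1
        · subst hk1; simp
        · simp [hk1, hk]
    · by_cases hk : k = 0
      · subst hk
        by_cases hm1 : m = 1
        · subst hm1; simp
        · simp [hm1, hm]
      · simp [hm, hk]
  | s :: t :: u :: S =>
    have z1 : ∀ M : Matrix ι ι ℂ, der (hR H) (quad M) (s :: t :: u :: S) = 0 := by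
      intro M
      apply der_vanish (gd hH).toLinR
      intro T hT
      apply quad_len; rw [hT]; simp
    have z2 : der (X.lam (n + 1)) (quad (H * X.E)) (s :: t :: u :: S) = 0 := by
      apply der_vanish (linR_lam X (n + 1))
      intro T hT
      apply quad_len; rw [hT]; simp
    rw [z2, TH, z1, virA]
    have z3 : ∑ i ∈ range (n + 1 + 1), ∑ b, vc (n + 1) i (X.mu X.one + 3 / 2) * (X.R ^ i) X.one b
        * quad (H * X.E) ((n + 1 - i, b) :: s :: t :: u :: S) = 0 := by
      apply sum_eq_zero; intro i _; apply sum_eq_zero; intro b _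
      rw [quad_len _ _ (by simp), mul_zero]
    rw [z3, quad_len _ _ (by simp)]
    ring

/-- the divisor equation for the Virasoro expressions -/
theorem div_vir (hX : X.IsGW) (hH : X.IsDivisor h H deg c) (n g : ℕ) (d : B)
    (S : List (Ins ι)) :
    TH (0, h) (hR H) (X.vir (n + 1) g d) S = deg d * X.vir (n + 1) g d S := by
  have hg := gd hH
  have e0 : X.vir (n + 1) g d = fun T => (((X.virA (n + 1) (X.F g d) T
      + der (X.lam (n + 1)) (X.F g d) T) + X.virC (n + 1) g d T) + X.virD (n + 1) g d T)
      + X.virK (n + 1) g d T := rfl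
  rw [e0, TH_add _ hg.toLinR, TH_add _ hg.toLinR, TH_add _ hg.toLinR, TH_add _ hg.toLinR]
  -- the term A
  have hA : TH (0, h) (hR H) (fun T => X.virA (n + 1) (X.F g d) T) S
      = deg d * X.virA (n + 1) (X.F g d) S
        + (if g = 0 ∧ d = 0 then 1 else 0) * X.virA (n + 1) (quad (H * X.E)) S
        - X.lam (n + 1) (0, h) (fun s' => X.F g d (s' :: S)) := by
    have e : (fun T => X.virA (n + 1) (X.F g d) T) = fun T => (-1) * ∑ i ∈ range (n + 1 + 1),
        ∑ b, (vc (n + 1) i (X.mu X.one + 3 / 2) * (X.R ^ i) X.one b)
          * dd (n + 1 - i, b) (X.F g d) T := by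
      funext T; simp only [virA, dd]; ring
    rw [e, TH_smul _ hg.toLinR, TH_sum _ hg.toLinR, lam_h hX hH]
    simp only [TH_sum _ hg.toLinR, TH_smul _ hg.toLinR]
    have e3 : ∀ i b, TH (0, h) (hR H) (dd (n + 1 - i, b) (X.F g d)) S
        = deg d * dd (n + 1 - i, b) (X.F g d) S
      + ((if g = 0 ∧ d = 0 then 1 else 0) * dd (n + 1 - i, b) (quad (H * X.E)) S
      + hR H (n + 1 - i, b) (fun x' => X.F g d (x' :: S))) := by
      intro i b
      rw [TH_div_dd hX hH]
      rfl
    simp only [show ∀ i b, TH (0, h) (hR H) (fun T => dd (n + 1 - i, b) (X.F g d) T) S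
        = deg d * dd (n + 1 - i, b) (X.F g d) S
      + ((if g = 0 ∧ d = 0 then 1 else 0) * dd (n + 1 - i, b) (quad (H * X.E)) S
      + hR H (n + 1 - i, b) (fun x' => X.F g d (x' :: S))) from e3]
    simp only [mul_add, sum_add_distrib, virA, mul_neg, mul_sum, dd, mul_one, neg_mul, one_mul,
      ← sum_neg_distrib, sub_eq_add_neg]
    have r1 : ∀ (x y z x' y' z' : ℂ), x = x' → y = y' → z = z' →
        x + (y + z) = x' + y' + z' := by
      rintro x y z _ _ _ rfl rfl rfl; ring
    apply r1
    · exact sum_congr rfl fun _ _ => sum_congr rfl fun _ _ => by ring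
    · exact sum_congr rfl fun _ _ => sum_congr rfl fun _ _ => by ring
    · exact sum_congr rfl fun _ _ => sum_congr rfl fun _ _ => by ring
  have hB : TH (0, h) (hR H) (fun T => der (X.lam (n + 1)) (X.F g d) T) S
      = deg d * der (X.lam (n + 1)) (X.F g d) S
        + (if g = 0 ∧ d = 0 then 1 else 0) * der (X.lam (n + 1)) (quad (H * X.E)) S
        + X.lam (n + 1) (0, h) (fun s' => X.F g d (s' :: S))
        + der (X.yR H (n + 1)) (X.F g d) S := by
    rw [show (fun T => der (X.lam (n + 1)) (X.F g d) T) = der (X.lam (n + 1)) (X.F g d) from rfl,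
      TH_der _ hg (linR_lam X (n + 1)), TH_div hH, der_congrA (lam_hR hH (n + 1))]
    rw [der_add (linR_lam X (n + 1)), der_smul (linR_lam X (n + 1)),
      der_add (linR_lam X (n + 1)), der_smul (linR_lam X (n + 1)),
      der_smul (linR_lam X (n + 1))]
    have h5 := der_cst (linR_lam X (n + 1)) c S
    linear_combination (if g = 1 ∧ d = 0 then (1 : ℂ) else 0) * h5
  have hC : TH (0, h) (hR H) (fun T => X.virC (n + 1) g d T) S
      = deg d * X.virC (n + 1) g d S - der (X.yR H (n + 1)) (X.F g d) S := by
    have e : X.virC (n + 1) g d = fun T => 1 / 2 * ∑ i ∈ range n, ∑ c, ∑ a, ∑ b,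
        ∑ M ∈ range (n - i), X.kap (n + 1) i M c a b * X.pB g d (M, a) (n - 1 - i - M, b) T := by
      funext T
      rw [virC_eq]
      have h1 : n + 1 - 1 = n := rfl
      have h2 : n + 1 - 2 = n - 1 := by omega
      rw [h1, h2]
    rw [show (fun T => X.virC (n + 1) g d T) = X.virC (n + 1) g d from rfl, e,
      TH_smul _ hg.toLinR]
    simp only [TH_sum _ hg.toLinR, TH_smul _ hg.toLinR, TH_div_pB hX hH]
    have hs := left_sumQ hX hH n (X.F g d) (gsym hX g d) S
    have hr := (swap_sum hX n g d (quad (H * X.E)) S).trans hs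
    have hc := const_sumQ hX hH n g d S
    have hsh : ∑ i ∈ range n, ∑ e, ∑ a, ∑ b, ∑ M ∈ range (n - i), X.kap (n + 1) i M e a b *
        (hR H (M, a) (fun x' => X.pB g d x' (n - 1 - i - M, b) S)
          + hR H (n - 1 - i - M, b) (fun y' => X.pB g d (M, a) y' S)) = 0 := by
      apply sum_eq_zero; intro i hi
      rw [mem_range] at hi
      have hm : n - i = (n - 1 - i) + 1 := by omega
      rw [hm]
      exact shift_cancel hX hH (n + 1) i (n - 1 - i) (fun x y => X.pB g d x y S)
    simp only [eQ, mul_add, sum_add_distrib] at hsh ⊢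
    have h9 : ∑ i ∈ range n, ∑ e, ∑ a, ∑ b, ∑ M ∈ range (n - i), X.kap (n + 1) i M e a b *
        (deg d * X.pB g d (M, a) (n - 1 - i - M, b) S)
        = deg d * ∑ i ∈ range n, ∑ e, ∑ a, ∑ b, ∑ M ∈ range (n - i), X.kap (n + 1) i M e a b *
        X.pB g d (M, a) (n - 1 - i - M, b) S := by
      simp only [mul_sum]
      exact sum_congr rfl fun _ _ => sum_congr rfl fun _ _ => sum_congr rfl fun _ _ =>
        sum_congr rfl fun _ _ => sum_congr rfl fun _ _ => by ring
    rw [h9]
    linear_combination (1 / 2 : ℂ) * hs + (1 / 2 : ℂ) * hr + (1 / 2 : ℂ) * hc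
      + (1 / 2 : ℂ) * hsh
  have hD : TH (0, h) (hR H) (fun T => X.virD (n + 1) g d T) S
      = deg d * X.virD (n + 1) g d S
        + (if g = 0 ∧ d = 0 then 1 else 0)
          * TH (0, h) (hR H) (quad (X.R ^ (n + 1) * X.E)) S := by
    by_cases h0 : g = 0 ∧ d = 0
    · have e : (fun T => X.virD (n + 1) g d T) = quad (X.R ^ (n + 1) * X.E) := by
        funext S; simp only [virD, if_pos h0]
      rw [e, if_pos h0, h0.2, map_zero]; ring
    · have e : (fun T => X.virD (n + 1) g d T) = fun _ => 0 := by
        funext S; simp only [virD, if_neg h0]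
      rw [e, TH_zero _ hg.toLinR]
      simp only [virD, if_neg h0]; ring
  have hK : TH (0, h) (hR H) (fun T => X.virK (n + 1) g d T) S
      = deg d * X.virK (n + 1) g d S := by
    have e : (fun T => X.virK (n + 1) g d T) = cst (if n + 1 = 1 ∧ g = 1 ∧ d = 0 then
      (∑ c, (-1) ^ X.par c) / 16 - (∑ c, (-1) ^ X.par c * X.mu c ^ 2) / 4 else 0) := by
      funext T
      simp only [virK, cst]
      by_cases hT : T = []
      · simp [hT]
      · simp [hT]
    rw [e, TH, der_cst hg.toLinR]
    simp only [cst, List.cons_ne_nil, if_false, sub_zero, virK]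
    by_cases h0 : d = 0
    · rw [h0, map_zero]; ring
    · simp [h0]
  rw [hA, hB, hC, hD, hK]
  have hq := quad_identityQ hX hH n S
  linear_combination (if g = 0 ∧ d = 0 then (1 : ℂ) else 0) * hq

end GWData

end Vale.Agent.P269
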