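import Vale.Agent.P269.VirCancel

set_option linter.unusedSectionVars false

/-!
# General even derivations: commutators, Leibniz rule, graded symmetry
-/

namespace Vale.Agent.P269

open Finset

variable {ι : Type}

/-- parity preserving linear replacement operators (finite sums) -/
structure Good (par : ι → ℕ) (A : Ins ι → (Ins ι → ℂ) → ℂ) : Prop extends LinR A where
  fub : ∀ (B : Ins ι → (Ins ι → ℂ) → ℂ), LinR B → ∀ s t (φ : Ins ι → Ins ι → ℂ),
    A s (fun s' => B t (φ s')) = B t (fun t' => A s (fun s' => φ s' t'))
  ev : ∀ s φ ψ, (∀ s' : Ins ι, Even (par s.2 + par s'.2) → φ s' = ψ s') → A s φ = A s ψ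

lemma der_swap {A B : Ins ι → (Ins ι → ℂ) → ℂ} {par : ι → ℕ} (hA : Good par A) (hB : LinR B)
    (s : Ins ι) (φ : Ins ι → Ser ι) (S : List (Ins ι)) :
    der B (fun T => A s (fun s' => φ s' T)) S = A s (fun s' => der B (φ s') S) := by
  induction S generalizing φ with
  | nil => simp [hA.toLinR.zero]
  | cons r S ih =>
    simp only [der_cons]
    rw [hA.add, ih (fun s' T => φ s' (r :: T)), hA.fub B hB]

lemma der_swap' {A B : Ins ι → (Ins ι → ℂ) → ℂ} {par : ι → ℕ} (hA : Good par A) (hB : LinR B)
    (s : Ins ι) (φ : Ins ι → Ser ι) (S : List (Ins ι)) :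
    der A (fun T => B s (fun s' => φ s' T)) S = B s (fun s' => der A (φ s') S) := by
  induction S generalizing φ with
  | nil => simp [hB.zero]
  | cons r S ih =>
    simp only [der_cons]
    rw [hB.add, ih (fun s' T => φ s' (r :: T)), ← hA.fub B hB]

lemma der_comm_gen {A B : Ins ι → (Ins ι → ℂ) → ℂ} {par : ι → ℕ} (hA : Good par A)
    (hB : LinR B) (f : Ser ι) (S : List (Ins ι)) :
    der B (der A f) S - der A (der B f) S
      = der (fun s φ => B s (fun s' => A s' φ) - A s (fun s' => B s' φ)) f S := by
  induction S generalizing f with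
  | nil => simp
  | cons s S ih =>
    have e1 : der B (der A f) (s :: S) =
        B s (fun s' => A s' (fun t => f (t :: S))) + B s (fun s' => der A (fun T => f (s' :: T)) S)
        + (der B (fun T => A s (fun s' => f (s' :: T))) S
          + der B (der A (fun T => f (s :: T))) S) := by
      rw [der_cons]
      simp only [der_cons]
      rw [hB.add, der_add hB]
    have e2 : der A (der B f) (s :: S) =
        A s (fun s' => B s' (fun t => f (t :: S))) + A s (fun s' => der B (fun T => f (s' :: T)) S)
        + (der A (fun T => B s (fun s' => f (s' :: T))) S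
          + der A (der B (fun T => f (s :: T))) S) := by
      rw [der_cons]
      simp only [der_cons]
      rw [hA.add, der_add hA.toLinR]
    rw [e1, e2, der_swap hA hB s (fun s' T => f (s' :: T)),
      der_swap' hA hB s (fun s' T => f (s' :: T)), der_cons, ← ih (fun T => f (s :: T))]
    ring

/-- the operator `∂_x - der A` -/
def TH (x : Ins ι) (A : Ins ι → (Ins ι → ℂ) → ℂ) (f : Ser ι) : Ser ι :=
  fun S => f (x :: S) - der A f S

section TH

variable {A : Ins ι → (Ins ι → ℂ) → ℂ} (x : Ins ι)

lemma TH_add (hA : LinR A) (f g : Ser ι) (S : List (Ins ι)) :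
    TH x A (fun T => f T + g T) S = TH x A f S + TH x A g S := by
  simp only [TH]; rw [der_add hA]; ring

lemma TH_smul (hA : LinR A) (c : ℂ) (f : Ser ι) (S : List (Ins ι)) :
    TH x A (fun T => c * f T) S = c * TH x A f S := by
  simp only [TH]; rw [der_smul hA]; ring

lemma TH_sum (hA : LinR A) {κ : Type} (K : Finset κ) (f : κ → Ser ι) (S : List (Ins ι)) :
    TH x A (fun T => ∑ k ∈ K, f k T) S = ∑ k ∈ K, TH x A (f k) S := by
  simp only [TH]; rw [der_sum hA, ← sum_sub_distrib]

lemma TH_neg (hA : LinR A) (f : Ser ι) (S : List (Ins ι)) :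
    TH x A (fun T => - f T) S = - TH x A f S := by
  have := TH_smul x hA (-1) f S
  simpa using this

lemma TH_zero (hA : LinR A) (S : List (Ins ι)) :
    TH x A (fun _ => 0) S = 0 := by
  have := TH_smul x hA 0 (fun _ => 0) S
  simpa using this

lemma TH_dd {par : ι → ℕ} {f : Ser ι} (h : GSym par f) (hx : Even (par x.2))
    (s : Ins ι) (S : List (Ins ι)) :
    TH x A (dd s f) S = dd s (TH x A f) S + A s (fun s' => f (s' :: S)) := by
  have e : dd s f = fun T => f (s :: T) := rfl
  simp only [TH, dd, der_cons]
  rw [h.head s x S, (hx.mul_left _).neg_one_pow]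
  rw [← e]
  ring

lemma TH_der {par : ι → ℕ} (hA : Good par A) {Λ : Ins ι → (Ins ι → ℂ) → ℂ} (hΛ : LinR Λ)
    (f : Ser ι) (S : List (Ins ι)) :
    TH x A (der Λ f) S = der Λ (TH x A f) S + Λ x (fun s' => f (s' :: S))
      + der (fun s φ => Λ s (fun s' => A s' φ) - A s (fun s' => Λ s' φ)) f S := by
  rw [← der_comm_gen hA hΛ]
  have : der Λ (TH x A f) S = der Λ (fun T => f (x :: T)) S - der Λ (der A f) S := by
    unfold TH
    rw [der_sub hΛ]
  rw [this]
  simp only [TH, der_cons]
  ring

variable (par : ι → ℕ)

lemma conv_parity {e e' : ℕ} (h : Even (e + e')) (f g : Ser ι) (S : List (Ins ι)) :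
    conv par e f g S = conv par e' f g S := by
  induction S generalizing e e' f g with
  | nil => rfl
  | cons s S ih =>
    rw [conv_cons, conv_cons, ih (e := e + par s.2) (e' := e' + par s.2), ih h]
    · have : ((-1 : ℂ)) ^ (e * par s.2) = (-1) ^ (e' * par s.2) := by
        apply GWData.neg_one_eq_of_even
        rw [← add_mul]; exact h.mul_right _
      rw [this]
    · have h2 : e + par s.2 + (e' + par s.2) = (e + e') + 2 * par s.2 := by ring
      rw [h2]
      exact h.add (even_two_mul _)

lemma conv_lin_left {par : ι → ℕ} (hA : LinR A) (e : ℕ) (s : Ins ι) (φ : Ins ι → Ser ι)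
    (g : Ser ι) (S : List (Ins ι)) :
    A s (fun s' => conv par e (φ s') g S) = conv par e (fun T => A s (fun s' => φ s' T)) g S := by
  induction S generalizing e φ g with
  | nil =>
    simp only [conv_nil]
    have : (fun s' => φ s' [] * g []) = fun s' => g [] * φ s' [] := by
      funext s'; ring
    rw [this, hA.smul]; ring
  | cons r S ih =>
    simp only [conv_cons]
    rw [hA.add, hA.smul, ih (e + par r.2) (fun s' T => φ s' (r :: T)),
      ih e φ (fun T => g (r :: T))]

lemma conv_lin_right {par : ι → ℕ} (hA : LinR A) (e : ℕ) (s : Ins ι) (f : Ser ι)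
    (φ : Ins ι → Ser ι) (S : List (Ins ι)) :
    A s (fun s' => conv par e f (φ s') S) = conv par e f (fun T => A s (fun s' => φ s' T)) S := by
  induction S generalizing e f φ with
  | nil =>
    simp only [conv_nil]
    rw [hA.smul]
  | cons r S ih =>
    simp only [conv_cons]
    rw [hA.add, hA.smul, ih (e + par r.2) (fun T => f (r :: T)),
      ih e f (fun s' T => φ s' (r :: T))]

lemma der_conv_gen {par : ι → ℕ} (hA : Good par A) (e : ℕ) (f g : Ser ι) (S : List (Ins ι)) :
    der A (conv par e f g) S
      = conv par e (der A f) g S + conv par e f (der A g) S := by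
  induction S generalizing e f g with
  | nil => simp
  | cons s S ih =>
    have e1 : der A (conv par e f g) (s :: S) = A s (fun s' => conv par e f g (s' :: S))
        + (der A (conv par (e + par s.2) (fun T => f (s :: T)) g) S
          + (-1) ^ (e * par s.2) * der A (conv par e f (fun T => g (s :: T))) S) := by
      rw [der_cons]
      simp only [conv_cons]
      rw [der_add hA.toLinR, der_smul hA.toLinR]
    have e2 : conv par e (der A f) g (s :: S) =
        conv par (e + par s.2) (fun T => A s (fun s' => f (s' :: T))) g S
        + conv par (e + par s.2) (der A (fun T => f (s :: T))) g S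
        + (-1) ^ (e * par s.2) * conv par e (der A f) (fun T => g (s :: T)) S := by
      rw [conv_cons]
      simp only [der_cons]
      rw [conv_add_left]
    have e3 : conv par e f (der A g) (s :: S) =
        conv par (e + par s.2) (fun T => f (s :: T)) (der A g) S
        + (-1) ^ (e * par s.2) * (conv par e f (fun T => A s (fun s' => g (s' :: T))) S
        + conv par e f (der A (fun T => g (s :: T))) S) := by
      rw [conv_cons]
      simp only [der_cons]
      rw [conv_add_right]
    have e4 : A s (fun s' => conv par e f g (s' :: S))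
        = conv par (e + par s.2) (fun T => A s (fun s' => f (s' :: T))) g S
          + (-1) ^ (e * par s.2) * conv par e f (fun T => A s (fun s' => g (s' :: T))) S := by
      rw [← conv_lin_left hA.toLinR, ← conv_lin_right hA.toLinR, ← hA.smul, ← hA.add]
      apply hA.ev
      intro s' hs'
      rw [conv_cons]
      congr 1
      · apply conv_parity
        have h2 : e + par s'.2 + (e + par s.2) = 2 * e + (par s.2 + par s'.2) := by ring
        rw [h2]
        exact (even_two_mul _).add hs'
      · congr 1
        apply GWData.neg_one_eq_of_even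
        rw [← mul_add, add_comm]
        exact hs'.mul_left _
    rw [e1, e2, e3, ih, ih, e4]
    ring

lemma TH_conv {par : ι → ℕ} (hA : Good par A) (hx : Even (par x.2)) (e : ℕ) (f g : Ser ι)
    (S : List (Ins ι)) :
    TH x A (conv par e f g) S = conv par e (TH x A f) g S + conv par e f (TH x A g) S := by
  have h1 : conv par e (TH x A f) g S
      = conv par e (fun T => f (x :: T)) g S - conv par e (der A f) g S := by
    have : TH x A f = fun T => f (x :: T) + (-1) * der A f T := by
      funext T; simp only [TH]; ring
    rw [this, conv_add_left, conv_smul_left]; ring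
  have h2 : conv par e f (TH x A g) S
      = conv par e f (fun T => g (x :: T)) S - conv par e f (der A g) S := by
    have : TH x A g = fun T => g (x :: T) + (-1) * der A g T := by
      funext T; simp only [TH]; ring
    rw [this, conv_add_right, conv_smul_right]; ring
  rw [h1, h2]
  simp only [TH, conv_cons]
  rw [der_conv_gen hA, (hx.mul_left _).neg_one_pow,
    conv_parity par (e := e + par x.2) (e' := e)
      (by rw [show e + par x.2 + e = 2 * e + par x.2 by ring]; exact (even_two_mul _).add hx)]
  ring

end TH

/-! ### graded symmetry -/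

lemma GSym.add {par : ι → ℕ} {f g : Ser ι} (hf : GSym par f) (hg : GSym par g) :
    GSym par (fun T => f T + g T) := by
  intro P s t S
  simp only
  rw [hf, hg]; ring

lemma GSym.smul {par : ι → ℕ} {f : Ser ι} (hf : GSym par f) (c : ℂ) :
    GSym par (fun T => c * f T) := by
  intro P s t S
  simp only
  rw [hf]; ring

lemma GSym.zero {par : ι → ℕ} : GSym par (fun _ : List (Ins ι) => (0 : ℂ)) := by
  intro P s t S
  simp

lemma GSym.sum {par : ι → ℕ} {κ : Type} (K : Finset κ) (f : κ → Ser ι)
    (hf : ∀ k ∈ K, GSym par (f k)) : GSym par (fun T => ∑ k ∈ K, f k T) := by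
  intro P s t S
  simp only
  rw [mul_sum]
  exact sum_congr rfl (fun k hk => hf k hk P s t S)

lemma gsym_der {par : ι → ℕ} {A : Ins ι → (Ins ι → ℂ) → ℂ} (hA : Good par A) {f : Ser ι}
    (hf : GSym par f) : GSym par (der A f) := by
  intro P s t S
  induction P generalizing f with
  | nil =>
    simp only [List.nil_append, der_cons]
    have e1 : A s (fun s' => f (s' :: t :: S))
        = (-1) ^ (par s.2 * par t.2) * A s (fun s' => f (t :: s' :: S)) := by
      rw [← hA.smul]
      apply hA.ev
      intro s' hs'
      rw [hf.head s' t S]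
      congr 1
      apply GWData.neg_one_eq_of_even
      rw [← add_mul, add_comm]
      exact hs'.mul_right _
    have e2 : A t (fun t' => f (s :: t' :: S))
        = (-1) ^ (par s.2 * par t.2) * A t (fun t' => f (t' :: s :: S)) := by
      rw [← hA.smul]
      apply hA.ev
      intro t' ht'
      rw [hf.head s t' S]
      congr 1
      apply GWData.neg_one_eq_of_even
      rw [← mul_add, add_comm]
      exact ht'.mul_left _
    have e3 : der A (fun T => f (s :: t :: T)) S
        = (-1) ^ (par s.2 * par t.2) * der A (fun T => f (t :: s :: T)) S := by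
      rw [← der_smul hA.toLinR]
      congr 1
      funext T
      exact hf.head s t T
    rw [e1, e2, e3]; ring
  | cons r P ih =>
    simp only [List.cons_append, der_cons]
    rw [ih (hf.dd' r)]
    have e1 : A r (fun r' => f (r' :: (P ++ s :: t :: S)))
        = (-1) ^ (par s.2 * par t.2) * A r (fun r' => f (r' :: (P ++ t :: s :: S))) := by
      rw [← hA.smul]
      congr 1
      funext r'
      exact hf (r' :: P) s t S
    rw [e1]; ring

lemma gsym_conv {par : ι → ℕ} (e : ℕ) {f g : Ser ι} (hf : GSym par f) (hg : GSym par g) :
    GSym par (conv par e f g) := by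
  intro P s t S
  induction P generalizing e f g with
  | nil =>
    simp only [List.nil_append, conv_cons]
    have e1 : conv par (e + par s.2 + par t.2) (fun T => f (s :: t :: T)) g S
        = (-1) ^ (par s.2 * par t.2) *
          conv par (e + par t.2 + par s.2) (fun T => f (t :: s :: T)) g S := by
      rw [← conv_smul_left, show e + par s.2 + par t.2 = e + par t.2 + par s.2 by ring]
      congr 1
      funext T
      exact hf.head s t T
    have e2 : conv par e f (fun T => g (s :: t :: T)) S
        = (-1) ^ (par s.2 * par t.2) * conv par e f (fun T => g (t :: s :: T)) S := by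
      rw [← conv_smul_right]
      congr 1
      funext T
      exact hg.head s t T
    rw [e1, e2]
    have hst : ((-1 : ℂ)) ^ (par s.2 * par t.2) * (-1) ^ (par s.2 * par t.2) = 1 := by
      rw [← pow_add, ← two_mul, pow_mul]; norm_num
    have a1 : ((-1 : ℂ)) ^ ((e + par s.2) * par t.2)
        = (-1) ^ (e * par t.2) * (-1) ^ (par s.2 * par t.2) := by
      rw [← pow_add]; congr 1; ring
    have a2 : ((-1 : ℂ)) ^ ((e + par t.2) * par s.2)
        = (-1) ^ (e * par s.2) * (-1) ^ (par s.2 * par t.2) := by
      rw [← pow_add]; congr 1; ring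
    rw [a1, a2]
    linear_combination (-(((-1 : ℂ)) ^ (e * par s.2)) *
      conv par (e + par t.2) (fun T => f (t :: T)) (fun T => g (s :: T)) S) * hst
  | cons r P ih =>
    simp only [List.cons_append, conv_cons]
    rw [ih (e + par r.2) (hf.dd' r) hg, ih e hf (hg.dd' r)]
    ring

/-- an even insertion can be moved to the front -/
lemma GSym.front {par : ι → ℕ} {f : Ser ι} (hf : GSym par f) (s : Ins ι) (hs : Even (par s.2))
    (P S : List (Ins ι)) : f (P ++ s :: S) = f (s :: (P ++ S)) := by
  induction P generalizing f with
  | nil => rfl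
  | cons r P ih =>
    have h1 := ih (hf.dd' r)
    rw [List.cons_append, h1, hf.head r s, (hs.mul_left _).neg_one_pow, one_mul,
      List.cons_append]

end Vale.Agent.P269
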