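import Vale.Agent.P269.VirBasic

/-!
# The operators `der`, `conv` and the string operator `TT`
-/

namespace Vale.Agent.P269

open Finset

variable {ι : Type}

/-- replacement operators which are linear -/
structure LinR (A : Ins ι → (Ins ι → ℂ) → ℂ) : Prop where
  add : ∀ s φ ψ, A s (fun x => φ x + ψ x) = A s φ + A s ψ
  smul : ∀ s (c : ℂ) φ, A s (fun x => c * φ x) = c * A s φ

lemma LinR.zero {A : Ins ι → (Ins ι → ℂ) → ℂ} (hA : LinR A) (s : Ins ι) :
    A s (fun _ => 0) = 0 := by
  have := hA.smul s 0 (fun _ => 0)
  simpa using this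

lemma LinR.sub {A : Ins ι → (Ins ι → ℂ) → ℂ} (hA : LinR A) (s : Ins ι) (φ ψ : Ins ι → ℂ) :
    A s (fun x => φ x - ψ x) = A s φ - A s ψ := by
  have h1 := hA.add s φ (fun x => (-1) * ψ x)
  rw [hA.smul] at h1
  have h2 : (fun x => φ x + -1 * ψ x) = fun x => φ x - ψ x := by
    funext x; ring
  rw [h2] at h1
  rw [h1]; ring

lemma LinR.sum {A : Ins ι → (Ins ι → ℂ) → ℂ} (hA : LinR A) (s : Ins ι) {κ : Type}
    (K : Finset κ) (φ : κ → Ins ι → ℂ) :
    A s (fun x => ∑ k ∈ K, φ k x) = ∑ k ∈ K, A s (φ k) := by
  classical
  induction K using Finset.induction_on with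
  | empty => simpa using hA.zero s
  | insert a K ha ih =>
    simp only [sum_insert ha]
    rw [hA.add, ih]

@[simp] lemma der_nil (A : Ins ι → (Ins ι → ℂ) → ℂ) (f : Ser ι) : der A f [] = 0 := rfl

lemma der_cons (A : Ins ι → (Ins ι → ℂ) → ℂ) (f : Ser ι) (s : Ins ι) (S : List (Ins ι)) :
    der A f (s :: S) = A s (fun s' => f (s' :: S)) + der A (fun T => f (s :: T)) S := rfl

lemma der_add {A : Ins ι → (Ins ι → ℂ) → ℂ} (hA : LinR A) (f g : Ser ι) (S : List (Ins ι)) :
    der A (fun T => f T + g T) S = der A f S + der A g S := by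
  induction S generalizing f g with
  | nil => simp
  | cons s S ih => simp only [der_cons]; rw [hA.add, ih]; ring

lemma der_smul {A : Ins ι → (Ins ι → ℂ) → ℂ} (hA : LinR A) (c : ℂ) (f : Ser ι)
    (S : List (Ins ι)) : der A (fun T => c * f T) S = c * der A f S := by
  induction S generalizing f with
  | nil => simp
  | cons s S ih => simp only [der_cons]; rw [hA.smul, ih]; ring

lemma der_zero {A : Ins ι → (Ins ι → ℂ) → ℂ} (hA : LinR A) (S : List (Ins ι)) :
    der A (fun _ => 0) S = 0 := by
  have := der_smul hA 0 (fun _ => 0) S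
  simpa using this

lemma der_sub {A : Ins ι → (Ins ι → ℂ) → ℂ} (hA : LinR A) (f g : Ser ι) (S : List (Ins ι)) :
    der A (fun T => f T - g T) S = der A f S - der A g S := by
  induction S generalizing f g with
  | nil => simp
  | cons s S ih => simp only [der_cons]; rw [hA.sub, ih]; ring

lemma der_sum {A : Ins ι → (Ins ι → ℂ) → ℂ} (hA : LinR A) {κ : Type} (K : Finset κ)
    (f : κ → Ser ι) (S : List (Ins ι)) :
    der A (fun T => ∑ k ∈ K, f k T) S = ∑ k ∈ K, der A (f k) S := by
  classical
  induction K using Finset.induction_on with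
  | empty => simpa using der_zero hA S
  | insert a K ha ih =>
    simp only [sum_insert ha]
    rw [der_add hA, ih]

lemma der_congrA {A A' : Ins ι → (Ins ι → ℂ) → ℂ} (h : ∀ s φ, A s φ = A' s φ) (f : Ser ι)
    (S : List (Ins ι)) : der A f S = der A' f S := by
  have : A = A' := by funext s φ; exact h s φ
  rw [this]

lemma der_addA (A A' : Ins ι → (Ins ι → ℂ) → ℂ) (f : Ser ι) (S : List (Ins ι)) :
    der (fun s φ => A s φ + A' s φ) f S = der A f S + der A' f S := by
  induction S generalizing f with
  | nil => simp
  | cons s S ih => simp only [der_cons]; rw [ih]; ring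

lemma der_smulA (c : ℂ) (A : Ins ι → (Ins ι → ℂ) → ℂ) (f : Ser ι) (S : List (Ins ι)) :
    der (fun s φ => c * A s φ) f S = c * der A f S := by
  induction S generalizing f with
  | nil => simp
  | cons s S ih => simp only [der_cons]; rw [ih]; ring

lemma der_sumA {κ : Type} (K : Finset κ) (A : κ → Ins ι → (Ins ι → ℂ) → ℂ) (f : Ser ι)
    (S : List (Ins ι)) :
    der (fun s φ => ∑ k ∈ K, A k s φ) f S = ∑ k ∈ K, der (A k) f S := by
  induction S generalizing f with
  | nil => simp
  | cons s S ih => simp only [der_cons]; rw [ih, sum_add_distrib]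

lemma der_vanish {A : Ins ι → (Ins ι → ℂ) → ℂ} (hA : LinR A) (f : Ser ι) (S : List (Ins ι))
    (h : ∀ T : List (Ins ι), T.length = S.length → f T = 0) : der A f S = 0 := by
  induction S generalizing f with
  | nil => simp
  | cons s S ih =>
    rw [der_cons]
    have h1 : (fun s' => f (s' :: S)) = fun _ => (0 : ℂ) := by
      funext s'; exact h _ (by simp)
    rw [h1, hA.zero, ih (fun T => f (s :: T)) (fun T hT => h _ (by simp [hT]))]
    ring

lemma quad_nil (M : Matrix ι ι ℂ) : quad M [] = 0 := rfl
lemma quad_one (M : Matrix ι ι ℂ) (s : Ins ι) : quad M [s] = 0 := by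
  obtain ⟨_ | m, a⟩ := s <;> rfl
lemma quad_two (M : Matrix ι ι ℂ) (s t : Ins ι) :
    quad M [s, t] = if s.1 = 0 ∧ t.1 = 0 then M s.2 t.2 else 0 := by
  obtain ⟨_ | m, a⟩ := s <;> obtain ⟨_ | k, b⟩ := t <;> simp [quad]
lemma quad_three (M : Matrix ι ι ℂ) (s t u : Ins ι) (S : List (Ins ι)) :
    quad M (s :: t :: u :: S) = 0 := by
  obtain ⟨_ | m, a⟩ := s <;> obtain ⟨_ | k, b⟩ := t <;> simp [quad]
lemma quad_len (M : Matrix ι ι ℂ) (S : List (Ins ι)) (h : S.length ≠ 2) : quad M S = 0 := by
  match S with
  | [] => rfl
  | [s] => exact quad_one M s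
  | [s, t] => simp at h
  | s :: t :: u :: S => exact quad_three M s t u S

/-- the lowering replacement `τ_m(φ) ↦ τ_{m-1}(φ)` -/
def lowR (s : Ins ι) (φ : Ins ι → ℂ) : ℂ :=
  match s with
  | (0, _) => 0
  | (m + 1, a) => φ (m, a)

@[simp] lemma lowR_zero (a : ι) (φ : Ins ι → ℂ) : lowR (0, a) φ = 0 := rfl
lemma lowR_eq (s : Ins ι) (φ : Ins ι → ℂ) :
    lowR s φ = if s.1 = 0 then 0 else φ (s.1 - 1, s.2) := by
  obtain ⟨_ | m, a⟩ := s <;> rfl

@[simp] lemma lowR_succ (m : ℕ) (a : ι) (φ : Ins ι → ℂ) : lowR (m + 1, a) φ = φ (m, a) := rfl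

lemma linR_lowR : LinR (lowR (ι := ι)) := by
  constructor
  · rintro ⟨_ | m, a⟩ φ ψ <;> simp
  · rintro ⟨_ | m, a⟩ c φ <;> simp

/-- the operator `∂_{o} - ∑ t_{m+1} ∂_m` -/
def TT (o : Ins ι) (f : Ser ι) : Ser ι := fun S => f (o :: S) - der lowR f S

lemma TT_add (o : Ins ι) (f g : Ser ι) (S : List (Ins ι)) :
    TT o (fun T => f T + g T) S = TT o f S + TT o g S := by
  simp only [TT]; rw [der_add linR_lowR]; ring

lemma TT_smul (o : Ins ι) (c : ℂ) (f : Ser ι) (S : List (Ins ι)) :
    TT o (fun T => c * f T) S = c * TT o f S := by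
  simp only [TT]; rw [der_smul linR_lowR]; ring

lemma TT_sum (o : Ins ι) {κ : Type} (K : Finset κ) (f : κ → Ser ι) (S : List (Ins ι)) :
    TT o (fun T => ∑ k ∈ K, f k T) S = ∑ k ∈ K, TT o (f k) S := by
  simp only [TT]; rw [der_sum linR_lowR, ← sum_sub_distrib]

lemma TT_neg (o : Ins ι) (f : Ser ι) (S : List (Ins ι)) :
    TT o (fun T => - f T) S = - TT o f S := by
  have := TT_smul o (-1) f S
  simpa using this

lemma TT_zero (o : Ins ι) (S : List (Ins ι)) :
    TT o (fun _ => 0) S = 0 := by
  have := TT_smul o 0 (fun _ => 0) S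
  simpa using this

/-- graded symmetry -/
def GSym (par : ι → ℕ) (f : Ser ι) : Prop :=
  ∀ P s t S, f (P ++ s :: t :: S) = (-1) ^ (par s.2 * par t.2) * f (P ++ t :: s :: S)

lemma GSym.dd {par : ι → ℕ} {f : Ser ι} (h : GSym par f) (s : Ins ι) : GSym par (dd s f) := by
  intro P x y S
  exact h (s :: P) x y S

lemma GSym.dd' {par : ι → ℕ} {f : Ser ι} (h : GSym par f) (s : Ins ι) :
    GSym par (fun T => f (s :: T)) := h.dd s

lemma GSym.head {par : ι → ℕ} {f : Ser ι} (h : GSym par f) (s t : Ins ι) (S : List (Ins ι)) :
    f (s :: t :: S) = (-1) ^ (par s.2 * par t.2) * f (t :: s :: S) := by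
  simpa using h [] s t S

lemma TT_dd {par : ι → ℕ} {f : Ser ι} (h : GSym par f) {o : Ins ι} (ho : par o.2 = 0)
    (s : Ins ι) (S : List (Ins ι)) :
    TT o (dd s f) S = dd s (TT o f) S + lowR s (fun s' => f (s' :: S)) := by
  have e : dd s f = fun T => f (s :: T) := rfl
  simp only [TT, dd, der_cons]
  rw [h.head s o S, ho]
  simp only [mul_zero, pow_zero, one_mul]
  rw [← e]
  ring

/-- commutator of the lowering derivation with a linear derivation -/
lemma der_comm {A : Ins ι → (Ins ι → ℂ) → ℂ} (hA : LinR A) (f : Ser ι) (S : List (Ins ι)) :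
    der A (der lowR f) S - der lowR (der A f) S
      = der (fun s φ => A s (fun s' => lowR s' φ) - lowR s (fun s' => A s' φ)) f S := by
  induction S generalizing f with
  | nil => simp
  | cons s S ih =>
    have e1 : der A (der lowR f) (s :: S) =
        A s (fun s' => lowR s' (fun t => f (t :: S))) + A s (fun s' => der lowR (fun T => f (s' :: T)) S)
        + (der A (fun T => lowR s (fun s' => f (s' :: T))) S
          + der A (der lowR (fun T => f (s :: T))) S) := by
      rw [der_cons]
      simp only [der_cons]
      rw [hA.add, der_add hA]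
    have e2 : der lowR (der A f) (s :: S) =
        lowR s (fun s' => A s' (fun t => f (t :: S))) + lowR s (fun s' => der A (fun T => f (s' :: T)) S)
        + (der lowR (fun T => A s (fun s' => f (s' :: T))) S
          + der lowR (der A (fun T => f (s :: T))) S) := by
      rw [der_cons]
      simp only [der_cons]
      rw [linR_lowR.add, der_add linR_lowR]
    have e3 : der lowR (fun T => A s (fun s' => f (s' :: T))) S
        = A s (fun s' => der lowR (fun T => f (s' :: T)) S) := by
      clear ih e1 e2
      induction S generalizing f with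
      | nil => simp [hA.zero]
      | cons r S ihS =>
        simp only [der_cons]
        rw [hA.add]
        congr 1
        · obtain ⟨_ | m, a⟩ := r
          · simp [hA.zero]
          · simp
        · -- apply the induction hypothesis to a permuted function
          have := ihS (fun T => match T with
            | [] => 0
            | s' :: T' => f (s' :: r :: T'))
          simpa using this
    have e4 : lowR s (fun s' => der A (fun T => f (s' :: T)) S)
        = der A (fun T => lowR s (fun s' => f (s' :: T))) S := by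
      obtain ⟨_ | m, a⟩ := s
      · simp [der_zero hA]
      · simp
    rw [e1, e2, e3, e4, der_cons, ← ih (fun T => f (s :: T))]
    ring

lemma TT_der {A : Ins ι → (Ins ι → ℂ) → ℂ} (hA : LinR A) (o : Ins ι) (f : Ser ι)
    (S : List (Ins ι)) :
    TT o (der A f) S = der A (TT o f) S + A o (fun s' => f (s' :: S))
      + der (fun s φ => A s (fun s' => lowR s' φ) - lowR s (fun s' => A s' φ)) f S := by
  rw [← der_comm hA]
  have : der A (TT o f) S = der A (fun T => f (o :: T)) S - der A (der lowR f) S := by
    unfold TT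
    rw [der_sub hA]
  rw [this]
  simp only [TT, der_cons]
  ring

/-! ### the superspace product -/

variable (par : ι → ℕ)

@[simp] lemma conv_nil (e : ℕ) (f g : Ser ι) : conv par e f g [] = f [] * g [] := rfl

lemma conv_cons (e : ℕ) (f g : Ser ι) (s : Ins ι) (S : List (Ins ι)) :
    conv par e f g (s :: S) = conv par (e + par s.2) (fun T => f (s :: T)) g S
      + (-1) ^ (e * par s.2) * conv par e f (fun T => g (s :: T)) S := rfl

lemma conv_add_left (e : ℕ) (f f' g : Ser ι) (S : List (Ins ι)) :
    conv par e (fun T => f T + f' T) g S = conv par e f g S + conv par e f' g S := by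
  induction S generalizing e f f' g with
  | nil => simp [add_mul]
  | cons s S ih => simp only [conv_cons]; rw [ih, ih]; ring

lemma conv_add_right (e : ℕ) (f g g' : Ser ι) (S : List (Ins ι)) :
    conv par e f (fun T => g T + g' T) S = conv par e f g S + conv par e f g' S := by
  induction S generalizing e f g g' with
  | nil => simp [mul_add]
  | cons s S ih => simp only [conv_cons]; rw [ih, ih]; ring

lemma conv_smul_left (e : ℕ) (c : ℂ) (f g : Ser ι) (S : List (Ins ι)) :
    conv par e (fun T => c * f T) g S = c * conv par e f g S := by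
  induction S generalizing e f g with
  | nil => simp [mul_assoc]
  | cons s S ih => simp only [conv_cons]; rw [ih, ih]; ring

lemma conv_smul_right (e : ℕ) (c : ℂ) (f g : Ser ι) (S : List (Ins ι)) :
    conv par e f (fun T => c * g T) S = c * conv par e f g S := by
  induction S generalizing e f g with
  | nil => simp; ring
  | cons s S ih => simp only [conv_cons]; rw [ih, ih]; ring

lemma conv_zero_left (e : ℕ) (g : Ser ι) (S : List (Ins ι)) :
    conv par e (fun _ => 0) g S = 0 := by
  have := conv_smul_left par e 0 (fun _ => 0) g S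
  simpa using this

lemma conv_zero_right (e : ℕ) (f : Ser ι) (S : List (Ins ι)) :
    conv par e f (fun _ => 0) S = 0 := by
  have := conv_smul_right par e 0 f (fun _ => 0) S
  simpa using this

/-- the lowering derivation satisfies the Leibniz rule -/
lemma der_conv (e : ℕ) (f g : Ser ι) (S : List (Ins ι)) :
    der lowR (conv par e f g) S
      = conv par e (der lowR f) g S + conv par e f (der lowR g) S := by
  induction S generalizing e f g with
  | nil => simp
  | cons s S ih =>
    have e1 : der lowR (conv par e f g) (s :: S) = lowR s (fun s' => conv par e f g (s' :: S))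
        + (der lowR (conv par (e + par s.2) (fun T => f (s :: T)) g) S
          + (-1) ^ (e * par s.2) * der lowR (conv par e f (fun T => g (s :: T))) S) := by
      rw [der_cons]
      simp only [conv_cons]
      rw [der_add linR_lowR, der_smul linR_lowR]
    have e2 : conv par e (der lowR f) g (s :: S) =
        conv par (e + par s.2) (fun T => lowR s (fun s' => f (s' :: T))) g S
        + conv par (e + par s.2) (der lowR (fun T => f (s :: T))) g S
        + (-1) ^ (e * par s.2) * conv par e (der lowR f) (fun T => g (s :: T)) S := by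
      rw [conv_cons]
      simp only [der_cons]
      rw [conv_add_left]
    have e3 : conv par e f (der lowR g) (s :: S) =
        conv par (e + par s.2) (fun T => f (s :: T)) (der lowR g) S
        + (-1) ^ (e * par s.2) * (conv par e f (fun T => lowR s (fun s' => g (s' :: T))) S
        + conv par e f (der lowR (fun T => g (s :: T))) S) := by
      rw [conv_cons]
      simp only [der_cons]
      rw [conv_add_right]
    rw [e1, e2, e3, ih, ih]
    obtain ⟨_ | m, a⟩ := s
    · simp only [lowR_zero, conv_zero_left, conv_zero_right]; ring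
    · simp only [lowR_succ, conv_cons]; ring

lemma TT_conv {o : Ins ι} (ho : par o.2 = 0) (e : ℕ) (f g : Ser ι) (S : List (Ins ι)) :
    TT o (conv par e f g) S = conv par e (TT o f) g S + conv par e f (TT o g) S := by
  have h1 : conv par e (TT o f) g S
      = conv par e (fun T => f (o :: T)) g S - conv par e (der lowR f) g S := by
    have : TT o f = fun T => f (o :: T) + (-1) * der lowR f T := by
      funext T; simp only [TT]; ring
    rw [this, conv_add_left, conv_smul_left]; ring
  have h2 : conv par e f (TT o g) S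
      = conv par e f (fun T => g (o :: T)) S - conv par e f (der lowR g) S := by
    have : TT o g = fun T => g (o :: T) + (-1) * der lowR g T := by
      funext T; simp only [TT]; ring
    rw [this, conv_add_right, conv_smul_right]; ring
  rw [h1, h2]
  simp only [TT, conv_cons]
  rw [der_conv, ho]
  simp
  ring

/-- super-commutativity of the product -/
lemma conv_comm (e e' : ℕ) (f g : Ser ι)
    (hf : ∀ S, f S ≠ 0 → Even (e + (S.map fun s => par s.2).sum)) (S : List (Ins ι)) :
    conv par e f g S = (-1) ^ (e * e') * conv par e' g f S := by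
  induction S generalizing e e' f g with
  | nil =>
    simp only [conv_nil]
    by_cases h : f [] = 0
    · rw [h]; ring
    · have := hf [] h
      simp only [List.map_nil, List.sum_nil, add_zero] at this
      rw [(this.mul_right e').neg_one_pow]; ring
  | cons s S ih =>
    simp only [conv_cons]
    rw [ih (e + par s.2) e' (fun T => f (s :: T)) g, ih e (e' + par s.2) f (fun T => g (s :: T)) hf]
    · have hs : ((-1 : ℂ)) ^ (e * par s.2) * (-1) ^ (e * par s.2) = 1 := by
        rw [← pow_add, ← two_mul, pow_mul]; norm_num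
      have a1 : ((-1 : ℂ)) ^ ((e + par s.2) * e') = (-1) ^ (e * e') * (-1) ^ (e' * par s.2) := by
        rw [← pow_add]; congr 1; ring
      have a2 : ((-1 : ℂ)) ^ (e * (e' + par s.2)) = (-1) ^ (e * e') * (-1) ^ (e * par s.2) := by
        rw [← pow_add]; congr 1; ring
      rw [a1, a2]
      calc _ = (-1) ^ (e * e') * (-1) ^ (e' * par s.2) * conv par e' g (fun T => f (s :: T)) S
          + ((-1) ^ (e * par s.2) * (-1) ^ (e * par s.2)) * (-1) ^ (e * e')
            * conv par (e' + par s.2) (fun T => g (s :: T)) f S := by ring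
        _ = _ := by rw [hs]; ring
    · intro T hT
      have := hf (s :: T) hT
      simp only [List.map_cons, List.sum_cons] at this
      rwa [add_assoc]

/-- constant series times `g` -/
lemma conv_const (e : ℕ) (c : ℂ) (f g : Ser ι) (hf0 : f [] = c) (hf : ∀ s S, f (s :: S) = 0)
    (he : c ≠ 0 → Even e) (S : List (Ins ι)) : conv par e f g S = c * g S := by
  induction S generalizing g with
  | nil => simp [hf0]
  | cons s S ih =>
    rw [conv_cons]
    have h1 : (fun T => f (s :: T)) = fun _ => (0 : ℂ) := by funext T; exact hf s T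
    rw [h1, conv_zero_left, ih]
    by_cases hc : c = 0
    · rw [hc]; ring
    · rw [((he hc).mul_right _).neg_one_pow]; ring

/-- a linear series times a derivative is a derivation -/
lemma conv_linear (e : ℕ) (w : Ins ι → ℂ) (ell : Ser ι) (y : Ins ι) (G : Ser ι)
    (h0 : ell [] = 0) (h1 : ∀ s, ell [s] = w s) (h2 : ∀ s t S, ell (s :: t :: S) = 0)
    (hw : ∀ s, w s ≠ 0 → Even (e + par s.2)) (hy : Even (e + par y.2)) (hG : GSym par G)
    (S : List (Ins ι)) :
    conv par e ell (dd y G) S = der (fun s φ => w s * φ y) G S := by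
  induction S generalizing G with
  | nil => simp [h0]
  | cons s S ih =>
    rw [conv_cons, der_cons]
    have c1 : conv par (e + par s.2) (fun T => ell (s :: T)) (dd y G) S = w s * G (y :: S) := by
      rw [conv_const par (e + par s.2) (w s) (fun T => ell (s :: T)) (dd y G) (h1 s)
        (fun t S => h2 s t S) (hw s)]
      rfl
    have c2 : conv par e ell (fun T => dd y G (s :: T)) S
        = (-1) ^ (e * par s.2) * conv par e ell (dd y (fun T => G (s :: T))) S := by
      rw [← conv_smul_right]
      congr 1
      funext T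
      simp only [dd]
      have hp : ((-1 : ℂ)) ^ (par y.2 * par s.2) = (-1) ^ (e * par s.2) := by
        have h3 : Even (e * par s.2 + par y.2 * par s.2) := by
          rw [← add_mul]; exact hy.mul_right _
        have h4 := h3.neg_one_pow (α := ℂ)
        rw [pow_add] at h4
        have h5 : ((-1 : ℂ)) ^ (e * par s.2) * (-1) ^ (e * par s.2) = 1 := by
          rw [← pow_add, ← two_mul, pow_mul]; norm_num
        have h6 : ((-1 : ℂ)) ^ (e * par s.2) ≠ 0 := pow_ne_zero _ (by norm_num)
        exact mul_left_cancel₀ h6 (h4.trans h5.symm)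
      rw [hG.head y s T, hp]
    rw [c1, c2, ih (fun T => G (s :: T)) (hG.dd' s), ← mul_assoc]
    have hs : ((-1 : ℂ)) ^ (e * par s.2) * (-1) ^ (e * par s.2) = 1 := by
      rw [← pow_add, ← two_mul, pow_mul]; norm_num
    rw [hs, one_mul]

end Vale.Agent.P269
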