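import Vale.Agent.P269.VirString

set_option linter.unusedSectionVars false

/-!
# The quadratic part of the Virasoro operators
-/

namespace Vale.Agent.P269

open Finset

variable {ι B : Type} [Fintype ι] [DecidableEq ι] [AddCommMonoid B] [DecidableEq B]
  [HasAntidiagonal B]

namespace GWData

variable {X : GWData ι B}

/-- `Z⁻¹ ∂_x ∂_y Z` in genus `g`, class `d` (up to the power of `ħ`) -/
noncomputable def pB (X : GWData ι B) (g : ℕ) (d : B) (x y : Ins ι) (S : List (Ins ι)) : ℂ :=
  (if g = 0 then 0 else dd x (dd y (X.F (g - 1) d)) S) +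
    ∑ u ∈ antidiagonal g, ∑ v ∈ antidiagonal d,
      conv X.par (X.par x.2) (dd x (X.F u.1 v.1)) (dd y (X.F u.2 v.2)) S

/-- the three-point contributions -/
noncomputable def eB (X : GWData ι B) (g : ℕ) (d : B) (x y : Ins ι) (S : List (Ins ι)) : ℂ :=
  (if g = 1 ∧ d = 0 then dd x (dd y (quad X.E)) S else 0) +
    conv X.par (X.par x.2) (dd x (quad X.E)) (dd y (X.F g d)) S +
    conv X.par (X.par x.2) (dd x (X.F g d)) (dd y (quad X.E)) S

lemma TT_dd_dd (hX : X.IsGW) (g : ℕ) (d : B) (x y : Ins ι) (S : List (Ins ι)) :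
    TT (0, X.one) (dd x (dd y (X.F g d))) S
      = (if g = 0 ∧ d = 0 then dd x (dd y (quad X.E)) S else 0)
        + lowR x (fun x' => dd x' (dd y (X.F g d)) S)
        + lowR y (fun y' => dd x (dd y' (X.F g d)) S) := by
  have hF := gsym hX g d
  rw [TT_dd (hF.dd y) (par_one hX)]
  have h1 : dd x (TT (0, X.one) (dd y (X.F g d))) S
      = TT (0, X.one) (dd y (X.F g d)) (x :: S) := rfl
  rw [h1, TT_dd hF (par_one hX)]
  simp only [dd]
  rw [TT_F hX]
  ring

lemma TT_dd_F (hX : X.IsGW) (g : ℕ) (d : B) (x : Ins ι) :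
    TT (0, X.one) (dd x (X.F g d)) = fun T =>
      (if g = 0 ∧ d = 0 then dd x (quad X.E) T else 0)
        + lowR x (fun x' => dd x' (X.F g d) T) := by
  funext T
  rw [TT_dd (gsym hX g d) (par_one hX)]
  simp only [dd]
  rw [TT_F hX]

lemma conv_low_left (par : ι → ℕ) (x : Ins ι) (f : Ins ι → Ser ι) (g : Ser ι)
    (S : List (Ins ι)) :
    conv par (par x.2) (fun T => lowR x (fun x' => f x' T)) g S
      = lowR x (fun x' => conv par (par x'.2) (f x') g S) := by
  obtain ⟨_ | m, a⟩ := x
  · simp [conv_zero_left]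
  · simp

lemma conv_low_right (par : ι → ℕ) (e : ℕ) (y : Ins ι) (f : Ser ι) (g : Ins ι → Ser ι)
    (S : List (Ins ι)) :
    conv par e f (fun T => lowR y (fun y' => g y' T)) S
      = lowR y (fun y' => conv par e f (g y') S) := by
  obtain ⟨_ | m, a⟩ := y
  · simp [conv_zero_right]
  · simp

lemma sum_anti_left (g : ℕ) (d : B) (W : ℕ → B → ℂ) :
    ∑ u ∈ antidiagonal g, ∑ v ∈ antidiagonal d,
      (if u.1 = 0 ∧ v.1 = 0 then W u.2 v.2 else 0) = W g d := by
  rw [Finset.sum_eq_single (0, g)]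
  · rw [Finset.sum_eq_single ((0 : B), d)]
    · simp
    · intro v hv hne
      rw [if_neg]
      rintro ⟨_, h⟩
      apply hne
      rw [HasAntidiagonal.mem_antidiagonal] at hv
      ext
      · exact h
      · simp only; rw [← hv, h, zero_add]
    · intro h
      exact absurd (HasAntidiagonal.mem_antidiagonal.mpr (by simp)) h
  · intro u hu hne
    apply sum_eq_zero
    intro v _
    rw [if_neg]
    rintro ⟨h, _⟩
    apply hne
    rw [HasAntidiagonal.mem_antidiagonal] at hu
    ext
    · exact h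
    · simp only; omega
  · intro h
    exact absurd (HasAntidiagonal.mem_antidiagonal.mpr (by simp)) h

lemma sum_anti_right (g : ℕ) (d : B) (W : ℕ → B → ℂ) :
    ∑ u ∈ antidiagonal g, ∑ v ∈ antidiagonal d,
      (if u.2 = 0 ∧ v.2 = 0 then W u.1 v.1 else 0) = W g d := by
  rw [Finset.sum_eq_single (g, 0)]
  · rw [Finset.sum_eq_single (d, (0 : B))]
    · simp
    · intro v hv hne
      rw [if_neg]
      rintro ⟨_, h⟩
      apply hne
      rw [HasAntidiagonal.mem_antidiagonal] at hv
      ext
      · simp only; rw [← hv, h, add_zero]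
      · exact h
    · intro h
      exact absurd (HasAntidiagonal.mem_antidiagonal.mpr (by simp)) h
  · intro u hu hne
    apply sum_eq_zero
    intro v _
    rw [if_neg]
    rintro ⟨h, _⟩
    apply hne
    rw [HasAntidiagonal.mem_antidiagonal] at hu
    ext
    · simp only; omega
    · exact h
  · intro h
    exact absurd (HasAntidiagonal.mem_antidiagonal.mpr (by simp)) h

lemma lowR_sum (x : Ins ι) {κ : Type} (K : Finset κ) (φ : κ → Ins ι → ℂ) :
    lowR x (fun x' => ∑ k ∈ K, φ k x') = ∑ k ∈ K, lowR x (φ k) := linR_lowR.sum x K φ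

/-- `T` of the quadratic expression -/
lemma TT_pB (hX : X.IsGW) (g : ℕ) (d : B) (x y : Ins ι) (S : List (Ins ι)) :
    TT (0, X.one) (X.pB g d x y) S = lowR x (fun x' => X.pB g d x' y S)
      + lowR y (fun y' => X.pB g d x y' S) + X.eB g d x y S := by
  have e0 : X.pB g d x y = fun T => (if g = 0 then 0 else dd x (dd y (X.F (g - 1) d)) T) +
    ∑ u ∈ antidiagonal g, ∑ v ∈ antidiagonal d,
      conv X.par (X.par x.2) (dd x (X.F u.1 v.1)) (dd y (X.F u.2 v.2)) T := rfl
  rw [e0, TT_add, TT_sum]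
  simp only [TT_sum]
  -- first part
  have h1 : TT (0, X.one) (fun T => if g = 0 then 0 else dd x (dd y (X.F (g - 1) d)) T) S
      = (if g = 1 ∧ d = 0 then dd x (dd y (quad X.E)) S else 0)
        + lowR x (fun x' => if g = 0 then 0 else dd x' (dd y (X.F (g - 1) d)) S)
        + lowR y (fun y' => if g = 0 then 0 else dd x (dd y' (X.F (g - 1) d)) S) := by
    by_cases hg : g = 0
    · subst hg
      simp only [if_true]
      rw [TT_zero, linR_lowR.zero, linR_lowR.zero]
      simp
    · simp only [if_neg hg]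
      rw [TT_dd_dd hX]
      have : (g - 1 = 0 ∧ d = 0) ↔ (g = 1 ∧ d = 0) := by
        constructor
        · rintro ⟨h, h'⟩; exact ⟨by omega, h'⟩
        · rintro ⟨h, h'⟩; exact ⟨by omega, h'⟩
      simp only [this]
  have h2 : ∀ (u : ℕ × ℕ) (v : B × B), TT (0, X.one)
      (conv X.par (X.par x.2) (dd x (X.F u.1 v.1)) (dd y (X.F u.2 v.2))) S
      = (if u.1 = 0 ∧ v.1 = 0 then
          conv X.par (X.par x.2) (dd x (quad X.E)) (dd y (X.F u.2 v.2)) S else 0)
        + (if u.2 = 0 ∧ v.2 = 0 then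
          conv X.par (X.par x.2) (dd x (X.F u.1 v.1)) (dd y (quad X.E)) S else 0)
        + lowR x (fun x' => conv X.par (X.par x'.2) (dd x' (X.F u.1 v.1)) (dd y (X.F u.2 v.2)) S)
        + lowR y (fun y' => conv X.par (X.par x.2) (dd x (X.F u.1 v.1))
            (dd y' (X.F u.2 v.2)) S) := by
    intro u v
    rw [TT_conv X.par (par_one hX), TT_dd_F hX, TT_dd_F hX, conv_add_left, conv_add_right,
      conv_low_left X.par x (fun x' => dd x' (X.F u.1 v.1)),
      conv_low_right X.par _ y _ (fun y' => dd y' (X.F u.2 v.2))]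
    have a1 : conv X.par (X.par x.2) (fun T => if u.1 = 0 ∧ v.1 = 0 then dd x (quad X.E) T else 0)
        (dd y (X.F u.2 v.2)) S = if u.1 = 0 ∧ v.1 = 0 then
          conv X.par (X.par x.2) (dd x (quad X.E)) (dd y (X.F u.2 v.2)) S else 0 := by
      by_cases hc : u.1 = 0 ∧ v.1 = 0
      · simp only [if_pos hc]
      · simp only [if_neg hc]; rw [conv_zero_left]
    have a2 : conv X.par (X.par x.2) (dd x (X.F u.1 v.1))
        (fun T => if u.2 = 0 ∧ v.2 = 0 then dd y (quad X.E) T else 0) S
        = if u.2 = 0 ∧ v.2 = 0 then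
          conv X.par (X.par x.2) (dd x (X.F u.1 v.1)) (dd y (quad X.E)) S else 0 := by
      by_cases hc : u.2 = 0 ∧ v.2 = 0
      · simp only [if_pos hc]
      · simp only [if_neg hc]; rw [conv_zero_right]
    rw [a1, a2]
    ring
  rw [h1]
  simp only [h2, sum_add_distrib]
  rw [sum_anti_left g d (fun g' d' => conv X.par (X.par x.2) (dd x (quad X.E))
      (dd y (X.F g' d')) S),
    sum_anti_right g d (fun g' d' => conv X.par (X.par x.2) (dd x (X.F g' d'))
      (dd y (quad X.E)) S)]
  simp only [pB, eB]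
  rw [linR_lowR.add, linR_lowR.add]
  simp only [lowR_sum]
  ring

/-- summation by parts for the shift terms -/
lemma shift_sum (m : ℕ) (κ : ℕ → ℂ) (G : ℕ → ℕ → ℂ) :
    ∑ M ∈ range (m + 1), κ M * ((if M = 0 then 0 else G (M - 1) (m - M))
      + (if m - M = 0 then 0 else G M (m - M - 1)))
      = ∑ N ∈ range m, (κ (N + 1) + κ N) * G N (m - 1 - N) := by
  simp only [mul_add, add_mul, sum_add_distrib]
  congr 1
  · rw [sum_range_succ']
    simp only [Nat.succ_ne_zero, if_false, if_true, mul_zero, add_zero]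
    apply sum_congr rfl
    intro N hN
    have h1 : N + 1 - 1 = N := rfl
    have h2 : m - (N + 1) = m - 1 - N := by omega
    rw [h1, h2]
  · rw [sum_range_succ]
    simp only [Nat.sub_self, if_true, mul_zero, add_zero]
    apply sum_congr rfl
    intro N hN
    rw [mem_range] at hN
    have h1 : ¬ (m - N = 0) := by omega
    have h2 : m - N - 1 = m - 1 - N := by omega
    rw [if_neg h1, h2]

/-- coefficient of the quadratic term -/
noncomputable def kap (X : GWData ι B) (n i M : ℕ) (c a b : ι) : ℂ :=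
  (-1) ^ (M + 1) * vc n i (X.mu c - M - 1 / 2) * X.Einv c a * (X.R ^ i) c b

lemma virC_eq (X : GWData ι B) (n g : ℕ) (d : B) (S : List (Ins ι)) :
    X.virC n g d S = 1 / 2 * ∑ i ∈ range (n - 1), ∑ c, ∑ a, ∑ b, ∑ M ∈ range (n - 1 - i),
      X.kap n i M c a b * X.pB g d (M, a) (n - 2 - i - M, b) S := by
  rw [virC]
  congr 1
  apply sum_congr rfl
  intro i _
  rw [sum_comm]
  apply sum_congr rfl
  intro c _
  rw [sum_comm]
  apply sum_congr rfl
  intro a _
  rw [sum_comm]
  rfl

lemma kap_add (X : GWData ι B) (n i N : ℕ) (c a b : ι) :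
    X.kap (n + 1) i (N + 1) c a b + X.kap (n + 1) i N c a b
      = (n + 1) * X.kap n i N c a b := by
  simp only [kap]
  have := vc_succ_sub n i (X.mu c - N - 1 / 2)
  have e : X.mu c - ((N + 1 : ℕ) : ℂ) - 1 / 2 = X.mu c - N - 1 / 2 - 1 := by push_cast; ring
  rw [e, pow_succ (-1 : ℂ) (N + 1)]
  linear_combination ((-1) ^ (N + 1) * X.Einv c a * (X.R ^ i) c b) * this

lemma TT_virC (hX : X.IsGW) (n g : ℕ) (d : B) (S : List (Ins ι)) :
    TT (0, X.one) (X.virC (n + 1) g d) S = (n + 1) * X.virC n g d S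
      + 1 / 2 * ∑ i ∈ range n, ∑ c, ∑ a, ∑ b, ∑ M ∈ range (n - i),
        X.kap (n + 1) i M c a b * X.eB g d (M, a) (n - 1 - i - M, b) S := by
  have e0 : X.virC (n + 1) g d = fun T => 1 / 2 * ∑ i ∈ range n, ∑ c, ∑ a, ∑ b,
      ∑ M ∈ range (n - i), X.kap (n + 1) i M c a b * X.pB g d (M, a) (n - 1 - i - M, b) T := by
    funext T
    rw [virC_eq]
    have h1 : n + 1 - 1 = n := rfl
    have h2 : n + 1 - 2 = n - 1 := by omega
    rw [h1, h2]
  rw [e0, TT_smul]
  simp only [TT_sum, TT_smul, TT_pB hX]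
  have h3 : ∀ i c a b, ∑ M ∈ range (n - i), X.kap (n + 1) i M c a b *
      (lowR (M, a) (fun x' => X.pB g d x' (n - 1 - i - M, b) S)
        + lowR (n - 1 - i - M, b) (fun y' => X.pB g d (M, a) y' S)
        + X.eB g d (M, a) (n - 1 - i - M, b) S)
      = (if i < n then ∑ N ∈ range (n - 1 - i), (n + 1) * (X.kap n i N c a b
          * X.pB g d (N, a) (n - 2 - i - N, b) S) else 0)
        + ∑ M ∈ range (n - i), X.kap (n + 1) i M c a b * X.eB g d (M, a) (n - 1 - i - M, b) S := by
    intro i c a b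
    have : ∀ M, X.kap (n + 1) i M c a b *
      (lowR (M, a) (fun x' => X.pB g d x' (n - 1 - i - M, b) S)
        + lowR (n - 1 - i - M, b) (fun y' => X.pB g d (M, a) y' S)
        + X.eB g d (M, a) (n - 1 - i - M, b) S)
      = X.kap (n + 1) i M c a b *
      ((if M = 0 then 0 else X.pB g d (M - 1, a) (n - 1 - i - M, b) S)
        + (if n - 1 - i - M = 0 then 0 else X.pB g d (M, a) (n - 1 - i - M - 1, b) S))
        + X.kap (n + 1) i M c a b * X.eB g d (M, a) (n - 1 - i - M, b) S := by
      intro M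
      simp only [lowR_eq]
      ring
    rw [sum_congr rfl (fun M _ => this M), sum_add_distrib]
    congr 1
    by_cases hi : i < n
    · rw [if_pos hi]
      have hm : n - i = (n - 1 - i) + 1 := by omega
      rw [hm, shift_sum (n - 1 - i) (fun M => X.kap (n + 1) i M c a b)
        (fun M M' => X.pB g d (M, a) (M', b) S)]
      apply sum_congr rfl
      intro N hN
      have e : n - 1 - i - 1 - N = n - 2 - i - N := by omega
      simp only [e]
      rw [kap_add]
      ring
    · rw [if_neg hi]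
      have hm : n - i = 0 := by omega
      rw [hm]; simp
  simp only [h3]
  simp only [sum_add_distrib, mul_add]
  congr 1
  rw [virC_eq]
  simp only [← mul_sum]
  have h4 : ∑ i ∈ range n, ∑ c, ∑ a, ∑ b, (if i < n then (n + 1 : ℂ) *
      ∑ N ∈ range (n - 1 - i), X.kap n i N c a b * X.pB g d (N, a) (n - 2 - i - N, b) S else 0)
      = (n + 1) * ∑ i ∈ range (n - 1), ∑ c, ∑ a, ∑ b, ∑ N ∈ range (n - 1 - i),
        X.kap n i N c a b * X.pB g d (N, a) (n - 2 - i - N, b) S := by
    obtain _ | n := n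
    · simp
    · rw [sum_range_succ]
      have hz : ∀ c a b, (if n < n + 1 then ((n + 1 : ℕ) + 1 : ℂ) *
        ∑ N ∈ range (n + 1 - 1 - n), X.kap (n + 1) n N c a b *
          X.pB g d (N, a) (n + 1 - 2 - n - N, b) S else 0) = 0 := by
        intro c a b
        have : n + 1 - 1 - n = 0 := by omega
        rw [this]; simp
      simp only [hz, sum_const_zero, add_zero]
      have h5 : n + 1 - 1 = n := rfl
      rw [h5, mul_sum]
      apply sum_congr rfl
      intro i hi
      rw [mem_range] at hi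
      simp only [if_pos (show i < n + 1 by omega)]
      simp only [← mul_sum]
  rw [h4]
  ring

end GWData

end Vale.Agent.P269
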