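import Vale.Agent.P269.VirDiv3

set_option linter.unusedSectionVars false

/-!
# Reduction of the Virasoro constraints
-/

namespace Vale.Agent.P269

open Finset

variable {ι B : Type} [Fintype ι] [DecidableEq ι] [AddCommMonoid B] [DecidableEq B]
  [HasAntidiagonal B]

namespace GWData

variable {X : GWData ι B}

/-- The weight `2 m + p_a + q_a` of an insertion `τ_m(φ_a)`. -/
def wgt (X : GWData ι B) (s : Ins ι) : ℕ := 2 * s.1 + X.p s.2 + X.q s.2

/-- The constraints that remain in genus `g ≥ 1` and class `d`: the coefficient of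
`Z⁻¹ L_k Z` (`k = n - 1`) at the insertions `S`, for `1 ≤ k ≤ N = (1-g)(dim-3) + c₁·d` and `S`
consisting of insertions `τ_m(φ_a)` with `2 m + p_a + q_a ≥ 3` only (no `τ_0(1)`, no `τ_1(1)`, no
`τ_0` of a divisor), with `∑ (m + p - 1) = N - k = ∑ (m + q - 1)`. -/
def Left (X : GWData ι B) (g : ℕ) (d : B) (n : ℕ) (S : List (Ins ι)) : Prop :=
  1 ≤ g ∧ 2 ≤ n ∧ (n : ℤ) - 1 ≤ X.vd g d ∧ (∀ s ∈ S, 3 ≤ X.wgt s) ∧
  (S.map fun s => (s.1 : ℤ) + X.p s.2 - 1).sum = X.vd g d - ((n : ℤ) - 1) ∧
  (S.map fun s => (s.1 : ℤ) + X.q s.2 - 1).sum = X.vd g d - ((n : ℤ) - 1)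

/-- every class of type `(1,1)` among the basis satisfies the divisor equation, and
`H^2(X)` is of type `(1,1)` -/
def HasDivisors (X : GWData ι B) : Prop :=
  (∀ a, X.p a + X.q a = 2 → X.p a = 1 ∧ X.q a = 1) ∧
  ∀ h, X.p h = 1 → X.q h = 1 → ∃ H deg c, X.IsDivisor h H deg c

lemma sum_wgt (X : GWData ι B) (S : List (Ins ι)) :
    (S.map fun s => (s.1 : ℤ) + X.p s.2 - 1).sum + (S.map fun s => (s.1 : ℤ) + X.q s.2 - 1).sum
      = (S.map fun s => (X.wgt s : ℤ) - 2).sum := by
  induction S with
  | nil => simp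
  | cons s S ih =>
    simp only [List.map_cons, List.sum_cons, wgt] at *
    push_cast at *
    linarith

/-- removal of one `τ_0(1)` -/
lemma vir_string (hX : X.IsGW) (n g : ℕ) (d : B) (P S : List (Ins ι)) :
    X.vir (n + 1) g d (P ++ (0, X.one) :: S)
      = der lowR (X.vir (n + 1) g d) (P ++ S) + (n + 1) * X.vir n g d (P ++ S) := by
  have hone : Even (X.par ((0, X.one) : Ins ι).2) := by
    show Even (X.par X.one)
    rw [par_one hX]; exact ⟨0, rfl⟩
  rw [(gsym_vir hX (n + 1) g d).front (0, X.one) hone]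
  have := TT_vir hX n g d (P ++ S)
  simp only [TT] at this
  linear_combination this

lemma vir_dilaton (hX : X.IsGW) (hD : X.Dilaton) (n g : ℕ) (d : B) (P S : List (Ins ι)) :
    X.vir n g d (P ++ (1, X.one) :: S)
      = (2 * (g : ℂ) - 2 + (P ++ S).length) * X.vir n g d (P ++ S) := by
  have hone : Even (X.par ((1, X.one) : Ins ι).2) := by
    show Even (X.par X.one)
    rw [par_one hX]; exact ⟨0, rfl⟩
  rw [(gsym_vir hX n g d).front (1, X.one) hone, dil_vir hX hD]

lemma vir_divisor (hX : X.IsGW) {h : ι} {H : Matrix ι ι ℂ} {deg : B →+ ℂ} {c : ℂ}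
    (hH : X.IsDivisor h H deg c) (n g : ℕ) (d : B) (P S : List (Ins ι)) :
    X.vir (n + 1) g d (P ++ (0, h) :: S)
      = deg d * X.vir (n + 1) g d (P ++ S) + der (hR H) (X.vir (n + 1) g d) (P ++ S) := by
  rw [(gsym_vir hX (n + 1) g d).front (0, h) (h_even hH)]
  have := div_vir hX hH n g d (P ++ S)
  simp only [TH] at this
  linear_combination this

/-- If `(1-g)(dim-3) + c₁·d ≤ 0`, all constraints in genus `g` and class `d` hold. -/
theorem vir_of_nonpos (hX : X.IsGW) (g : ℕ) (d : B) (hN : X.vd g d ≤ 0) (n : ℕ)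
    (S : List (Ins ι)) : X.vir n g d S = 0 := by
  induction n generalizing S with
  | zero => exact hX.string g d S
  | succ n ihn =>
    obtain _ | n := n
    · exact hX.hori g d S
    · induction hl : S.length using Nat.strong_induction_on generalizing S with
      | _ l ih =>
        by_contra hne
        have h1 : (S.map fun s => (s.1 : ℤ) + X.p s.2 - 1).sum
            = X.vd g d - (((n + 1 + 1 : ℕ) : ℤ) - 1) := sup_vir (grad_p hX) (n + 1 + 1) g d S hne
        have h2 : (S.map fun s => (s.1 : ℤ) + X.q s.2 - 1).sum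
            = X.vd g d - (((n + 1 + 1 : ℕ) : ℤ) - 1) := sup_vir (grad_q hX) (n + 1 + 1) g d S hne
        have h3 := X.sum_wgt S
        rw [h1, h2] at h3
        have h4 : ∃ s ∈ S, (X.wgt s : ℤ) - 2 < 0 := by
          by_contra hc
          push Not at hc
          have : 0 ≤ (S.map fun s => (X.wgt s : ℤ) - 2).sum := by
            apply List.sum_nonneg
            intro x hx
            rw [List.mem_map] at hx
            obtain ⟨s, hs, rfl⟩ := hx
            exact hc s hs
          push_cast at h3
          omega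
        obtain ⟨⟨m, a⟩, hs, hw⟩ := h4
        have h5 : m = 0 ∧ a = X.one := by
          simp only [wgt] at hw
          have := hX.noH1 a
          refine ⟨by omega, hX.conn a (by omega)⟩
        obtain ⟨rfl, rfl⟩ := h5
        obtain ⟨P, T, rfl⟩ := List.append_of_mem hs
        apply hne
        rw [vir_string hX, ihn, der_vanish linR_lowR]
        · ring
        · intro T' hT'
          refine ih T'.length ?_ T' rfl
          rw [hT', ← hl]
          simp

/-- Reduction: all constraints in genus `g` and class `d` follow from those in `Left`. -/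
theorem vir_of_left (hX : X.IsGW) (hD : X.Dilaton) (hV : X.HasDivisors) (g : ℕ) (d : B)
    (hg : 1 ≤ g) (hL : ∀ n S, X.Left g d n S → X.vir n g d S = 0) (n : ℕ)
    (S : List (Ins ι)) : X.vir n g d S = 0 := by
  induction n generalizing S with
  | zero => exact hX.string g d S
  | succ n ihn =>
    obtain _ | n := n
    · exact hX.hori g d S
    · induction hl : S.length using Nat.strong_induction_on generalizing S with
      | _ l ih =>
        by_contra hne
        have h1 : (S.map fun s => (s.1 : ℤ) + X.p s.2 - 1).sum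
            = X.vd g d - (((n + 1 + 1 : ℕ) : ℤ) - 1) := sup_vir (grad_p hX) (n + 1 + 1) g d S hne
        have h2 : (S.map fun s => (s.1 : ℤ) + X.q s.2 - 1).sum
            = X.vd g d - (((n + 1 + 1 : ℕ) : ℤ) - 1) := sup_vir (grad_q hX) (n + 1 + 1) g d S hne
        have h3 := X.sum_wgt S
        rw [h1, h2] at h3
        have h4 : ∃ s ∈ S, (X.wgt s : ℤ) < 3 := by
          by_contra hc
          push Not at hc
          have h0 : 0 ≤ (S.map fun s => (X.wgt s : ℤ) - 2).sum := by
            apply List.sum_nonneg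
            intro x hx
            rw [List.mem_map] at hx
            obtain ⟨s, hs, rfl⟩ := hx
            have := hc s hs
            omega
          apply hne
          apply hL
          refine ⟨hg, by omega, by omega, ?_, h1, h2⟩
          intro s hs
          have := hc s hs
          exact_mod_cast this
        obtain ⟨⟨m, a⟩, hs, hw⟩ := h4
        have hw' : 2 * m + X.p a + X.q a < 3 := by
          simp only [wgt] at hw; exact_mod_cast hw
        have hno := hX.noH1 a
        obtain ⟨P, T, rfl⟩ := List.append_of_mem hs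
        have hlen : (P ++ T).length < l := by rw [← hl]; simp
        apply hne
        by_cases ha : X.p a + X.q a = 0
        · obtain rfl := hX.conn a ha
          obtain rfl | rfl : m = 0 ∨ m = 1 := by omega
          · rw [vir_string hX, ihn, der_vanish linR_lowR]
            · ring
            · intro T' hT'
              exact ih T'.length (hT' ▸ hlen) T' rfl
          · rw [vir_dilaton hX hD, ih _ hlen _ rfl, mul_zero]
        · have h6 : X.p a + X.q a = 2 ∧ m = 0 := by omega
          obtain ⟨h7, rfl⟩ := h6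
          obtain ⟨hp, hq⟩ := hV.1 a h7
          obtain ⟨H, deg, c, hH⟩ := hV.2 a hp hq
          rw [vir_divisor hX hH, ih _ hlen _ rfl, der_vanish (gd hH).toLinR]
          · ring
          · intro T' hT'
            exact ih T'.length (hT' ▸ hlen) T' rfl

/-! ### finiteness -/

lemma left_bound (g : ℕ) (d : B) (n : ℕ) (S : List (Ins ι)) (h : X.Left g d n S) :
    (S.length : ℤ) ≤ 2 * X.vd g d ∧ (n : ℤ) ≤ X.vd g d + 1 ∧
      ∀ s ∈ S, (s.1 : ℤ) ≤ 2 * X.vd g d + 2 := by
  obtain ⟨_, h1, h2, h3, h4, h5⟩ := h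
  have h6 := X.sum_wgt S
  rw [h4, h5] at h6
  have h7 : (S.length : ℤ) ≤ (S.map fun s => (X.wgt s : ℤ) - 2).sum := by
    clear h4 h5 h6
    induction S with
    | nil => simp
    | cons s S ih =>
      simp only [List.length_cons, List.map_cons, List.sum_cons]
      have := ih (fun t ht => h3 t (List.mem_cons_of_mem _ ht))
      have h8 := h3 s List.mem_cons_self
      push_cast
      have : (3 : ℤ) ≤ X.wgt s := by exact_mod_cast h8
      omega
  refine ⟨by omega, by omega, ?_⟩
  intro s hs
  have h9 : (X.wgt s : ℤ) - 2 ≤ (S.map fun s => (X.wgt s : ℤ) - 2).sum := by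
    apply List.single_le_sum
    · intro x hx
      rw [List.mem_map] at hx
      obtain ⟨t, ht, rfl⟩ := hx
      have := h3 t ht
      have : (3 : ℤ) ≤ X.wgt t := by exact_mod_cast this
      omega
    · exact List.mem_map.mpr ⟨s, hs, rfl⟩
  have h10 : (2 * s.1 : ℤ) ≤ X.wgt s := by
    simp only [wgt]; push_cast; omega
  omega

lemma fin_lists (K : ℕ) : {S : List (Ins ι) | S.length ≤ K ∧ ∀ s ∈ S, s.1 ≤ K}.Finite := by
  let f : (List (Fin (K + 1) × ι)) → List (Ins ι) := fun L => L.map fun x => ((x.1 : ℕ), x.2)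
  have h1 : {L : List (Fin (K + 1) × ι) | L.length ≤ K}.Finite :=
    List.finite_length_le _ K
  apply (h1.image f).subset
  rintro S ⟨hS1, hS2⟩
  refine ⟨S.pmap (fun s hs => (⟨s.1, hs⟩, s.2)) (fun s hs => Nat.lt_succ_of_le (hS2 s hs)),
    by simpa using hS1, ?_⟩
  simp only [f, List.map_pmap]
  rw [List.pmap_eq_map_attach]
  exact List.attach_map_subtype_val S

/-- For every genus and class only finitely many constraints remain. -/
theorem left_finite (X : GWData ι B) (g : ℕ) (d : B) :
    {x : ℕ × List (Ins ι) | X.Left g d x.1 x.2}.Finite := by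
  let K : ℕ := (2 * X.vd g d + 2).toNat
  apply ((Set.finite_le_nat K).prod (fin_lists (ι := ι) K)).subset
  rintro ⟨n, S⟩ hx
  obtain ⟨h1, h2, h3⟩ := left_bound g d n S hx
  refine ⟨?_, ?_, ?_⟩
  · simp only [Set.mem_ofPred_eq, K]; omega
  · simp only [K]; omega
  · intro s hs
    have := h3 s hs
    simp only [K]; omega

/-- In dimension at least `4`, for every class only finitely many constraints remain, over all
genera. -/
theorem left_finite_all (X : GWData ι B) (hdim : 4 ≤ X.dim) (d : B) :
    {x : ℕ × ℕ × List (Ins ι) | X.Left x.1 d x.2.1 x.2.2}.Finite := by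
  have h0 : {x : ℕ × ℕ × List (Ins ι) | X.Left x.1 d x.2.1 x.2.2} ⊆
      ⋃ g ∈ {g : ℕ | g ≤ (X.c1 d + 1).toNat}, (fun y : ℕ × List (Ins ι) => (g, y)) ''
        {y : ℕ × List (Ins ι) | X.Left g d y.1 y.2} := by
    rintro ⟨g, n, S⟩ hx
    simp only [Set.mem_iUnion]
    refine ⟨g, ?_, ⟨(n, S), hx, rfl⟩⟩
    obtain ⟨_, h1, h2, _⟩ := hx
    have h2' : (n : ℤ) - 1 ≤ (1 - (g : ℤ)) * ((X.dim : ℤ) - 3) + X.c1 d := h2
    simp only at h1
    simp only [Set.mem_ofPred_eq]
    by_contra hc
    push Not at hc
    have h3 : X.c1 d + 1 < g := by omega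
    have h4 : (1 : ℤ) ≤ (X.dim : ℤ) - 3 := by omega
    have h5 : (1 - (g : ℤ)) * ((X.dim : ℤ) - 3) ≤ (1 - (g : ℤ)) * 1 :=
      mul_le_mul_of_nonpos_left h4 (by omega)
    omega
  apply Set.Finite.subset _ h0
  apply Set.Finite.biUnion (Set.finite_le_nat _)
  intro g _
  exact (left_finite X g d).image _

end GWData

end Vale.Agent.P269
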