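import Vale.Agent.P269.VirSym

set_option linter.unusedSectionVars false

/-!
# The selection rule for the Virasoro expressions
-/

namespace Vale.Agent.P269

open Finset

variable {ι : Type}

/-- `f` is supported on lists of total weight `N` -/
def Sup (w : Ins ι → ℤ) (f : Ser ι) (N : ℤ) : Prop := ∀ S, f S ≠ 0 → (S.map w).sum = N

/-- `A` raises weights by `k` -/
def Shf (w : Ins ι → ℤ) (A : Ins ι → (Ins ι → ℂ) → ℂ) (k : ℤ) : Prop :=
  ∀ s φ, (∀ s', w s' = w s + k → φ s' = 0) → A s φ = 0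

lemma Sup.dd {w : Ins ι → ℤ} {f : Ser ι} {N : ℤ} (h : Sup w f N) (s : Ins ι) :
    Sup w (dd s f) (N - w s) := by
  intro S hS
  have := h (s :: S) hS
  simp only [List.map_cons, List.sum_cons] at this
  omega

lemma Sup.conv {w : Ins ι → ℤ} {par : ι → ℕ} (e : ℕ) {f g : Ser ι} {N M : ℤ}
    (hf : Sup w f N) (hg : Sup w g M) : Sup w (conv par e f g) (N + M) := by
  intro S hS
  induction S generalizing e f g N M with
  | nil =>
    simp only [conv_nil] at hS
    have h1 := hf [] (left_ne_zero_of_mul hS)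
    have h2 := hg [] (right_ne_zero_of_mul hS)
    simp only [List.map_nil, List.sum_nil] at h1 h2 ⊢
    omega
  | cons s S ih =>
    rw [conv_cons] at hS
    simp only [List.map_cons, List.sum_cons]
    by_cases h1 : Vale.Agent.P269.conv par (e + par s.2) (fun T => f (s :: T)) g S = 0
    · rw [h1, zero_add] at hS
      have := ih e hf (hg.dd s) (right_ne_zero_of_mul hS)
      omega
    · have := ih (e + par s.2) (hf.dd s) hg h1
      omega

lemma Sup.der {w : Ins ι → ℤ} {A : Ins ι → (Ins ι → ℂ) → ℂ} {k : ℤ} (hA : Shf w A k)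
    {f : Ser ι} {N : ℤ} (hf : Sup w f N) : Sup w (der A f) (N - k) := by
  intro S hS
  induction S generalizing f N with
  | nil => simp at hS
  | cons s S ih =>
    rw [der_cons] at hS
    simp only [List.map_cons, List.sum_cons]
    by_cases h1 : Vale.Agent.P269.der A (fun T => f (s :: T)) S = 0
    · rw [h1, add_zero] at hS
      by_contra hc
      apply hS
      apply hA
      intro s' hs'
      by_contra hn
      have := hf (s' :: S) hn
      simp only [List.map_cons, List.sum_cons] at this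
      omega
    · have := ih (hf.dd s) h1
      omega

lemma Sup.add {w : Ins ι → ℤ} {f g : Ser ι} {N : ℤ} (hf : Sup w f N) (hg : Sup w g N) :
    Sup w (fun T => f T + g T) N := by
  intro S hS
  by_cases h : f S = 0
  · apply hg S
    intro h2
    apply hS
    simp only [h, h2, add_zero]
  · exact hf S h

lemma Sup.smul {w : Ins ι → ℤ} {f : Ser ι} {N : ℤ} (c : ℂ) (hf : c ≠ 0 → Sup w f N) :
    Sup w (fun T => c * f T) N := by
  intro S hS
  exact hf (left_ne_zero_of_mul hS) S (right_ne_zero_of_mul hS)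

lemma Sup.sum {w : Ins ι → ℤ} {κ : Type} (K : Finset κ) {f : κ → Ser ι} {N : ℤ}
    (hf : ∀ k ∈ K, Sup w (f k) N) : Sup w (fun T => ∑ k ∈ K, f k T) N := by
  intro S hS
  obtain ⟨k, hk, h⟩ := Finset.exists_ne_zero_of_sum_ne_zero hS
  exact hf k hk S h

lemma Sup.congr {w : Ins ι → ℤ} {f : Ser ι} {N M : ℤ} (hf : Sup w f N) (h : N = M) :
    Sup w f M := h ▸ hf

lemma Sup.zero {w : Ins ι → ℤ} {N : ℤ} : Sup w (fun _ : List (Ins ι) => (0 : ℂ)) N := by
  intro S hS; exact absurd rfl hS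

lemma quad_ne {M : Matrix ι ι ℂ} {S : List (Ins ι)} (h : quad M S ≠ 0) :
    ∃ a b, S = [(0, a), (0, b)] ∧ M a b ≠ 0 := by
  match S with
  | [] => exact absurd rfl h
  | [s] => exact absurd (quad_one _ _) h
  | [s, t] =>
    rw [quad_two] at h
    by_cases hc : s.1 = 0 ∧ t.1 = 0
    · rw [if_pos hc] at h
      obtain ⟨s1, s2⟩ := s
      obtain ⟨t1, t2⟩ := t
      obtain ⟨h1, h2⟩ := hc
      simp only at h1 h2
      subst h1 h2
      exact ⟨s2, t2, rfl, h⟩
    · rw [if_neg hc] at h; exact absurd rfl h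
  | s :: t :: u :: S => exact absurd (quad_three _ _ _ _ _) h

variable {B : Type} [Fintype ι] [DecidableEq ι] [AddCommMonoid B] [DecidableEq B]
  [HasAntidiagonal B]

namespace GWData

variable {X : GWData ι B}

/-- virtual dimension number `(1 - g)(dim - 3) + c₁·d` -/
def vd (X : GWData ι B) (g : ℕ) (d : B) : ℤ := (1 - (g : ℤ)) * ((X.dim : ℤ) - 3) + X.c1 d

/-- weights with respect to a grading `r` (`r = p` or `r = q`) -/
def wt (r : ι → ℕ) (s : Ins ι) : ℤ := (s.1 : ℤ) + r s.2 - 1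

/-- the properties of a grading used for the selection rule -/
structure Grad (X : GWData ι B) (r : ι → ℕ) : Prop where
  one : r X.one = 0
  powR : ∀ i a b, (X.R ^ i) a b ≠ 0 → r b = r a + i
  inv : ∀ a b, X.Einv a b ≠ 0 → r a + r b = X.dim
  E : ∀ a b, X.E a b ≠ 0 → r a + r b = X.dim
  F : ∀ g d, Sup (wt r) (X.F g d) (X.vd g d)

lemma grad_p (hX : X.IsGW) : Grad X X.p :=
  ⟨hX.p_one, fun i a b h => (pow_deg hX i a b h).1, fun a b h => (inv_deg hX a b h).1,
    fun a b h => (hX.E_deg a b h).1, fun g d S h => (hX.F_dim g d S h).1⟩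

lemma grad_q (hX : X.IsGW) : Grad X X.q :=
  ⟨hX.q_one, fun i a b h => (pow_deg hX i a b h).2, fun a b h => (inv_deg hX a b h).2,
    fun a b h => (hX.E_deg a b h).2, fun g d S h => (hX.F_dim g d S h).2⟩

variable {r : ι → ℕ}

lemma shf_lam (hr : Grad X r) (n : ℕ) : Shf (wt r) (X.lam n) ((n : ℤ) - 1) := by
  intro s φ h
  simp only [lam]
  apply sum_eq_zero
  intro i _
  split_ifs with hi
  · apply sum_eq_zero
    intro b _
    by_cases h0 : (X.R ^ i) s.2 b = 0
    · rw [h0]; ring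
    · have h1 := hr.powR i _ _ h0
      rw [h (s.1 + n - 1 - i, b)]
      · ring
      · simp only [wt]
        have : ((s.1 + n - 1 - i : ℕ) : ℤ) = (s.1 : ℤ) + n - 1 - i := by omega
        rw [this, h1]
        push_cast
        ring
  · rfl

lemma sup_virA (hr : Grad X r) (n : ℕ) (g : ℕ) (d : B) :
    Sup (wt r) (X.virA n (X.F g d)) (X.vd g d - ((n : ℤ) - 1)) := by
  have e : X.virA n (X.F g d) = fun T => (-1) * ∑ i ∈ range (n + 1), ∑ b,
      (vc n i (X.mu X.one + 3 / 2) * (X.R ^ i) X.one b) * dd (n - i, b) (X.F g d) T := by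
    funext T; simp only [virA, dd]; ring
  rw [e]
  refine Sup.smul _ fun _ => Sup.sum _ fun i hi => Sup.sum _ fun b _ => Sup.smul _ fun hc => ?_
  have h1 := hr.powR i _ _ (right_ne_zero_of_mul hc)
  refine ((hr.F g d).dd (n - i, b)).congr ?_
  simp only [wt]
  rw [mem_range] at hi
  have : ((n - i : ℕ) : ℤ) = (n : ℤ) - i := by omega
  rw [this, h1, hr.one]
  push_cast
  ring

lemma vd_pred (X : GWData ι B) (g : ℕ) (d : B) (hg : g ≠ 0) :
    X.vd (g - 1) d = X.vd g d + ((X.dim : ℤ) - 3) := by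
  simp only [vd]
  have : ((g - 1 : ℕ) : ℤ) = (g : ℤ) - 1 := by omega
  rw [this]; ring

lemma vd_add (X : GWData ι B) (g : ℕ) (d : B) (u : ℕ × ℕ) (v : B × B)
    (hu : u ∈ antidiagonal g) (hv : v ∈ antidiagonal d) :
    X.vd u.1 v.1 + X.vd u.2 v.2 = X.vd g d + ((X.dim : ℤ) - 3) := by
  rw [HasAntidiagonal.mem_antidiagonal] at hu hv
  simp only [vd]
  rw [← hu, ← hv, map_add]
  push_cast
  ring

lemma sup_pB (hr : Grad X r) (g : ℕ) (d : B) (x y : Ins ι) :
    Sup (wt r) (X.pB g d x y) (X.vd g d + ((X.dim : ℤ) - 3) - wt r x - wt r y) := by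
  unfold pB
  apply Sup.add
  · by_cases hg : g = 0
    · simp only [if_pos hg]; exact Sup.zero
    · simp only [if_neg hg]
      refine (((hr.F (g - 1) d).dd y).dd x).congr ?_
      rw [vd_pred X g d hg]
      ring
  · refine Sup.sum _ fun u hu => Sup.sum _ fun v hv => ?_
    refine (Sup.conv _ ((hr.F u.1 v.1).dd x) ((hr.F u.2 v.2).dd y)).congr ?_
    have := vd_add X g d u v hu hv
    omega

lemma sup_virC (hr : Grad X r) (n g : ℕ) (d : B) :
    Sup (wt r) (X.virC n g d) (X.vd g d - ((n : ℤ) - 1)) := by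
  have e : X.virC n g d = fun T => 1 / 2 * ∑ i ∈ range (n - 1), ∑ c, ∑ a, ∑ b,
      ∑ M ∈ range (n - 1 - i),
      X.kap n i M c a b * X.pB g d (M, a) (n - 2 - i - M, b) T := by
    funext T; exact virC_eq X n g d T
  rw [e]
  refine Sup.smul _ fun _ => Sup.sum _ fun i hi => Sup.sum _ fun c _ => Sup.sum _ fun a _ =>
    Sup.sum _ fun b _ => Sup.sum _ fun M hM => Sup.smul _ fun hc => ?_
  simp only [kap] at hc
  have h1 := hr.powR i _ _ (right_ne_zero_of_mul hc)
  have h2 := hr.inv _ _ (right_ne_zero_of_mul (left_ne_zero_of_mul hc))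
  refine (sup_pB hr g d (M, a) (n - 2 - i - M, b)).congr ?_
  simp only [wt]
  rw [mem_range] at hi hM
  have e1 : ((n - 2 - i - M : ℕ) : ℤ) = (n : ℤ) - 2 - i - M := by omega
  rw [e1]
  omega

lemma sup_virD (hr : Grad X r) (n g : ℕ) (d : B) :
    Sup (wt r) (X.virD n g d) (X.vd g d - ((n : ℤ) - 1)) := by
  intro S hS
  simp only [virD] at hS
  by_cases h : g = 0 ∧ d = 0
  · rw [if_pos h] at hS
    obtain ⟨a, b, rfl, hab⟩ := quad_ne hS
    rw [Matrix.mul_apply] at hab
    obtain ⟨c, _, hc⟩ := Finset.exists_ne_zero_of_sum_ne_zero hab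
    have h1 := hr.powR n _ _ (left_ne_zero_of_mul hc)
    have h2 := hr.E _ _ (right_ne_zero_of_mul hc)
    simp only [vd, wt, h.1, h.2, map_zero, List.map_cons, List.map_nil, List.sum_cons,
      List.sum_nil]
    push_cast
    omega
  · rw [if_neg h] at hS; exact absurd rfl hS

lemma sup_virK (X : GWData ι B) (r : ι → ℕ) (n g : ℕ) (d : B) :
    Sup (wt r) (X.virK n g d) (X.vd g d - ((n : ℤ) - 1)) := by
  intro S hS
  simp only [virK] at hS
  by_cases h : n = 1 ∧ g = 1 ∧ d = 0 ∧ S = []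
  · obtain ⟨rfl, rfl, rfl, rfl⟩ := h
    simp [vd]
  · rw [if_neg h] at hS; exact absurd rfl hS

theorem sup_vir (hr : Grad X r) (n g : ℕ) (d : B) :
    Sup (wt r) (X.vir n g d) (X.vd g d - ((n : ℤ) - 1)) := by
  have e0 : X.vir n g d = fun T => (((X.virA n (X.F g d) T
      + der (X.lam n) (X.F g d) T) + X.virC n g d T) + X.virD n g d T)
      + X.virK n g d T := rfl
  rw [e0]
  exact ((((sup_virA hr n g d).add (Sup.der (shf_lam hr n) (hr.F g d))).add
    (sup_virC hr n g d)).add (sup_virD hr n g d)).add (sup_virK X r n g d)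

end GWData

end Vale.Agent.P269
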