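import Vale.Agent.P269.VirDeg

set_option linter.unusedSectionVars false

/-!
# The string equation for the Virasoro constraints: `T z_k = (k + 1) z_{k-1}`
-/

namespace Vale.Agent.P269

open Finset

variable {ι B : Type} [Fintype ι] [DecidableEq ι] [AddCommMonoid B] [DecidableEq B]
  [HasAntidiagonal B]

namespace GWData

variable {X : GWData ι B}

/-- the `A` part -/
lemma TT_virA (hX : X.IsGW) (n : ℕ) (f : Ser ι) (hf : GSym X.par f) (S : List (Ins ι)) :
    TT (0, X.one) (X.virA (n + 1) f) S = X.virA (n + 1) (TT (0, X.one) f) S
      - ∑ i ∈ range (n + 1), ∑ b, vc (n + 1) i (X.mu X.one + 3 / 2) * (X.R ^ i) X.one b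
        * f ((n - i, b) :: S) := by
  have e : X.virA (n + 1) f = fun T => - ∑ i ∈ range (n + 1 + 1), ∑ b,
      (vc (n + 1) i (X.mu X.one + 3 / 2) * (X.R ^ i) X.one b) * dd (n + 1 - i, b) f T := by
    funext T; rfl
  rw [e, TT_neg, TT_sum]
  have e2 : ∀ i, TT (0, X.one) (fun T => ∑ b,
      (vc (n + 1) i (X.mu X.one + 3 / 2) * (X.R ^ i) X.one b) * dd (n + 1 - i, b) f T) S
      = (∑ b, vc (n + 1) i (X.mu X.one + 3 / 2) * (X.R ^ i) X.one b
          * TT (0, X.one) f ((n + 1 - i, b) :: S))
        + ∑ b, vc (n + 1) i (X.mu X.one + 3 / 2) * (X.R ^ i) X.one b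
          * lowR (n + 1 - i, b) (fun s' => f (s' :: S)) := by
    intro i
    rw [TT_sum, ← sum_add_distrib]
    apply sum_congr rfl
    intro b _
    rw [TT_smul, TT_dd hf (par_one hX)]
    simp only [dd]
    ring
  rw [sum_congr rfl (fun i _ => e2 i), sum_add_distrib]
  have e3 : ∑ i ∈ range (n + 1 + 1), ∑ b, vc (n + 1) i (X.mu X.one + 3 / 2) * (X.R ^ i) X.one b
          * lowR (n + 1 - i, b) (fun s' => f (s' :: S))
      = ∑ i ∈ range (n + 1), ∑ b, vc (n + 1) i (X.mu X.one + 3 / 2) * (X.R ^ i) X.one b
        * f ((n - i, b) :: S) := by
    rw [sum_range_succ]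
    have z : ∑ b, vc (n + 1) (n + 1) (X.mu X.one + 3 / 2) * (X.R ^ (n + 1)) X.one b
          * lowR (n + 1 - (n + 1), b) (fun s' => f (s' :: S)) = 0 := by
      apply sum_eq_zero; intro b _
      simp
    rw [z, add_zero]
    apply sum_congr rfl
    intro i hi
    rw [mem_range] at hi
    apply sum_congr rfl
    intro b _
    have : n + 1 - i = (n - i) + 1 := by omega
    rw [this, lowR_succ]
  rw [e3]
  simp only [virA]
  ring

/-- the shift terms of `A` and of the linear part combine -/
lemma lam_one (X : GWData ι B) (n : ℕ) (f : Ser ι) (S : List (Ins ι)) :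
    X.lam (n + 1) (0, X.one) (fun s' => f (s' :: S))
      - ∑ i ∈ range (n + 1), ∑ b, vc (n + 1) i (X.mu X.one + 3 / 2) * (X.R ^ i) X.one b
        * f ((n - i, b) :: S) = (n + 1) * X.virA n f S := by
  have h1 : X.lam (n + 1) (0, X.one) (fun s' => f (s' :: S))
      = ∑ i ∈ range (n + 1), ∑ b, vc (n + 1) i (X.mu X.one + 1 / 2) * (X.R ^ i) X.one b
        * f ((n - i, b) :: S) := by
    simp only [lam]
    rw [sum_range_succ, if_neg (by omega), add_zero]
    apply sum_congr rfl
    intro i hi
    rw [mem_range] at hi
    rw [if_pos (by omega)]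
    apply sum_congr rfl
    intro b _
    have e1 : 0 + (n + 1) - 1 - i = n - i := by omega
    rw [e1]
    simp
  rw [h1, virA, mul_neg, mul_sum, ← sum_sub_distrib, ← sum_neg_distrib]
  apply sum_congr rfl
  intro i _
  rw [← sum_sub_distrib, mul_sum, ← sum_neg_distrib]
  apply sum_congr rfl
  intro b _
  have := vc_succ_sub n i (X.mu X.one + 3 / 2)
  have e : X.mu X.one + 3 / 2 - 1 = X.mu X.one + 1 / 2 := by ring
  rw [e] at this
  linear_combination (-((X.R ^ i) X.one b * f ((n - i, b) :: S))) * this

/-- the linear part -/
lemma TT_lin (X : GWData ι B) (n : ℕ) (f : Ser ι) (S : List (Ins ι)) :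
    TT (0, X.one) (der (X.lam (n + 1)) f) S
      = der (X.lam (n + 1)) (TT (0, X.one) f) S
        + X.lam (n + 1) (0, X.one) (fun s' => f (s' :: S))
        + (n + 1) * der (X.lam n) f S + der (X.xR n) f S := by
  rw [TT_der (linR_lam X (n + 1)), der_congrA (lam_comm X n), der_addA, der_smulA]
  ring

/-- the pairing part of `D`: cancellation for the three-point function `(1, a, b)` -/
lemma quad_identity (hX : X.IsGW) (n : ℕ) (S : List (Ins ι)) :
    X.virA (n + 1) (quad X.E) S + der (X.lam (n + 1)) (quad X.E) S
      + TT (0, X.one) (quad (X.R ^ (n + 1) * X.E)) S = (n + 1) * quad (X.R ^ n * X.E) S := by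
  match S with
  | [] =>
    simp only [virA, quad_one, der_nil, TT, quad_nil, mul_zero, sum_const_zero]
    ring
  | [s] =>
    simp only [quad_one, der_cons, der_nil, TT, virA, mul_zero]
    rw [(linR_lam X (n + 1)).zero, linR_lowR.zero, sum_range_succ]
    have z : ∑ i ∈ range (n + 1), ∑ b, vc (n + 1) i (X.mu X.one + 3 / 2) * (X.R ^ i) X.one b
        * quad X.E [(n + 1 - i, b), s] = 0 := by
      apply sum_eq_zero; intro i hi
      rw [mem_range] at hi
      apply sum_eq_zero; intro b _
      rw [quad_two, if_neg (by simp; omega), mul_zero]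
    rw [z, zero_add]
    have z2 : ∑ b, vc (n + 1) (n + 1) (X.mu X.one + 3 / 2) * (X.R ^ (n + 1)) X.one b
        * quad X.E [(n + 1 - (n + 1), b), s] = quad (X.R ^ (n + 1) * X.E) [(0, X.one), s] := by
      simp only [quad_two, Nat.sub_self, true_and, vc_self, one_mul, Matrix.mul_apply]
      split_ifs
      · rfl
      · simp
    rw [z2]; ring
  | [s, t] =>
    simp only [der_cons, der_nil, TT, virA]
    have z1 : ∑ i ∈ range (n + 1 + 1), ∑ b, vc (n + 1) i (X.mu X.one + 3 / 2) * (X.R ^ i) X.one b
        * quad X.E ((n + 1 - i, b) :: [s, t]) = 0 := by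
      apply sum_eq_zero; intro i _; apply sum_eq_zero; intro b _
      rw [quad_len _ _ (by simp), mul_zero]
    have z2 : quad (X.R ^ (n + 1) * X.E) ((0, X.one) :: [s, t]) = 0 := quad_len _ _ (by simp)
    rw [z1, z2]
    obtain ⟨m, a⟩ := s
    obtain ⟨k, b⟩ := t
    -- evaluation of the two `lam` terms
    have L1 : X.lam (n + 1) (m, a) (fun s' => quad X.E [s', (k, b)])
        = if k = 0 then (if m = 0 then vc (n + 1) n (X.mu a + 1 / 2) * (X.R ^ n * X.E) a b
          else if m = 1 then (X.R ^ (n + 1) * X.E) a b else 0) else 0 := by
      simp only [lam, quad_two]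
      by_cases hk : k = 0
      · subst hk
        simp only [if_true, and_true]
        by_cases hm : m = 0
        · subst hm
          rw [if_pos rfl, sum_range_succ, sum_range_succ,
            if_neg (show ¬ (n + 1 + 1 ≤ 0 + (n + 1)) by omega), add_zero,
            if_pos (show n + 1 ≤ 0 + (n + 1) by omega)]
          have z : ∑ i ∈ range n, (if i + 1 ≤ 0 + (n + 1) then
              ∑ c, vc (n + 1) i (X.mu a + ((0 : ℕ) : ℂ) + 1 / 2) * (X.R ^ i) a c *
                (if 0 + (n + 1) - 1 - i = 0 then X.E c b else 0) else 0) = 0 := by
            apply sum_eq_zero; intro i hi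
            rw [mem_range] at hi
            rw [if_pos (by omega)]
            apply sum_eq_zero; intro c _
            rw [if_neg (by omega), mul_zero]
          rw [z, zero_add]
          simp only [Matrix.mul_apply, Nat.cast_zero, add_zero]
          rw [mul_sum]
          apply sum_congr rfl
          intro c _
          rw [if_pos (by omega)]
          ring
        · by_cases hm1 : m = 1
          · subst hm1
            rw [if_neg (by omega), if_pos rfl, sum_range_succ,
              if_pos (show n + 1 + 1 ≤ 1 + (n + 1) by omega)]
            have z : ∑ i ∈ range (n + 1), (if i + 1 ≤ 1 + (n + 1) then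
                ∑ c, vc (n + 1) i (X.mu a + ((1 : ℕ) : ℂ) + 1 / 2) * (X.R ^ i) a c *
                  (if 1 + (n + 1) - 1 - i = 0 then X.E c b else 0) else 0) = 0 := by
              apply sum_eq_zero; intro i hi
              rw [mem_range] at hi
              rw [if_pos (by omega)]
              apply sum_eq_zero; intro c _
              rw [if_neg (by omega), mul_zero]
            rw [z, zero_add]
            simp only [Matrix.mul_apply]
            apply sum_congr rfl
            intro c _
            rw [if_pos (by omega), vc_self]
            ring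
          · rw [if_neg hm, if_neg hm1]
            apply sum_eq_zero; intro i hi
            rw [mem_range] at hi
            rw [if_pos (by omega)]
            apply sum_eq_zero; intro c _
            rw [if_neg (by omega), mul_zero]
      · simp [hk]
    have L2 : X.lam (n + 1) (k, b) (fun s' => quad X.E [(m, a), s'])
        = if m = 0 then (if k = 0 then vc (n + 1) n (X.mu b + 1 / 2) * (X.R ^ n * X.E) a b
          else if k = 1 then (X.R ^ (n + 1) * X.E) a b else 0) else 0 := by
      rw [pow_adj hX n, pow_adj hX (n + 1)]
      simp only [lam, quad_two]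
      by_cases hk : m = 0
      · subst hk
        simp only [if_true, true_and]
        by_cases hm : k = 0
        · subst hm
          rw [if_pos rfl, sum_range_succ, sum_range_succ,
            if_neg (show ¬ (n + 1 + 1 ≤ 0 + (n + 1)) by omega), add_zero,
            if_pos (show n + 1 ≤ 0 + (n + 1) by omega)]
          have z : ∑ i ∈ range n, (if i + 1 ≤ 0 + (n + 1) then
              ∑ c, vc (n + 1) i (X.mu b + ((0 : ℕ) : ℂ) + 1 / 2) * (X.R ^ i) b c *
                (if 0 + (n + 1) - 1 - i = 0 then X.E a c else 0) else 0) = 0 := by
            apply sum_eq_zero; intro i hi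
            rw [mem_range] at hi
            rw [if_pos (by omega)]
            apply sum_eq_zero; intro c _
            rw [if_neg (by omega), mul_zero]
          rw [z, zero_add]
          simp only [Matrix.mul_apply, Nat.cast_zero, add_zero, Matrix.transpose_apply]
          rw [mul_sum]
          apply sum_congr rfl
          intro c _
          rw [if_pos (by omega)]
          ring
        · by_cases hm1 : k = 1
          · subst hm1
            rw [if_neg (by omega), if_pos rfl, sum_range_succ,
              if_pos (show n + 1 + 1 ≤ 1 + (n + 1) by omega)]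
            have z : ∑ i ∈ range (n + 1), (if i + 1 ≤ 1 + (n + 1) then
                ∑ c, vc (n + 1) i (X.mu b + ((1 : ℕ) : ℂ) + 1 / 2) * (X.R ^ i) b c *
                  (if 1 + (n + 1) - 1 - i = 0 then X.E a c else 0) else 0) = 0 := by
              apply sum_eq_zero; intro i hi
              rw [mem_range] at hi
              rw [if_pos (by omega)]
              apply sum_eq_zero; intro c _
              rw [if_neg (by omega), mul_zero]
            rw [z, zero_add]
            simp only [Matrix.mul_apply, Matrix.transpose_apply]
            apply sum_congr rfl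
            intro c _
            rw [if_pos (by omega), vc_self]
            ring
          · rw [if_neg hm, if_neg hm1]
            apply sum_eq_zero; intro i hi
            rw [mem_range] at hi
            rw [if_pos (by omega)]
            apply sum_eq_zero; intro c _
            rw [if_neg (by omega), mul_zero]
      · simp [hk]
    rw [L1, L2, quad_two]
    simp only [lowR_eq, quad_two]
    by_cases hm : m = 0
    · subst hm
      by_cases hk : k = 0
      · subst hk
        simp only [if_true, and_self]
        by_cases hE : (X.R ^ n * X.E) a b = 0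
        · rw [hE]; ring
        · -- degree relation
          rw [Matrix.mul_apply] at hE
          obtain ⟨c, _, hc⟩ := Finset.exists_ne_zero_of_sum_ne_zero hE
          have h1 := pow_deg hX n a c (left_ne_zero_of_mul hc)
          have h2 := hX.E_deg c b (right_ne_zero_of_mul hc)
          have h3 : X.mu a + X.mu b = - (n : ℂ) := by
            simp only [mu]
            have : (X.p a : ℂ) + n + X.p b = X.dim := by
              rw [h1.1] at h2; exact_mod_cast h2.1
            linear_combination this
          rw [vc_succ_self, vc_succ_self]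
          linear_combination ((n + 1 : ℂ) * (X.R ^ n * X.E) a b) * h3
      · simp only [hk, if_false, if_true, and_false]
        by_cases hk1 : k = 1
        · subst hk1; simp
        · have : ¬ (k - 1 = 0) := by omega
          simp [hk1, this]
    · by_cases hk : k = 0
      · subst hk
        simp only [hm, if_false, if_true, false_and]
        by_cases hm1 : m = 1
        · subst hm1; simp
        · have : ¬ (m - 1 = 0) := by omega
          simp [hm1, this]
      · simp [hm, hk]
  | s :: t :: u :: S =>
    have z1 : ∀ M : Matrix ι ι ℂ, der lowR (quad M) (s :: t :: u :: S) = 0 := by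
      intro M
      apply der_vanish linR_lowR
      intro T hT
      apply quad_len; rw [hT]; simp
    have z2 : der (X.lam (n + 1)) (quad X.E) (s :: t :: u :: S) = 0 := by
      apply der_vanish (linR_lam X (n + 1))
      intro T hT
      apply quad_len; rw [hT]; simp
    rw [z2, quad_three, TT, z1, virA]
    have z3 : ∑ i ∈ range (n + 1 + 1), ∑ b, vc (n + 1) i (X.mu X.one + 3 / 2) * (X.R ^ i) X.one b
        * quad X.E ((n + 1 - i, b) :: s :: t :: u :: S) = 0 := by
      apply sum_eq_zero; intro i _; apply sum_eq_zero; intro b _
      rw [quad_len _ _ (by simp), mul_zero]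
    rw [z3, quad_len _ _ (by simp)]
    ring

end GWData

end Vale.Agent.P269
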