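import Vale.Agent.P269.VirGen

set_option linter.unusedSectionVars false

/-!
# Graded symmetry of the Virasoro expressions
-/

namespace Vale.Agent.P269

open Finset

variable {ι B : Type} [Fintype ι] [DecidableEq ι] [AddCommMonoid B] [DecidableEq B]
  [HasAntidiagonal B]

lemma good_lowR (par : ι → ℕ) : Good par (lowR (ι := ι)) := by
  refine ⟨linR_lowR, ?_, ?_⟩
  · rintro B hB ⟨_ | m, a⟩ t φ
    · simp only [lowR_zero]
      rw [hB.zero]
    · simp only [lowR_succ]
  · rintro ⟨_ | m, a⟩ φ ψ h
    · simp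
    · simp only [lowR_succ]
      exact h (m, a) ⟨par a, rfl⟩

lemma gsym_quad (par : ι → ℕ) (M : Matrix ι ι ℂ)
    (hM : ∀ a b, M a b = (-1) ^ (par a * par b) * M b a) : GSym par (quad M) := by
  intro P s t S
  match P, S with
  | [], [] =>
    simp only [List.nil_append]
    rw [quad_two, quad_two]
    by_cases h : s.1 = 0 ∧ t.1 = 0
    · rw [if_pos h, if_pos ⟨h.2, h.1⟩]; exact hM _ _
    · rw [if_neg h, if_neg (fun h' => h ⟨h'.2, h'.1⟩)]; ring
  | [], u :: S =>
    rw [quad_len _ _ (by simp), quad_len _ _ (by simp)]; ring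
  | u :: P, S =>
    rw [quad_len _ _ (by simp; omega), quad_len _ _ (by simp; omega)]; ring

namespace GWData

variable {X : GWData ι B}

lemma good_lam (hX : X.IsGW) (n : ℕ) : Good X.par (X.lam n) := by
  refine ⟨linR_lam X n, ?_, ?_⟩
  · intro A hA s t φ
    simp only [lam]
    rw [hA.sum]
    apply sum_congr rfl
    intro i _
    split_ifs
    · rw [hA.sum]
      apply sum_congr rfl
      intro b _
      rw [hA.smul]
    · rw [hA.zero]
  · intro s φ ψ h
    simp only [lam]
    apply sum_congr rfl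
    intro i _
    split_ifs
    · apply sum_congr rfl
      intro b _
      by_cases h0 : (X.R ^ i) s.2 b = 0
      · rw [h0]; ring
      · rw [h _ (pow_even hX i _ _ h0)]
    · rfl

lemma RE_symm (hX : X.IsGW) (n : ℕ) (a b : ι) :
    (X.R ^ n * X.E) a b = (-1) ^ (X.par a * X.par b) * (X.R ^ n * X.E) b a := by
  have h1 : (X.R ^ n * X.E) b a = ∑ c, X.E b c * (X.R ^ n) a c := by
    rw [pow_adj hX, Matrix.mul_apply]
    rfl
  rw [h1, Matrix.mul_apply, mul_sum]
  apply sum_congr rfl
  intro c _
  by_cases h0 : (X.R ^ n) a c = 0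
  · rw [h0]; ring
  · have e : ((-1 : ℂ)) ^ (X.par c * X.par b) = (-1) ^ (X.par a * X.par b) := by
      apply neg_one_eq_of_even
      rw [← add_mul, add_comm (X.par c)]
      exact (pow_even hX n a c h0).mul_right _
    rw [hX.E_symm c b, e]; ring

lemma gsym_virA (n : ℕ) {f : Ser ι} (hf : GSym X.par f) : GSym X.par (X.virA n f) := by
  have e : X.virA n f = fun T => (-1) * ∑ i ∈ range (n + 1), ∑ b,
      (vc n i (X.mu X.one + 3 / 2) * (X.R ^ i) X.one b) * dd (n - i, b) f T := by
    funext T; simp only [virA, dd]; ring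
  rw [e]
  apply GSym.smul
  apply GSym.sum
  intro i _
  apply GSym.sum
  intro b _
  exact (hf.dd _).smul _

lemma gsym_virC (hX : X.IsGW) (n g : ℕ) (d : B) : GSym X.par (X.virC n g d) := by
  have e : X.virC n g d = fun T => 1 / 2 * ∑ i ∈ range (n - 1), ∑ c, ∑ a, ∑ b,
      ∑ M ∈ range (n - 1 - i),
      X.kap n i M c a b * X.pB g d (M, a) (n - 2 - i - M, b) T := by
    funext T; exact virC_eq X n g d T
  rw [e]
  apply GSym.smul
  refine GSym.sum _ _ fun i _ => GSym.sum _ _ fun c _ => GSym.sum _ _ fun a _ =>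
    GSym.sum _ _ fun b _ => GSym.sum _ _ fun M _ => GSym.smul ?_ _
  unfold pB
  apply GSym.add
  · split_ifs
    · exact GSym.zero
    · exact ((gsym hX _ _).dd _).dd _
  · refine GSym.sum _ _ fun u _ => GSym.sum _ _ fun v _ => ?_
    exact gsym_conv _ ((gsym hX _ _).dd _) ((gsym hX _ _).dd _)

lemma gsym_virD (hX : X.IsGW) (n g : ℕ) (d : B) : GSym X.par (X.virD n g d) := by
  by_cases h : g = 0 ∧ d = 0
  · have e : X.virD n g d = quad (X.R ^ n * X.E) := by
      funext S; simp only [virD, if_pos h]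
    rw [e]
    exact gsym_quad _ _ (RE_symm hX n)
  · have e : X.virD n g d = fun _ => 0 := by
      funext S; simp only [virD, if_neg h]
    rw [e]
    exact GSym.zero

lemma gsym_virK (X : GWData ι B) (n g : ℕ) (d : B) : GSym X.par (X.virK n g d) := by
  intro P s t S
  simp [virK]

theorem gsym_vir (hX : X.IsGW) (n g : ℕ) (d : B) : GSym X.par (X.vir n g d) := by
  have e0 : X.vir n g d = fun T => (((X.virA n (X.F g d) T
      + der (X.lam n) (X.F g d) T) + X.virC n g d T) + X.virD n g d T)
      + X.virK n g d T := rfl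
  rw [e0]
  exact ((((gsym_virA n (gsym hX g d)).add (gsym_der (good_lam hX n) (gsym hX g d))).add
    (gsym_virC hX n g d)).add (gsym_virD hX n g d)).add (gsym_virK X n g d)

end GWData

end Vale.Agent.P269
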