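import Vale.Agent.P269.VirRed

set_option linter.unusedSectionVars false

/-!
# Products of class-graded superspace series, contraction with linear vector fields
-/

namespace Vale.Agent.P269

open Finset

variable {ι B : Type} [AddCommMonoid B] [DecidableEq B] [HasAntidiagonal B]

section Conv

variable (par : ι → ℕ)

lemma conv_assoc (e e' : ℕ) (f g h : Ser ι) (S : List (Ins ι)) :
    conv par (e + e') (conv par e f g) h S = conv par e f (conv par e' g h) S := by
  induction S generalizing e e' f g h with
  | nil => simp only [conv_nil]; ring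
  | cons s S ih =>
    have e1 : (fun T => conv par e f g (s :: T)) = fun T =>
        conv par (e + par s.2) (fun T => f (s :: T)) g T
        + (-1) ^ (e * par s.2) * conv par e f (fun T => g (s :: T)) T := rfl
    have e2 : (fun T => conv par e' g h (s :: T)) = fun T =>
        conv par (e' + par s.2) (fun T => g (s :: T)) h T
        + (-1) ^ (e' * par s.2) * conv par e' g (fun T => h (s :: T)) T := rfl
    rw [conv_cons, conv_cons, e1, e2, conv_add_left, conv_add_right, conv_smul_left,
      conv_smul_right]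
    have i1 := ih (e + par s.2) e' (fun T => f (s :: T)) g h
    have i2 := ih e (e' + par s.2) f (fun T => g (s :: T)) h
    have i3 := ih e e' f g (fun T => h (s :: T))
    rw [show e + par s.2 + e' = e + e' + par s.2 by ring] at i1
    rw [show e + (e' + par s.2) = e + e' + par s.2 by ring] at i2
    rw [i1, i2, i3, add_mul e e', pow_add]
    ring

lemma conv_sum_left {κ : Type} (K : Finset κ) (e : ℕ) (f : κ → Ser ι) (g : Ser ι)
    (S : List (Ins ι)) :
    conv par e (fun T => ∑ k ∈ K, f k T) g S = ∑ k ∈ K, conv par e (f k) g S := by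
  classical
  induction K using Finset.induction_on with
  | empty => simpa using conv_zero_left par e g S
  | insert a K ha ih =>
    rw [sum_insert ha, ← ih, ← conv_add_left]
    congr 1
    funext T
    rw [sum_insert ha]

lemma conv_sum_right {κ : Type} (K : Finset κ) (e : ℕ) (f : Ser ι) (g : κ → Ser ι)
    (S : List (Ins ι)) :
    conv par e f (fun T => ∑ k ∈ K, g k T) S = ∑ k ∈ K, conv par e f (g k) S := by
  classical
  induction K using Finset.induction_on with
  | empty => simpa using conv_zero_right par e f S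
  | insert a K ha ih =>
    rw [sum_insert ha, ← ih, ← conv_add_right]
    congr 1
    funext T
    rw [sum_insert ha]

/-- product with a constant on the right -/
lemma conv_const_right (e : ℕ) (c : ℂ) (f g : Ser ι) (hg0 : g [] = c) (hg : ∀ s S, g (s :: S) = 0)
    (S : List (Ins ι)) : conv par e f g S = f S * c := by
  induction S generalizing e f with
  | nil => simp [hg0]
  | cons s S ih =>
    rw [conv_cons]
    have h1 : (fun T => g (s :: T)) = fun _ => (0 : ℂ) := by funext T; exact hg s T
    rw [h1, conv_zero_right, ih]; ring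

end Conv

/-! ### class-graded series -/

/-- left derivative -/
def pd (s : Ins ι) (f : B → Ser ι) : B → List (Ins ι) → ℂ := fun d S => f d (s :: S)

/-- product -/
noncomputable def mul (par : ι → ℕ) (e : ℕ) (f g : B → Ser ι) : B → List (Ins ι) → ℂ :=
  fun d S => ∑ v ∈ antidiagonal d, conv par e (f v.1) (g v.2) S

variable (par : ι → ℕ)

lemma mul_add_left (e : ℕ) (f f' g : B → Ser ι) (d : B) (S : List (Ins ι)) :
    mul par e (fun d T => f d T + f' d T) g d S = mul par e f g d S + mul par e f' g d S := by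
  simp only [mul]
  rw [← sum_add_distrib]
  exact sum_congr rfl fun v _ => conv_add_left par e _ _ _ S

lemma mul_add_right (e : ℕ) (f g g' : B → Ser ι) (d : B) (S : List (Ins ι)) :
    mul par e f (fun d T => g d T + g' d T) d S = mul par e f g d S + mul par e f g' d S := by
  simp only [mul]
  rw [← sum_add_distrib]
  exact sum_congr rfl fun v _ => conv_add_right par e _ _ _ S

lemma mul_smul_left (e : ℕ) (c : ℂ) (f g : B → Ser ι) (d : B) (S : List (Ins ι)) :
    mul par e (fun d T => c * f d T) g d S = c * mul par e f g d S := by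
  simp only [mul]
  rw [mul_sum]
  exact sum_congr rfl fun v _ => conv_smul_left par e c _ _ S

lemma mul_smul_right (e : ℕ) (c : ℂ) (f g : B → Ser ι) (d : B) (S : List (Ins ι)) :
    mul par e f (fun d T => c * g d T) d S = c * mul par e f g d S := by
  simp only [mul]
  rw [mul_sum]
  exact sum_congr rfl fun v _ => conv_smul_right par e c _ _ S

lemma mul_zero_left (e : ℕ) (g : B → Ser ι) (d : B) (S : List (Ins ι)) :
    mul par e (fun _ _ => 0) g d S = 0 := by
  simp only [mul]
  exact sum_eq_zero fun v _ => conv_zero_left par e _ S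

lemma mul_zero_right (e : ℕ) (f : B → Ser ι) (d : B) (S : List (Ins ι)) :
    mul par e f (fun _ _ => 0) d S = 0 := by
  simp only [mul]
  exact sum_eq_zero fun v _ => conv_zero_right par e _ S

lemma mul_sum_left {κ : Type} (K : Finset κ) (e : ℕ) (f : κ → B → Ser ι) (g : B → Ser ι)
    (d : B) (S : List (Ins ι)) :
    mul par e (fun d T => ∑ k ∈ K, f k d T) g d S = ∑ k ∈ K, mul par e (f k) g d S := by
  simp only [mul]
  rw [sum_comm]
  exact sum_congr rfl fun v _ => conv_sum_left par K e _ _ S

lemma mul_sum_right {κ : Type} (K : Finset κ) (e : ℕ) (f : B → Ser ι) (g : κ → B → Ser ι)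
    (d : B) (S : List (Ins ι)) :
    mul par e f (fun d T => ∑ k ∈ K, g k d T) d S = ∑ k ∈ K, mul par e f (g k) d S := by
  simp only [mul]
  rw [sum_comm]
  exact sum_congr rfl fun v _ => conv_sum_right par K e _ _ S

lemma mul_parity {e e' : ℕ} (h : Even (e + e')) (f g : B → Ser ι) (d : B) (S : List (Ins ι)) :
    mul par e f g d S = mul par e' f g d S := by
  simp only [mul]
  exact sum_congr rfl fun v _ => conv_parity par h _ _ S

lemma mul_cons (e : ℕ) (f g : B → Ser ι) (d : B) (s : Ins ι) (S : List (Ins ι)) :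
    mul par e f g d (s :: S) = mul par (e + par s.2) (pd s f) g d S
      + (-1) ^ (e * par s.2) * mul par e f (pd s g) d S := by
  simp only [mul]
  rw [mul_sum, ← sum_add_distrib]
  rfl

lemma antidiag_assoc (d : B) (W : B → B → B → ℂ) :
    ∑ v ∈ antidiagonal d, ∑ u ∈ antidiagonal v.1, W u.1 u.2 v.2
      = ∑ v ∈ antidiagonal d, ∑ u ∈ antidiagonal v.2, W v.1 u.1 u.2 := by
  rw [Finset.sum_sigma', Finset.sum_sigma']
  refine Finset.sum_nbij' (fun x => ⟨(x.2.1, x.2.2 + x.1.2), (x.2.2, x.1.2)⟩)
    (fun x => ⟨(x.1.1 + x.2.1, x.2.2), (x.1.1, x.2.1)⟩) ?_ ?_ ?_ ?_ ?_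
  · rintro ⟨⟨a, b⟩, ⟨c, e⟩⟩ h
    simp only [mem_sigma, HasAntidiagonal.mem_antidiagonal] at h ⊢
    obtain ⟨h1, h2⟩ := h
    exact ⟨by rw [← h1, ← h2, add_assoc], trivial⟩
  · rintro ⟨⟨a, b⟩, ⟨c, e⟩⟩ h
    simp only [mem_sigma, HasAntidiagonal.mem_antidiagonal] at h ⊢
    obtain ⟨h1, h2⟩ := h
    exact ⟨by rw [← h1, ← h2, add_assoc], trivial⟩
  · rintro ⟨⟨a, b⟩, ⟨c, e⟩⟩ h
    simp only [mem_sigma, HasAntidiagonal.mem_antidiagonal] at h
    obtain ⟨h1, h2⟩ := h
    simp only [h2]
  · rintro ⟨⟨a, b⟩, ⟨c, e⟩⟩ h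
    simp only [mem_sigma, HasAntidiagonal.mem_antidiagonal] at h
    obtain ⟨h1, h2⟩ := h
    simp only [h2]
  · rintro ⟨⟨a, b⟩, ⟨c, e⟩⟩ h
    rfl

lemma mul_assoc' (e e' : ℕ) (f g h : B → Ser ι) (d : B) (S : List (Ins ι)) :
    mul par (e + e') (mul par e f g) h d S = mul par e f (mul par e' g h) d S := by
  have h1 : mul par (e + e') (mul par e f g) h d S = ∑ v ∈ antidiagonal d,
      ∑ u ∈ antidiagonal v.1, conv par (e + e') (conv par e (f u.1) (g u.2)) (h v.2) S := by
    simp only [mul]
    apply sum_congr rfl; intro v _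
    rw [← conv_sum_left]
    rfl
  have h2 : mul par e f (mul par e' g h) d S = ∑ v ∈ antidiagonal d,
      ∑ u ∈ antidiagonal v.2, conv par e (f v.1) (conv par e' (g u.1) (h u.2)) S := by
    simp only [mul]
    apply sum_congr rfl; intro v _
    rw [← conv_sum_right]
    rfl
  rw [h1, h2, antidiag_assoc d (fun x y z =>
    conv par (e + e') (conv par e (f x) (g y)) (h z) S)]
  exact sum_congr rfl fun v _ => sum_congr rfl fun u _ => conv_assoc par e e' _ _ _ S

lemma mul_lin_left {A : Ins ι → (Ins ι → ℂ) → ℂ} (hA : LinR A) (e : ℕ) (s : Ins ι)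
    (φ : Ins ι → B → Ser ι) (g : B → Ser ι) (d : B) (S : List (Ins ι)) :
    A s (fun s' => mul par e (φ s') g d S)
      = mul par e (fun d T => A s (fun s' => φ s' d T)) g d S := by
  simp only [mul]
  rw [hA.sum]
  exact sum_congr rfl fun v _ => conv_lin_left hA e s (fun s' => φ s' v.1) _ S

lemma mul_lin_right {A : Ins ι → (Ins ι → ℂ) → ℂ} (hA : LinR A) (e : ℕ) (s : Ins ι)
    (f : B → Ser ι) (φ : Ins ι → B → Ser ι) (d : B) (S : List (Ins ι)) :
    A s (fun s' => mul par e f (φ s') d S)
      = mul par e f (fun d T => A s (fun s' => φ s' d T)) d S := by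
  simp only [mul]
  rw [hA.sum]
  exact sum_congr rfl fun v _ => conv_lin_right hA e s _ (fun s' => φ s' v.2) S

/-! ### contraction with a linear vector field -/

/-- `∑ t_s A(s, x) Φ_x` -/
def tp (par : ι → ℕ) (A : Ins ι → (Ins ι → ℂ) → ℂ) : (Ins ι → Ser ι) → List (Ins ι) → ℂ
  | _, [] => 0
  | Φ, s :: S => A s (fun x => Φ x S)
      + tp par A (fun x T => (-1) ^ (par s.2 * par x.2) * Φ x (s :: T)) S

@[simp] lemma tp_nil (A : Ins ι → (Ins ι → ℂ) → ℂ) (Φ : Ins ι → Ser ι) : tp par A Φ [] = 0 := rfl

lemma tp_cons (A : Ins ι → (Ins ι → ℂ) → ℂ) (Φ : Ins ι → Ser ι) (s : Ins ι) (S : List (Ins ι)) :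
    tp par A Φ (s :: S) = A s (fun x => Φ x S)
      + tp par A (fun x T => (-1) ^ (par s.2 * par x.2) * Φ x (s :: T)) S := rfl

variable {par}

lemma tp_add {A : Ins ι → (Ins ι → ℂ) → ℂ} (hA : LinR A) (Φ Ψ : Ins ι → Ser ι)
    (S : List (Ins ι)) :
    tp par A (fun x T => Φ x T + Ψ x T) S = tp par A Φ S + tp par A Ψ S := by
  induction S generalizing Φ Ψ with
  | nil => simp
  | cons s S ih =>
    simp only [tp_cons, mul_add]
    rw [hA.add, ih]; ring

lemma tp_smul {A : Ins ι → (Ins ι → ℂ) → ℂ} (hA : LinR A) (c : ℂ) (Φ : Ins ι → Ser ι)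
    (S : List (Ins ι)) :
    tp par A (fun x T => c * Φ x T) S = c * tp par A Φ S := by
  induction S generalizing Φ with
  | nil => simp
  | cons s S ih =>
    simp only [tp_cons]
    rw [hA.smul, mul_add, ← ih]
    congr 2
    funext x T
    ring

lemma tp_zero {A : Ins ι → (Ins ι → ℂ) → ℂ} (hA : LinR A) (S : List (Ins ι)) :
    tp par A (fun _ _ => 0) S = 0 := by
  have := tp_smul (par := par) hA 0 (fun _ _ => 0) S
  simpa using this

lemma tp_sum {A : Ins ι → (Ins ι → ℂ) → ℂ} (hA : LinR A) {κ : Type} (K : Finset κ)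
    (Φ : κ → Ins ι → Ser ι) (S : List (Ins ι)) :
    tp par A (fun x T => ∑ k ∈ K, Φ k x T) S = ∑ k ∈ K, tp par A (Φ k) S := by
  classical
  induction K using Finset.induction_on with
  | empty => simpa using tp_zero (par := par) hA S
  | insert a K ha ih =>
    rw [sum_insert ha, ← ih, ← tp_add hA]
    congr 1
    funext x T
    rw [sum_insert ha]

lemma tp_congrA {A A' : Ins ι → (Ins ι → ℂ) → ℂ} (h : ∀ s φ, A s φ = A' s φ)
    (Φ : Ins ι → Ser ι) (S : List (Ins ι)) : tp par A Φ S = tp par A' Φ S := by
  have : A = A' := by funext s φ; exact h s φ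
  rw [this]

lemma tp_addA (A A' : Ins ι → (Ins ι → ℂ) → ℂ) (Φ : Ins ι → Ser ι) (S : List (Ins ι)) :
    tp par (fun s φ => A s φ + A' s φ) Φ S = tp par A Φ S + tp par A' Φ S := by
  induction S generalizing Φ with
  | nil => simp
  | cons s S ih => simp only [tp_cons]; rw [ih]; ring

lemma tp_smulA (c : ℂ) (A : Ins ι → (Ins ι → ℂ) → ℂ) (Φ : Ins ι → Ser ι) (S : List (Ins ι)) :
    tp par (fun s φ => c * A s φ) Φ S = c * tp par A Φ S := by
  induction S generalizing Φ with
  | nil => simp
  | cons s S ih => simp only [tp_cons]; rw [ih]; ring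

lemma tp_sumA {κ : Type} (K : Finset κ) (A : κ → Ins ι → (Ins ι → ℂ) → ℂ) (Φ : Ins ι → Ser ι)
    (S : List (Ins ι)) :
    tp par (fun s φ => ∑ k ∈ K, A k s φ) Φ S = ∑ k ∈ K, tp par (A k) Φ S := by
  induction S generalizing Φ with
  | nil => simp
  | cons s S ih => simp only [tp_cons]; rw [ih, sum_add_distrib]

/-- contraction with the derivatives of a series is the derivation -/
lemma tp_der (A : Ins ι → (Ins ι → ℂ) → ℂ) {G : Ser ι} (hG : GSym par G) (S : List (Ins ι)) :
    tp par A (fun x T => G (x :: T)) S = der A G S := by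
  induction S generalizing G with
  | nil => rfl
  | cons s S ih =>
    rw [tp_cons, der_cons, ← ih (hG.dd' s)]
    congr 2
    funext x T
    exact (hG.head s x T).symm

/-- multiplication from the right -/
lemma tp_conv_right {A : Ins ι → (Ins ι → ℂ) → ℂ} (hA : Good par A) (e : ℕ)
    (Φ : Ins ι → Ser ι) (H : Ser ι) (S : List (Ins ι)) :
    tp par A (fun x => conv par (e + par x.2) (Φ x) H) S = conv par e (tp par A Φ) H S := by
  induction S generalizing e Φ H with
  | nil => simp
  | cons s S ih =>
    rw [tp_cons, conv_cons]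
    have h1 : (fun (x : Ins ι) T => (-1) ^ (par s.2 * par x.2) *
        conv par (e + par x.2) (Φ x) H (s :: T))
        = fun x T => conv par (e + par s.2 + par x.2)
            (fun T => (-1) ^ (par s.2 * par x.2) * Φ x (s :: T)) H T
          + (-1) ^ (e * par s.2) * conv par (e + par x.2) (Φ x) (fun T => H (s :: T)) T := by
      funext x T
      rw [conv_cons, conv_smul_left, mul_add]
      have e1 : e + par x.2 + par s.2 = e + par s.2 + par x.2 := by ring
      have e2 : ((-1 : ℂ)) ^ (par s.2 * par x.2) * (-1) ^ ((e + par x.2) * par s.2)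
          = (-1) ^ (e * par s.2) := by
        rw [← pow_add]
        apply GWData.neg_one_eq_of_even
        refine ⟨e * par s.2 + par s.2 * par x.2, ?_⟩
        ring
      rw [e1, ← mul_assoc, e2]
    have h2 : tp par A (fun x T => conv par (e + par s.2 + par x.2)
            (fun T => (-1) ^ (par s.2 * par x.2) * Φ x (s :: T)) H T) S
        = conv par (e + par s.2) (tp par A
          (fun x T => (-1) ^ (par s.2 * par x.2) * Φ x (s :: T))) H S :=
      ih (e + par s.2) (fun x T => (-1) ^ (par s.2 * par x.2) * Φ x (s :: T)) H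
    have h3 : tp par A (fun x T => conv par (e + par x.2) (Φ x) (fun T => H (s :: T)) T) S
        = conv par e (tp par A Φ) (fun T => H (s :: T)) S := ih e Φ (fun T => H (s :: T))
    rw [h1, tp_add hA.toLinR, tp_smul hA.toLinR, h2, h3]
    have h4 : (fun T => tp par A Φ (s :: T)) = fun T => A s (fun x => Φ x T)
      + tp par A (fun x T => (-1) ^ (par s.2 * par x.2) * Φ x (s :: T)) T := rfl
    have h5 : A s (fun x => conv par (e + par x.2) (Φ x) H S)
        = conv par (e + par s.2) (fun T => A s (fun x => Φ x T)) H S := by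
      rw [← conv_lin_left hA.toLinR]
      apply hA.ev
      intro x hx
      apply conv_parity
      have : e + par x.2 + (e + par s.2) = 2 * e + (par s.2 + par x.2) := by ring
      rw [this]
      exact (even_two_mul _).add hx
    rw [h4, conv_add_left, h5]
    ring

/-- multiplication from the left -/
lemma tp_conv_left {A : Ins ι → (Ins ι → ℂ) → ℂ} (hA : Good par A) (e : ℕ)
    (H : Ser ι) (Φ : Ins ι → Ser ι) (S : List (Ins ι)) :
    tp par A (fun x T => (-1) ^ (e * par x.2) * conv par e H (Φ x) T) S
      = conv par e H (tp par A Φ) S := by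
  induction S generalizing e Φ H with
  | nil => simp
  | cons s S ih =>
    rw [tp_cons, conv_cons]
    have h1 : (fun (x : Ins ι) T => (-1) ^ (par s.2 * par x.2) *
        ((-1) ^ (e * par x.2) * conv par e H (Φ x) (s :: T)))
        = fun x T => (-1) ^ ((e + par s.2) * par x.2) *
            conv par (e + par s.2) (fun T => H (s :: T)) (Φ x) T
          + (-1) ^ (e * par s.2) * ((-1) ^ (e * par x.2) * conv par e H
            (fun T => (-1) ^ (par s.2 * par x.2) * Φ x (s :: T)) T) := by
      funext x T
      rw [conv_cons, conv_smul_right, add_mul e, pow_add]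
      ring
    have h2 : tp par A (fun x T => (-1) ^ ((e + par s.2) * par x.2) *
            conv par (e + par s.2) (fun T => H (s :: T)) (Φ x) T) S
        = conv par (e + par s.2) (fun T => H (s :: T)) (tp par A Φ) S :=
      ih (e + par s.2) (fun T => H (s :: T)) Φ
    have h3 : tp par A (fun x T => (-1) ^ (e * par x.2) * conv par e H
            (fun T => (-1) ^ (par s.2 * par x.2) * Φ x (s :: T)) T) S
        = conv par e H (tp par A (fun x T => (-1) ^ (par s.2 * par x.2) * Φ x (s :: T))) S :=
      ih e H (fun x T => (-1) ^ (par s.2 * par x.2) * Φ x (s :: T))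
    rw [h1, tp_add hA.toLinR, tp_smul hA.toLinR, h2, h3]
    have h4 : (fun T => tp par A Φ (s :: T)) = fun T => A s (fun x => Φ x T)
      + tp par A (fun x T => (-1) ^ (par s.2 * par x.2) * Φ x (s :: T)) T := rfl
    have h5 : A s (fun x => (-1) ^ (e * par x.2) * conv par e H (Φ x) S)
        = (-1) ^ (e * par s.2) * conv par e H (fun T => A s (fun x => Φ x T)) S := by
      rw [← conv_lin_right hA.toLinR, ← hA.smul]
      apply hA.ev
      intro x hx
      congr 1
      apply GWData.neg_one_eq_of_even
      rw [← mul_add, add_comm]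
      exact hx.mul_left _
    rw [h4, conv_add_right, h5]
    ring

/-- applying another replacement to a parameter -/
lemma tp_swap {A C : Ins ι → (Ins ι → ℂ) → ℂ} (hA : Good par A) (hC : LinR C) (w : Ins ι)
    (Φ : Ins ι → Ins ι → Ser ι) (S : List (Ins ι)) :
    tp par A (fun x T => C w (fun u => Φ u x T)) S = C w (fun u => tp par A (Φ u) S) := by
  induction S generalizing Φ with
  | nil => simp [hC.zero]
  | cons s S ih =>
    simp only [tp_cons]
    rw [hC.add, hA.fub C hC]
    congr 1
    rw [← ih (fun u x T => (-1) ^ (par s.2 * par x.2) * Φ u x (s :: T))]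
    congr 1
    funext x T
    rw [hC.smul]

/-- the product with a linear series is a contraction -/
lemma conv_tp (e : ℕ) (w : Ins ι → ℂ) (ell : Ser ι) (ψ : Ser ι)
    (h0 : ell [] = 0) (h1 : ∀ s, ell [s] = w s) (h2 : ∀ s t S, ell (s :: t :: S) = 0)
    (hw : ∀ s, w s ≠ 0 → Even (e + par s.2)) (S : List (Ins ι)) :
    conv par e ell ψ S = tp par (fun s φ => w s * φ s) (fun _ => ψ) S := by
  suffices h : ∀ (c : ℕ) (ψ : Ser ι), conv par e ell ψ S
      = tp par (fun s φ => w s * φ s) (fun x T => (-1) ^ (c * (e + par x.2)) * ψ T) S by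
    have := h 0 ψ
    simpa using this
  induction S with
  | nil => intro c ψ; simp [h0]
  | cons s S ih =>
    intro c ψ
    rw [conv_cons, tp_cons]
    have e1 : conv par (e + par s.2) (fun T => ell (s :: T)) ψ S = w s * ψ S := by
      apply conv_const par (e + par s.2) (w s) (fun T => ell (s :: T)) ψ
      · exact h1 s
      · intro t T; exact h2 s t T
      · exact hw s
    rw [e1, ih (c + par s.2) (fun T => ψ (s :: T)), ← tp_smul (A := fun s φ => w s * φ s)
      ⟨fun s φ ψ => by ring, fun s c φ => by ring⟩]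
    congr 1
    · by_cases hws : w s = 0
      · rw [hws]; ring
      · have : ((-1 : ℂ)) ^ (c * (e + par s.2)) = 1 := ((hw s hws).mul_left c).neg_one_pow
        simp only [this]; ring
    · congr 1
      funext x T
      rw [← mul_assoc, ← mul_assoc, ← pow_add, ← pow_add]
      congr 1
      apply GWData.neg_one_eq_of_even
      refine ⟨e * par s.2 + c * (e + par x.2) + par s.2 * par x.2, ?_⟩
      ring

end Vale.Agent.P269
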