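import Vale.Agent.P269.VirTp

set_option linter.unusedSectionVars false

/-!
# Genus zero: the contraction operators
-/

namespace Vale.Agent.P269

open Finset

variable {ι B : Type} [AddCommMonoid B] [DecidableEq B] [HasAntidiagonal B]

section

variable {par : ι → ℕ}

lemma tp_mul_right {A : Ins ι → (Ins ι → ℂ) → ℂ} (hA : Good par A) (e : ℕ)
    (Φ : Ins ι → B → Ser ι) (H : B → Ser ι) (d : B) (S : List (Ins ι)) :
    tp par A (fun x => mul par (e + par x.2) (Φ x) H d) S
      = mul par e (fun d => tp par A (fun x => Φ x d)) H d S := by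
  have e0 : (fun x : Ins ι => mul par (e + par x.2) (Φ x) H d)
      = fun x T => ∑ v ∈ antidiagonal d, conv par (e + par x.2) (Φ x v.1) (H v.2) T := rfl
  rw [e0, tp_sum hA.toLinR]
  simp only [mul]
  apply sum_congr rfl; intro v _
  exact tp_conv_right hA e (fun x => Φ x v.1) (H v.2) S

lemma tp_mul_left {A : Ins ι → (Ins ι → ℂ) → ℂ} (hA : Good par A) (e : ℕ)
    (H : B → Ser ι) (Φ : Ins ι → B → Ser ι) (d : B) (S : List (Ins ι)) :
    tp par A (fun x T => (-1) ^ (e * par x.2) * mul par e H (Φ x) d T) S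
      = mul par e H (fun d => tp par A (fun x => Φ x d)) d S := by
  have e0 : (fun (x : Ins ι) T => (-1) ^ (e * par x.2) * mul par e H (Φ x) d T)
      = fun x T => ∑ v ∈ antidiagonal d, (-1) ^ (e * par x.2) *
        conv par e (H v.1) (Φ x v.2) T := by
    funext x T
    simp only [mul]
    rw [mul_sum]
  rw [e0, tp_sum hA.toLinR]
  simp only [mul]
  apply sum_congr rfl; intro v _
  exact tp_conv_left hA e (H v.1) (fun x => Φ x v.2) S

end

variable [Fintype ι] [DecidableEq ι]

namespace GWData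

section Defs

variable (X : GWData ι B)

/-- dilaton shift part -/
noncomputable def DA (n : ℕ) (Φ : Ins ι → B → Ser ι) (d : B) (S : List (Ins ι)) : ℂ :=
  - ∑ i ∈ range (n + 1), ∑ b, vc n i (X.mu X.one + 3 / 2) * (X.R ^ i) X.one b * Φ (n - i, b) d S

/-- linear part -/
noncomputable def DT (n : ℕ) (Φ : Ins ι → B → Ser ι) (d : B) (S : List (Ins ι)) : ℂ :=
  tp X.par (X.lam n) (fun x => Φ x d) S

/-- quadratic part -/
noncomputable def DC (n : ℕ) (Φ : Ins ι → B → Ser ι) (d : B) (S : List (Ins ι)) : ℂ :=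
  ∑ i ∈ range (n - 1), ∑ c, ∑ a, ∑ b, ∑ M ∈ range (n - 1 - i), X.kap n i M c a b *
      mul X.par (X.par a) (fun d T => X.F 0 d ((M, a) :: T)) (Φ (n - 2 - i - M, b)) d S

/-- the Hamiltonian vector field, contracted with a family -/
noncomputable def DD (n : ℕ) (Φ : Ins ι → B → Ser ι) (d : B) (S : List (Ins ι)) : ℂ :=
  X.DA n Φ d S + X.DT n Φ d S + X.DC n Φ d S

end Defs

variable {X : GWData ι B}

lemma DD_add (n : ℕ) (Φ Ψ : Ins ι → B → Ser ι) (d : B) (S : List (Ins ι)) :
    X.DD n (fun x d T => Φ x d T + Ψ x d T) d S = X.DD n Φ d S + X.DD n Ψ d S := by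
  simp only [DD, DA, DT, DC]
  rw [tp_add (linR_lam X n)]
  simp only [mul_add_right, mul_add, sum_add_distrib]
  ring

lemma DA_smul (n : ℕ) (k : ℂ) (Φ : Ins ι → B → Ser ι) (d : B) (S : List (Ins ι)) :
    X.DA n (fun x d T => k * Φ x d T) d S = k * X.DA n Φ d S := by
  simp only [DA]
  rw [mul_neg, mul_sum]
  congr 1
  apply sum_congr rfl; intro i _
  rw [mul_sum]
  apply sum_congr rfl; intro b _
  ring

lemma DC_smul (n : ℕ) (k : ℂ) (Φ : Ins ι → B → Ser ι) (d : B) (S : List (Ins ι)) :
    X.DC n (fun x d T => k * Φ x d T) d S = k * X.DC n Φ d S := by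
  simp only [DC]
  rw [mul_sum]
  apply sum_congr rfl; intro i _
  rw [mul_sum]
  apply sum_congr rfl; intro c _
  rw [mul_sum]
  apply sum_congr rfl; intro a _
  rw [mul_sum]
  apply sum_congr rfl; intro b _
  rw [mul_sum]
  apply sum_congr rfl; intro M _
  rw [mul_smul_right]
  ring

lemma DD_smul (n : ℕ) (k : ℂ) (Φ : Ins ι → B → Ser ι) (d : B) (S : List (Ins ι)) :
    X.DD n (fun x d T => k * Φ x d T) d S = k * X.DD n Φ d S := by
  simp only [DD]
  rw [DA_smul, DC_smul, mul_add, mul_add]
  congr 2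
  simp only [DT]
  exact tp_smul (linR_lam X n) k (fun x => Φ x d) S

lemma DD_zero (n : ℕ) (d : B) (S : List (Ins ι)) :
    X.DD n (fun _ _ _ => 0) d S = 0 := by
  have := DD_smul (X := X) n 0 (fun _ _ _ => 0) d S
  simpa using this

lemma DD_neg (n : ℕ) (Φ : Ins ι → B → Ser ι) (d : B) (S : List (Ins ι)) :
    X.DD n (fun x d T => - Φ x d T) d S = - X.DD n Φ d S := by
  have := DD_smul (X := X) n (-1) Φ d S
  simpa using this

lemma DD_sum (n : ℕ) {κ : Type} (K : Finset κ) (Φ : κ → Ins ι → B → Ser ι) (d : B)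
    (S : List (Ins ι)) :
    X.DD n (fun x d T => ∑ k ∈ K, Φ k x d T) d S = ∑ k ∈ K, X.DD n (Φ k) d S := by
  classical
  induction K using Finset.induction_on with
  | empty => simpa using DD_zero (X := X) n d S
  | insert a K ha ih =>
    rw [sum_insert ha, ← ih, ← DD_add]
    congr 1
    funext x d T
    rw [sum_insert ha]

/-- multiplication from the right -/
lemma DD_mulR (hX : X.IsGW) (n e : ℕ) (Φ : Ins ι → B → Ser ι) (H : B → Ser ι) (d : B)
    (S : List (Ins ι)) :
    X.DD n (fun x => mul X.par (e + X.par x.2) (Φ x) H) d S = mul X.par e (X.DD n Φ) H d S := by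
  have e0 : X.DD n Φ = fun d T => X.DA n Φ d T + X.DT n Φ d T + X.DC n Φ d T := rfl
  rw [e0, mul_add_left, mul_add_left]
  simp only [DD]
  congr 1
  · congr 1
    · -- DA
      have e1 : X.DA n Φ = fun d T => (-1) * ∑ i ∈ range (n + 1), ∑ b,
          (vc n i (X.mu X.one + 3 / 2) * (X.R ^ i) X.one b) * Φ (n - i, b) d T := by
        funext d T; simp only [DA]; ring
      rw [e1, mul_smul_left, mul_sum_left]
      simp only [mul_sum_left, mul_smul_left, DA]
      rw [neg_one_mul]
      congr 1
      apply sum_congr rfl; intro i _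
      apply sum_congr rfl; intro b _
      by_cases h0 : (X.R ^ i) X.one b = 0
      · rw [h0]; ring
      · congr 1
        apply mul_parity
        have h1 := pow_even hX i _ _ h0
        rw [par_one hX, zero_add] at h1
        rw [show e + X.par b + e = 2 * e + X.par b by ring]
        exact (even_two_mul _).add h1
    · exact tp_mul_right (good_lam hX n) e Φ H d S
  · -- DC
    have e1 : X.DC n Φ = fun d T => ∑ i ∈ range (n - 1), ∑ c, ∑ a, ∑ b,
      ∑ M ∈ range (n - 1 - i), X.kap n i M c a b *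
      mul X.par (X.par a) (fun d T => X.F 0 d ((M, a) :: T)) (Φ (n - 2 - i - M, b)) d T := rfl
    rw [e1, mul_sum_left]
    simp only [mul_sum_left, mul_smul_left, DC]
    apply sum_congr rfl; intro i _
    apply sum_congr rfl; intro c _
    apply sum_congr rfl; intro a _
    apply sum_congr rfl; intro b _
    apply sum_congr rfl; intro M _
    by_cases h0 : X.kap n i M c a b = 0
    · rw [h0]; ring
    · congr 1
      simp only [kap] at h0
      have k1 := pow_even hX _ _ _ (right_ne_zero_of_mul h0)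
      have k2 := inv_even hX _ _ (right_ne_zero_of_mul (left_ne_zero_of_mul h0))
      have hab : Even (X.par a + X.par b) := by
        have : Even ((X.par c + X.par a) + (X.par c + X.par b)) := k2.add k1
        rw [show (X.par c + X.par a) + (X.par c + X.par b)
          = 2 * X.par c + (X.par a + X.par b) by ring] at this
        rw [Nat.even_add] at this
        exact this.mp (even_two_mul _)
      have h2 := mul_assoc' X.par (X.par a) (e + X.par b) (fun d T => X.F 0 d ((M, a) :: T))
        (Φ (n - 2 - i - M, b)) H d S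
      rw [← h2]
      apply mul_parity
      rw [show X.par a + (e + X.par b) + e = 2 * e + (X.par a + X.par b) by ring]
      exact (even_two_mul _).add hab

/-- applying a replacement to a parameter -/
lemma DD_lin (hX : X.IsGW) (n : ℕ) {C : Ins ι → (Ins ι → ℂ) → ℂ} (hC : LinR C) (w : Ins ι)
    (Φ : Ins ι → Ins ι → B → Ser ι) (d : B) (S : List (Ins ι)) :
    X.DD n (fun x d T => C w (fun u => Φ u x d T)) d S = C w (fun u => X.DD n (Φ u) d S) := by
  simp only [DD]
  rw [hC.add, hC.add]
  congr 1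
  · congr 1
    · simp only [DA]
      have e1 : (fun u => - ∑ i ∈ range (n + 1), ∑ b, vc n i (X.mu X.one + 3 / 2)
          * (X.R ^ i) X.one b * Φ u (n - i, b) d S)
          = fun u => (-1) * ∑ i ∈ range (n + 1), ∑ b, vc n i (X.mu X.one + 3 / 2)
          * (X.R ^ i) X.one b * Φ u (n - i, b) d S := by
        funext u; ring
      rw [e1, hC.smul, hC.sum, neg_one_mul]
      congr 1
      apply sum_congr rfl; intro i _
      rw [hC.sum]
      apply sum_congr rfl; intro b _
      rw [hC.smul]
    · simp only [DT]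
      exact tp_swap (good_lam hX n) hC w (fun u x => Φ u x d) S
  · simp only [DC]
    rw [hC.sum]
    apply sum_congr rfl; intro i _
    rw [hC.sum]
    apply sum_congr rfl; intro c _
    rw [hC.sum]
    apply sum_congr rfl; intro a _
    rw [hC.sum]
    apply sum_congr rfl; intro b _
    rw [hC.sum]
    apply sum_congr rfl; intro M _
    rw [hC.smul, mul_lin_right X.par hC]

/-- multiplication from the left, `n = 1` -/
lemma DD_mulL (hX : X.IsGW) (e : ℕ) (H : B → Ser ι) (Φ : Ins ι → B → Ser ι) (d : B)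
    (S : List (Ins ι)) :
    X.DD 1 (fun x d T => (-1) ^ (e * X.par x.2) * mul X.par e H (Φ x) d T) d S
      = mul X.par e H (X.DD 1 Φ) d S := by
  have z : ∀ Ψ : Ins ι → B → Ser ι, ∀ d T, X.DC 1 Ψ d T = 0 := by
    intro Ψ d T; simp [DC]
  have e0 : X.DD 1 Φ = fun d T => X.DA 1 Φ d T + X.DT 1 Φ d T := by
    funext d T; simp only [DD, z, add_zero]
  rw [e0, mul_add_right]
  simp only [DD, z, add_zero]
  congr 1
  · have e1 : X.DA 1 Φ = fun d T => (-1) * ∑ i ∈ range (1 + 1), ∑ b,
          (vc 1 i (X.mu X.one + 3 / 2) * (X.R ^ i) X.one b) * Φ (1 - i, b) d T := by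
      funext d T; simp only [DA]; ring
    rw [e1, mul_smul_right, mul_sum_right]
    simp only [mul_sum_right, mul_smul_right, DA]
    rw [neg_one_mul]
    congr 1
    apply sum_congr rfl; intro i _
    apply sum_congr rfl; intro b _
    by_cases h0 : (X.R ^ i) X.one b = 0
    · rw [h0]; ring
    · congr 1
      have h1 := pow_even hX i _ _ h0
      rw [par_one hX, zero_add] at h1
      rw [(h1.mul_left e).neg_one_pow, one_mul]
  · exact tp_mul_left (good_lam hX 1) e H Φ d S

/-! ### the constraint, derived once -/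

/-- minus the momentum part of the vector `A_n f` -/
noncomputable def LF (X : GWData ι B) (n : ℕ) (w : Ins ι) (d : B) (S : List (Ins ι)) : ℂ :=
  X.lam n w (fun x => X.F 0 d (x :: S)) + if d = 0 then quad (X.R ^ n * X.E) (w :: S) else 0

/-- the family `x ↦ ∂_x ∂_w F` -/
def PF (X : GWData ι B) (w x : Ins ι) (d : B) (S : List (Ins ι)) : ℂ := X.F 0 d (w :: x :: S)

lemma quadsum (X : GWData ι B) (n : ℕ) (d : B) (w : Ins ι) (S : List (Ins ι)) (i : ℕ) :
    ∑ c, ∑ a, ∑ b, ∑ M ∈ range (n - 1 - i), X.kap n i M c a b *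
      mul X.par (X.par a) (fun d T => X.F 0 d ((M, a) :: T))
        (fun d T => X.F 0 d ((n - 2 - i - M, b) :: T)) d (w :: S)
    = ∑ c, ∑ a, ∑ b, ∑ M ∈ range (n - 1 - i), X.kap n i M c a b *
      mul X.par (X.par a + X.par w.2) (fun d T => X.F 0 d ((M, a) :: w :: T))
        (fun d T => X.F 0 d ((n - 2 - i - M, b) :: T)) d S
      + ∑ c, ∑ a, ∑ b, ∑ M ∈ range (n - 1 - i), X.kap n i M c a b *
      ((-1) ^ (X.par a * X.par w.2) * mul X.par (X.par a) (fun d T => X.F 0 d ((M, a) :: T))
        (fun d T => X.F 0 d ((n - 2 - i - M, b) :: w :: T)) d S) := by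
  simp only [← sum_add_distrib]
  exact sum_congr rfl fun _ _ => sum_congr rfl fun _ _ => sum_congr rfl fun _ _ =>
      sum_congr rfl fun _ _ => by
    rw [mul_cons, mul_add]
    rfl

end GWData

end Vale.Agent.P269
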