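import Vale.Agent.P269.VirZero

set_option linter.unusedSectionVars false

/-!
# Genus zero: first derivatives of the constraints
-/

namespace Vale.Agent.P269

open Finset

variable {ι B : Type} [AddCommMonoid B] [DecidableEq B] [HasAntidiagonal B]

lemma mul_comm' (par : ι → ℕ) (e e' : ℕ) (f g : B → Ser ι)
    (hf : ∀ d S, f d S ≠ 0 → Even (e + (S.map fun s => par s.2).sum)) (d : B)
    (S : List (Ins ι)) :
    mul par e f g d S = (-1) ^ (e * e') * mul par e' g f d S := by
  simp only [mul]
  rw [mul_sum]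
  refine Finset.sum_nbij' Prod.swap Prod.swap ?_ ?_ ?_ ?_ ?_
  · intro v hv
    rw [HasAntidiagonal.mem_antidiagonal] at hv ⊢
    rw [← hv]; exact add_comm _ _
  · intro v hv
    rw [HasAntidiagonal.mem_antidiagonal] at hv ⊢
    rw [← hv]; exact add_comm _ _
  · intro v _; rfl
  · intro v _; rfl
  · intro v _
    exact conv_comm par e e' (f v.1) (g v.2) (hf v.1) S

variable [Fintype ι] [DecidableEq ι]

namespace GWData

variable {X : GWData ι B}

lemma kap_even (hX : X.IsGW) (n i M : ℕ) (c a b : ι) (h0 : X.kap n i M c a b ≠ 0) :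
    Even (X.par a + X.par b) := by
  simp only [kap] at h0
  have k1 := pow_even hX _ _ _ (right_ne_zero_of_mul h0)
  have k2 := inv_even hX _ _ (right_ne_zero_of_mul (left_ne_zero_of_mul h0))
  have : Even ((X.par c + X.par a) + (X.par c + X.par b)) := k2.add k1
  rw [show (X.par c + X.par a) + (X.par c + X.par b)
    = 2 * X.par c + (X.par a + X.par b) by ring] at this
  rw [Nat.even_add] at this
  exact this.mp (even_two_mul _)

lemma kap2_even (hX : X.IsGW) (n i M : ℕ) (a b : ι) (h0 : X.kap2 n i M a b ≠ 0) :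
    Even (X.par a + X.par b) := by
  simp only [kap2] at h0
  obtain ⟨c, _, hc⟩ := Finset.exists_ne_zero_of_sum_ne_zero h0
  exact kap_even hX n i M c a b hc

lemma pB_zero (X : GWData ι B) (d : B) (x y : Ins ι) (S : List (Ins ι)) :
    X.pB 0 d x y S = mul X.par (X.par x.2) (fun d T => X.F 0 d (x :: T))
      (fun d T => X.F 0 d (y :: T)) d S := by
  simp only [pB, if_true, zero_add, Finset.Nat.antidiagonal_zero, sum_singleton, mul]
  rfl

lemma sum_kap2 (X : GWData ι B) (n i m : ℕ) (W : ι → ι → ℕ → ℂ) :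
    ∑ c, ∑ a, ∑ b, ∑ M ∈ range m, X.kap n i M c a b * W a b M
      = ∑ a, ∑ b, ∑ M ∈ range m, X.kap2 n i M a b * W a b M := by
  rw [sum_comm]
  apply sum_congr rfl; intro a _
  rw [sum_comm]
  apply sum_congr rfl; intro b _
  rw [sum_comm]
  apply sum_congr rfl; intro M _
  rw [kap2, sum_mul]

lemma F_even' (hX : X.IsGW) (d : B) (x w : Ins ι) (T : List (Ins ι))
    (h : X.F 0 d (x :: w :: T) ≠ 0) :
    Even (X.par x.2 + X.par w.2 + (T.map fun s => X.par s.2).sum) := by
  have := F_even hX 0 d (x :: w :: T) h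
  simp only [List.map_cons, List.sum_cons] at this
  rw [add_assoc]
  exact this

/-- first half of the derivative of the quadratic term -/
lemma quad_first (hX : X.IsGW) (n : ℕ) (d : B) (w : Ins ι) (S : List (Ins ι)) (i : ℕ)
    (hi : i < n) :
    ∑ c, ∑ a, ∑ b, ∑ M ∈ range (n - i), X.kap (n + 1) i M c a b *
      mul X.par (X.par a + X.par w.2) (fun d T => X.F 0 d ((M, a) :: w :: T))
        (fun d T => X.F 0 d ((n - 1 - i - M, b) :: T)) d S
    = ∑ c, ∑ a, ∑ b, ∑ M ∈ range (n - i), X.kap (n + 1) i M c a b *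
      mul X.par (X.par a) (fun d T => X.F 0 d ((M, a) :: T))
        (X.PF w (n - 1 - i - M, b)) d S := by
  rw [sum_kap2 X (n + 1) i (n - i) (fun a b M =>
      mul X.par (X.par a + X.par w.2) (fun d T => X.F 0 d ((M, a) :: w :: T))
        (fun d T => X.F 0 d ((n - 1 - i - M, b) :: T)) d S),
    sum_kap2 X (n + 1) i (n - i) (fun a b M =>
      mul X.par (X.par a) (fun d T => X.F 0 d ((M, a) :: T))
        (X.PF w (n - 1 - i - M, b)) d S)]
  rw [sum_comm]
  apply sum_congr rfl; intro b _
  apply sum_congr rfl; intro a _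
  have hm : n - i = (n - 1 - i) + 1 := by omega
  rw [hm, ← Finset.sum_range_reflect]
  apply sum_congr rfl; intro M hM
  rw [mem_range] at hM
  have e1 : n - 1 - i + 1 - 1 - M = n - 1 - i - M := by omega
  have e2 : n - 1 - i - (n - 1 - i - M) = M := by omega
  rw [e1, e2]
  by_cases hk : X.kap2 (n + 1) i M b a = 0
  · have : X.kap2 (n + 1) i (n - 1 - i - M) a b = 0 := by
      rw [kap2_symm hX n i M (n - 1 - i - M) b a (by omega), hk, mul_zero]
    rw [hk, this]; ring
  · have hab := kap2_even hX _ _ _ _ _ hk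
    rw [kap2_symm hX n i M (n - 1 - i - M) b a (by omega)]
    rw [mul_comm' X.par (X.par a + X.par w.2) (X.par b)
      (fun d T => X.F 0 d ((n - 1 - i - M, a) :: w :: T)) (fun d T => X.F 0 d ((M, b) :: T))
      (fun d T hT => F_even' hX d (n - 1 - i - M, a) w T hT)]
    have h1 : (fun d T => X.F 0 d ((n - 1 - i - M, a) :: w :: T))
        = fun d T => (-1) ^ (X.par a * X.par w.2) * X.PF w (n - 1 - i - M, a) d T := by
      funext d T
      exact (gsym hX 0 d).head (n - 1 - i - M, a) w T
    rw [h1, mul_smul_right]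
    have h2 : ((-1 : ℂ)) ^ (X.par b * X.par a) * ((-1) ^ ((X.par a + X.par w.2) * X.par b)
        * (-1) ^ (X.par a * X.par w.2)) = 1 := by
      rw [← pow_add, ← pow_add]
      apply Even.neg_one_pow
      have : X.par b * X.par a + ((X.par a + X.par w.2) * X.par b + X.par a * X.par w.2)
        = 2 * (X.par a * X.par b) + (X.par b + X.par a) * X.par w.2 := by ring
      rw [this]
      exact (even_two_mul _).add (hab.mul_right _)
    linear_combination (X.kap2 (n + 1) i M b a * mul X.par (X.par b)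
      (fun d T => X.F 0 d ((M, b) :: T)) (X.PF w (n - 1 - i - M, a)) d S) * h2

/-- second half of the derivative of the quadratic term -/
lemma quad_second (hX : X.IsGW) (n : ℕ) (d : B) (w : Ins ι) (S : List (Ins ι)) (i : ℕ) :
    ∑ c, ∑ a, ∑ b, ∑ M ∈ range (n - i), X.kap (n + 1) i M c a b *
      ((-1) ^ (X.par a * X.par w.2) * mul X.par (X.par a) (fun d T => X.F 0 d ((M, a) :: T))
        (fun d T => X.F 0 d ((n - 1 - i - M, b) :: w :: T)) d S)
    = ∑ c, ∑ a, ∑ b, ∑ M ∈ range (n - i), X.kap (n + 1) i M c a b *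
      mul X.par (X.par a) (fun d T => X.F 0 d ((M, a) :: T))
        (X.PF w (n - 1 - i - M, b)) d S := by
  apply sum_congr rfl; intro c _
  apply sum_congr rfl; intro a _
  apply sum_congr rfl; intro b _
  apply sum_congr rfl; intro M _
  by_cases hk : X.kap (n + 1) i M c a b = 0
  · rw [hk]; ring
  · have hab := kap_even hX _ _ _ _ _ _ hk
    have h1 : (fun d T => X.F 0 d ((n - 1 - i - M, b) :: w :: T))
        = fun d T => (-1) ^ (X.par b * X.par w.2) * X.PF w (n - 1 - i - M, b) d T := by
      funext d T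
      exact (gsym hX 0 d).head (n - 1 - i - M, b) w T
    rw [h1, mul_smul_right, ← mul_assoc ((-1 : ℂ) ^ _)]
    have h2 : ((-1 : ℂ)) ^ (X.par a * X.par w.2) * (-1) ^ (X.par b * X.par w.2) = 1 := by
      rw [← pow_add, ← add_mul]
      exact (hab.mul_right _).neg_one_pow
    rw [h2, one_mul]

/-- first derivative of the genus zero constraint -/
lemma vir_cons (hX : X.IsGW) (n : ℕ) (d : B) (w : Ins ι) (S : List (Ins ι)) :
    X.vir (n + 1) 0 d (w :: S) = X.DD (n + 1) (X.PF w) d S + X.LF (n + 1) w d S := by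
  have hA : X.virA (n + 1) (X.F 0 d) (w :: S) = X.DA (n + 1) (X.PF w) d S := by
    simp only [virA, DA, PF]
    congr 1
    apply sum_congr rfl; intro i _
    apply sum_congr rfl; intro b _
    by_cases h0 : (X.R ^ i) X.one b = 0
    · rw [h0]; ring
    · have h1 := pow_even hX i _ _ h0
      rw [par_one hX, zero_add] at h1
      rw [(gsym hX 0 d).head w (n + 1 - i, b) S, (h1.mul_left _).neg_one_pow, one_mul]
  have hB : der (X.lam (n + 1)) (X.F 0 d) (w :: S)
      = X.lam (n + 1) w (fun x => X.F 0 d (x :: S)) + X.DT (n + 1) (X.PF w) d S := by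
    rw [der_cons, DT]
    congr 1
    exact (tp_der (X.lam (n + 1)) ((gsym hX 0 d).dd' w) S).symm
  have hC : X.virC (n + 1) 0 d (w :: S) = X.DC (n + 1) (X.PF w) d S := by
    rw [virC_eq, DC]
    have hn : n + 1 - 1 = n := rfl
    rw [hn]
    have h1 : ∀ i ∈ range n, ∑ c, ∑ a, ∑ b, ∑ M ∈ range (n - i), X.kap (n + 1) i M c a b *
        X.pB 0 d (M, a) (n + 1 - 2 - i - M, b) (w :: S)
        = 2 * ∑ c, ∑ a, ∑ b, ∑ M ∈ range (n - i), X.kap (n + 1) i M c a b *
        mul X.par (X.par a) (fun d T => X.F 0 d ((M, a) :: T))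
        (X.PF w (n + 1 - 2 - i - M, b)) d S := by
      intro i hi
      rw [mem_range] at hi
      have h2 := quadsum X (n + 1) d w S i
      rw [hn] at h2
      simp only [pB_zero]
      rw [h2]
      have h3 : n + 1 - 2 = n - 1 := by omega
      rw [h3, quad_first hX n d w S i hi, quad_second hX n d w S i]
      ring
    rw [sum_congr rfl h1, ← mul_sum]
    ring
  have hD : X.virD (n + 1) 0 d (w :: S)
      = if d = 0 then quad (X.R ^ (n + 1) * X.E) (w :: S) else 0 := by
    simp [virD]
  have hK : X.virK (n + 1) 0 d (w :: S) = 0 := by simp [virK]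
  rw [vir, hA, hB, hC, hD, hK, DD, LF]
  ring

end GWData

end Vale.Agent.P269
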