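import Vale.Agent.P269.VirZero2

set_option linter.unusedSectionVars false

/-!
# Genus zero: topological recursion and the operator identities
-/

namespace Vale.Agent.P269

open Finset Polynomial

variable {ι B : Type} [AddCommMonoid B] [DecidableEq B] [HasAntidiagonal B]

lemma vc_left_zero (n : ℕ) (x : ℂ) : vc (n + 1) 0 x = x * vc n 0 (x + 1) := by
  rw [vc_def, vc_def]
  have h := vP_succ' n (x + 1)
  rw [add_sub_cancel_right] at h
  rw [h, add_mul, coeff_add, coeff_C_mul]
  simp

lemma vc_left_succ (n i : ℕ) (x : ℂ) :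
    vc (n + 1) (i + 1) x = vc n i (x + 1) + x * vc n (i + 1) (x + 1) := by
  rw [vc_def, vc_def, vc_def]
  have h := vP_succ' n (x + 1)
  rw [add_sub_cancel_right] at h
  rw [h, add_mul, coeff_add, coeff_C_mul, coeff_X_mul]

/-- raising the descendant index -/
def up (x : Ins ι) : Ins ι := (x.1 + 1, x.2)

lemma tp_comp {par : ι → ℕ} {A C : Ins ι → (Ins ι → ℂ) → ℂ}
    (hC : ∀ (x : Ins ι) (k : ℂ) φ, C x (fun u => k * φ u) = k * C x φ)
    (hCe : ∀ x φ ψ, (∀ u : Ins ι, Even (par x.2 + par u.2) → φ u = ψ u) → C x φ = C x ψ)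
    (Φ : Ins ι → Ser ι) (S : List (Ins ι)) :
    tp par (fun s φ => A s (fun x => C x φ)) Φ S
      = tp par A (fun x T => C x (fun u => Φ u T)) S := by
  induction S generalizing Φ with
  | nil => rfl
  | cons s S ih =>
    rw [tp_cons, tp_cons, ih]
    congr 2
    funext x T
    rw [← hC]
    apply hCe
    intro u hu
    congr 1
    apply GWData.neg_one_eq_of_even
    rw [← mul_add, add_comm]
    exact hu.mul_left _

lemma tp_diag_congr {par : ι → ℕ} (w : Ins ι → ℂ) (Φ Ψ : Ins ι → Ser ι)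
    (h : ∀ x, w x ≠ 0 → ∀ T, Φ x T = Ψ x T) (S : List (Ins ι)) :
    tp par (fun s φ => w s * φ s) Φ S = tp par (fun s φ => w s * φ s) Ψ S := by
  induction S generalizing Φ Ψ with
  | nil => rfl
  | cons s S ih =>
    rw [tp_cons, tp_cons]
    congr 1
    · by_cases hw : w s = 0
      · rw [hw]; ring
      · simp only [h s hw]
    · apply ih
      intro x hx T
      rw [h x hx]

variable [Fintype ι] [DecidableEq ι]

namespace GWData

variable {X : GWData ι B}

/-- the genus zero topological recursion relation -/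
def TRR0 (X : GWData ι B) : Prop := ∀ d m a y z S, X.F 0 d (z :: y :: (m + 1, a) :: S)
  = ∑ μ, ∑ ν, X.Einv ν μ * mul X.par (X.par a + X.par μ)
      (fun d T => X.F 0 d ((0, μ) :: (m, a) :: T)) (fun d T => X.F 0 d (z :: y :: (0, ν) :: T)) d S

lemma trr' (hX : X.IsGW) (hT : X.TRR0) (d : B) (x w u : Ins ι) (T : List (Ins ι)) :
    X.F 0 d (w :: up x :: u :: T) = ∑ μ, ∑ ν, X.Einv ν μ *
      ((-1) ^ ((X.par x.2 + X.par μ) * X.par u.2) * mul X.par (X.par x.2 + X.par μ)
      (fun d T => X.F 0 d ((0, μ) :: x :: T)) (fun d T => X.F 0 d (w :: (0, ν) :: u :: T)) d T) := by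
  have h1 : X.F 0 d (w :: up x :: u :: T)
      = (-1) ^ (X.par x.2 * X.par u.2) * X.F 0 d (w :: u :: up x :: T) :=
    hX.F_symm 0 d [w] (up x) u T
  obtain ⟨m, a⟩ := x
  rw [h1, up, hT, mul_sum]
  apply sum_congr rfl; intro μ _
  rw [mul_sum]
  apply sum_congr rfl; intro ν _
  by_cases h0 : X.Einv ν μ = 0
  · rw [h0]; ring
  · have he := inv_even hX _ _ h0
    have h2 : (fun d T => X.F 0 d (w :: u :: (0, ν) :: T)) = fun d T =>
        (-1) ^ (X.par u.2 * X.par ν) * X.F 0 d (w :: (0, ν) :: u :: T) := by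
      funext d T
      exact hX.F_symm 0 d [w] u (0, ν) T
    rw [h2, mul_smul_right]
    have h3 : ((-1 : ℂ)) ^ (X.par a * X.par u.2) * (-1) ^ (X.par u.2 * X.par ν)
        = (-1) ^ ((X.par a + X.par μ) * X.par u.2) := by
      rw [← pow_add]
      apply neg_one_eq_of_even
      have : X.par a * X.par u.2 + X.par u.2 * X.par ν + (X.par a + X.par μ) * X.par u.2
        = 2 * (X.par a * X.par u.2) + (X.par ν + X.par μ) * X.par u.2 := by ring
      rw [this]
      exact (even_two_mul _).add (he.mul_right _)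
    linear_combination (X.Einv ν μ * mul X.par (X.par a + X.par μ)
      (fun d T => X.F 0 d ((0, μ) :: (m, a) :: T))
      (fun d T => X.F 0 d (w :: (0, ν) :: u :: T)) d T) * h3

/-- the string equation in the form used below -/
lemma string_eq (hX : X.IsGW) (d : B) (y z : Ins ι) (S : List (Ins ι)) :
    X.F 0 d (up y :: (0, X.one) :: z :: S) = X.F 0 d (y :: z :: S)
      + lowR z (fun z' => X.F 0 d (up y :: z' :: S))
      + der lowR (fun T => X.F 0 d (up y :: z :: T)) S := by
  have h1 : X.F 0 d (up y :: (0, X.one) :: z :: S) = X.F 0 d ((0, X.one) :: up y :: z :: S) := by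
    rw [(gsym hX 0 d).head (up y) (0, X.one)]
    have : X.par ((0, X.one) : Ins ι).2 = 0 := par_one hX
    rw [this]; simp
  have h2 := TT_F hX 0 d (up y :: z :: S)
  have h3 : (if (0 : ℕ) = 0 ∧ d = 0 then quad X.E (up y :: z :: S) else 0) = 0 := by
    obtain ⟨m, a⟩ := y
    split_ifs
    · match S with
      | [] => rw [up, quad_two]; simp
      | t :: S => exact quad_three _ _ _ _ _
    · rfl
  rw [h3, TT, der_cons, der_cons] at h2
  obtain ⟨m, a⟩ := y
  rw [h1]
  simp only [up, lowR_succ] at h2 ⊢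
  linear_combination h2

lemma F_low (hX : X.IsGW) (d : B) (y z : Ins ι) (S : List (Ins ι)) :
    der lowR (fun T => X.F 0 d (y :: z :: T)) S
      = tp X.par lowR (fun u T => X.F 0 d (y :: z :: u :: T)) S :=
  (tp_der lowR (((gsym hX 0 d).dd' y).dd' z) S).symm

/-- first integral of the topological recursion relation -/
lemma F_V (hX : X.IsGW) (hT : X.TRR0) (d : B) (x y : Ins ι) (S : List (Ins ι)) :
    X.F 0 d (y :: up x :: S) + X.F 0 d (up y :: x :: S)
      = ∑ μ, ∑ ν, X.Einv ν μ * mul X.par (X.par x.2 + X.par μ)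
        (fun d T => X.F 0 d ((0, μ) :: x :: T)) (fun d T => X.F 0 d (y :: (0, ν) :: T)) d S := by
  have h1 := string_eq hX d y (up x) S
  have h2 := hT d x.1 x.2 (0, X.one) (up y) S
  have h3 : ∀ ν, (fun d T => X.F 0 d (up y :: (0, X.one) :: (0, ν) :: T))
      = fun d T => X.F 0 d (y :: (0, ν) :: T)
        + tp X.par lowR (fun u T => X.F 0 d (up y :: (0, ν) :: u :: T)) T := by
    intro ν
    funext d T
    rw [string_eq hX d y (0, ν) T, F_low hX]
    simp
  have h4 : ∀ μ ν, mul X.par (X.par x.2 + X.par μ)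
      (fun d T => X.F 0 d ((0, μ) :: (x.1, x.2) :: T))
      (fun d T => X.F 0 d (up y :: (0, X.one) :: (0, ν) :: T)) d S
      = mul X.par (X.par x.2 + X.par μ)
      (fun d T => X.F 0 d ((0, μ) :: x :: T)) (fun d T => X.F 0 d (y :: (0, ν) :: T)) d S
      + tp X.par lowR (fun u T => (-1) ^ ((X.par x.2 + X.par μ) * X.par u.2) *
        mul X.par (X.par x.2 + X.par μ) (fun d T => X.F 0 d ((0, μ) :: x :: T))
        (fun d T => X.F 0 d (up y :: (0, ν) :: u :: T)) d T) S := by
    intro μ ν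
    rw [h3, mul_add_right]
    congr 1
    exact (tp_mul_left (good_lowR X.par) (X.par x.2 + X.par μ)
      (fun d T => X.F 0 d ((0, μ) :: x :: T))
      (fun u d T => X.F 0 d (up y :: (0, ν) :: u :: T)) d S).symm
  simp only [h4, mul_add, sum_add_distrib] at h2
  have h5 : ∑ μ, ∑ ν, X.Einv ν μ * tp X.par lowR (fun u T =>
        (-1) ^ ((X.par x.2 + X.par μ) * X.par u.2) *
        mul X.par (X.par x.2 + X.par μ) (fun d T => X.F 0 d ((0, μ) :: x :: T))
        (fun d T => X.F 0 d (up y :: (0, ν) :: u :: T)) d T) S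
      = der lowR (fun T => X.F 0 d (up y :: up x :: T)) S := by
    rw [F_low hX]
    have h6 : (fun u T => X.F 0 d (up y :: up x :: u :: T)) = fun u T => ∑ μ, ∑ ν, X.Einv ν μ *
      ((-1) ^ ((X.par x.2 + X.par μ) * X.par u.2) * mul X.par (X.par x.2 + X.par μ)
      (fun d T => X.F 0 d ((0, μ) :: x :: T))
      (fun d T => X.F 0 d (up y :: (0, ν) :: u :: T)) d T) := by
      funext u T
      exact trr' hX hT d x (up y) u T
    rw [h6, tp_sum linR_lowR]
    apply sum_congr rfl; intro μ _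
    rw [tp_sum linR_lowR]
    apply sum_congr rfl; intro ν _
    rw [tp_smul linR_lowR]
  rw [h5] at h2
  have h7 : X.F 0 d (up y :: (0, X.one) :: up x :: S)
    = X.F 0 d (up y :: (0, X.one) :: (x.1 + 1, x.2) :: S) := rfl
  rw [h7, h2] at h1
  have h8 : lowR (up x) (fun z' => X.F 0 d (up y :: z' :: S)) = X.F 0 d (up y :: x :: S) := by
    obtain ⟨m, a⟩ := x
    simp [up]
  rw [h8] at h1
  linear_combination -h1

/-- the constraint `L_0`, differentiated twice -/
lemma star (hX : X.IsGW) (hT : X.TRR0) (d : B) (x w : Ins ι) (S : List (Ins ι)) :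
    X.DD 1 (fun u d T => X.F 0 d (w :: up x :: u :: T)) d S
      = ∑ μ, ∑ ν, X.Einv ν μ * mul X.par (X.par x.2 + X.par μ)
        (fun d T => X.F 0 d ((0, μ) :: x :: T))
        (X.DD 1 (fun u d T => X.F 0 d (w :: (0, ν) :: u :: T))) d S := by
  have h6 : (fun (u : Ins ι) d T => X.F 0 d (w :: up x :: u :: T)) = fun u d T =>
      ∑ μ, ∑ ν, X.Einv ν μ *
      ((-1) ^ ((X.par x.2 + X.par μ) * X.par u.2) * mul X.par (X.par x.2 + X.par μ)
      (fun d T => X.F 0 d ((0, μ) :: x :: T))
      (fun d T => X.F 0 d (w :: (0, ν) :: u :: T)) d T) := by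
    funext u d T
    exact trr' hX hT d x w u T
  rw [h6, DD_sum]
  apply sum_congr rfl; intro μ _
  rw [DD_sum]
  apply sum_congr rfl; intro ν _
  rw [DD_smul, DD_mulL hX (X.par x.2 + X.par μ) (fun d T => X.F 0 d ((0, μ) :: x :: T))
    (fun u d T => X.F 0 d (w :: (0, ν) :: u :: T))]

lemma DA_eq (X : GWData ι B) (n : ℕ) (Φ : Ins ι → B → Ser ι) (d : B) (S : List (Ins ι)) :
    X.DA n Φ d S = - X.lam n (1, X.one) (fun x => Φ x d S) := by
  simp only [DA, lam]
  congr 1
  apply sum_congr rfl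
  intro i hi
  rw [mem_range] at hi
  rw [if_pos (by omega)]
  apply sum_congr rfl
  intro b _
  have e1 : 1 + n - 1 - i = n - i := by omega
  have e2 : X.mu X.one + ((1 : ℕ) : ℂ) + 1 / 2 = X.mu X.one + 3 / 2 := by push_cast; ring
  rw [e1, e2]

lemma DC_one (X : GWData ι B) (Φ : Ins ι → B → Ser ι) (d : B) (S : List (Ins ι)) :
    X.DC 1 Φ d S = 0 := by
  simp [DC]

lemma second (hX : X.IsGW) (d : B) (w y : Ins ι) (S : List (Ins ι)) :
    X.lam 1 y (fun x => X.F 0 d (w :: x :: S)) =
      - (X.lam 1 w (fun x => X.F 0 d (x :: y :: S))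
        + (if d = 0 then quad (X.R ^ 1 * X.E) (w :: y :: S) else 0))
      - X.DD 1 (fun x d T => X.F 0 d (w :: y :: x :: T)) d S := by
  have h0 := hX.hori 0 d (w :: y :: S)
  rw [vir_cons hX 0, LF, DD, DC_one] at h0
  have h1 : X.DA (0 + 1) (X.PF w) d (y :: S)
      = X.DA 1 (fun x d T => X.F 0 d (w :: y :: x :: T)) d S := by
    simp only [DA, PF]
    congr 1
    apply sum_congr rfl; intro i _
    apply sum_congr rfl; intro b _
    by_cases h0 : (X.R ^ i) X.one b = 0
    · rw [h0]; ring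
    · have h1 := pow_even hX i _ _ h0
      rw [par_one hX, zero_add] at h1
      have h2 := hX.F_symm 0 d [w] (1 - i, b) y S
      rw [(h1.mul_right _).neg_one_pow, one_mul] at h2
      congr 1
  have h2 : X.DT (0 + 1) (X.PF w) d (y :: S) = X.lam 1 y (fun x => X.F 0 d (w :: x :: S))
      + X.DT 1 (fun x d T => X.F 0 d (w :: y :: x :: T)) d S := by
    simp only [DT]
    rw [tp_cons]
    congr 1
    apply congrFun
    apply congrArg
    funext x T
    have h2 := hX.F_symm 0 d [w] y x T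
    exact h2.symm
  rw [h1, h2] at h0
  have h3 : (fun x => X.F 0 d (x :: y :: S)) = fun x => X.F 0 d (x :: y :: S) := rfl
  rw [DD, DC_one]
  linear_combination h0

end GWData

end Vale.Agent.P269
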