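import Vale.Agent.P269.VirZero3

set_option linter.unusedSectionVars false

/-!
# Genus zero: composition of the operators
-/

namespace Vale.Agent.P269

open Finset

variable {ι B : Type} [AddCommMonoid B] [DecidableEq B] [HasAntidiagonal B]
variable [Fintype ι] [DecidableEq ι]

namespace GWData

variable {X : GWData ι B}

lemma lam_def (X : GWData ι B) (n : ℕ) (s : Ins ι) (φ : Ins ι → ℂ) : X.lam n s φ =
    ∑ i ∈ range (n + 1), if i + 1 ≤ s.1 + n then
    ∑ b, vc n i (X.mu s.2 + s.1 + 1 / 2) * (X.R ^ i) s.2 b * φ (s.1 + n - 1 - i, b) else 0 := rfl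

lemma lam1_eq (X : GWData ι B) (s : Ins ι) (φ : Ins ι → ℂ) :
    X.lam 1 s φ = (X.mu s.2 + s.1 + 1 / 2) * φ s
      + ∑ b, X.R s.2 b * (if s.1 = 0 then 0 else φ (s.1 - 1, b)) := by
  obtain ⟨m, a⟩ := s
  simp only [lam]
  rw [sum_range_succ, sum_range_one, if_pos (by omega)]
  have h1 : ∑ b, vc 1 0 (X.mu a + m + 1 / 2) * (X.R ^ 0) a b * φ (m + 1 - 1 - 0, b)
      = (X.mu a + m + 1 / 2) * φ (m, a) := by
    rw [vc_succ_zero, vc_zero_zero, pow_zero, Finset.sum_eq_single a]
    · simp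
    · intro b _ hb
      rw [Matrix.one_apply_ne (Ne.symm hb)]; ring
    · intro h; exact absurd (mem_univ _) h
  rw [h1]
  congr 1
  by_cases hm : m = 0
  · subst hm
    rw [if_neg (by omega)]
    simp
  · rw [if_pos (by omega)]
    apply sum_congr rfl; intro b _
    rw [vc_self, if_neg hm, pow_one]
    have : m + 1 - 1 - 1 = m - 1 := by omega
    rw [this]; ring

lemma lam1_up (X : GWData ι B) (k : ℕ) (b : ι) (φ : Ins ι → ℂ) :
    X.lam 1 (up (k, b)) φ = (X.mu b + k + 3 / 2) * φ (k + 1, b) + ∑ c, X.R b c * φ (k, c) := by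
  rw [lam1_eq]
  simp only [up, Nat.succ_ne_zero, if_false, Nat.add_sub_cancel]
  congr 2
  push_cast; ring

lemma lam1_zero (X : GWData ι B) (b : ι) (φ : Ins ι → ℂ) :
    X.lam 1 (0, b) φ = (X.mu b + 1 / 2) * φ (0, b) := by
  rw [lam1_eq]
  simp

lemma pow_mu (hX : X.IsGW) (i : ℕ) (a b : ι) (h : (X.R ^ i) a b ≠ 0) :
    X.mu b = X.mu a + i := by
  have := (pow_deg hX i a b h).1
  simp only [mu]; rw [this]; push_cast; ring

/-- left composition -/
lemma lamI (hX : X.IsGW) (n : ℕ) (s : Ins ι) (φ : Ins ι → ℂ) :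
    X.lam (n + 1) s φ = X.lam n s (fun x => X.lam 1 (up x) φ)
      + (if s.1 = 0 then ∑ ν, (X.R ^ n) s.2 ν * X.lam 1 (0, ν) φ else 0) := by
  obtain ⟨m, a⟩ := s
  -- abbreviation
  have hX0 : ∀ i, ∀ k, ∑ b, vc n i (X.mu a + m + 1 / 2) * (X.R ^ i) a b *
      ((X.mu b + (k : ℕ) + 3 / 2) * φ (k + 1, b) + ∑ c, X.R b c * φ (k, c))
      = ∑ b, (X.mu a + i + k + 3 / 2) * vc n i (X.mu a + m + 1 / 2) * (X.R ^ i) a b
          * φ (k + 1, b)
        + ∑ b, vc n i (X.mu a + m + 1 / 2) * (X.R ^ (i + 1)) a b * φ (k, b) := by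
    intro i k
    simp only [mul_add, sum_add_distrib]
    congr 1
    · apply sum_congr rfl; intro b _
      by_cases h0 : (X.R ^ i) a b = 0
      · rw [h0]; ring
      · rw [pow_mu hX i a b h0]; ring
    · simp only [mul_sum]
      rw [sum_comm]
      apply sum_congr rfl; intro b' _
      rw [pow_succ, Matrix.mul_apply, mul_sum, sum_mul]
      apply sum_congr rfl; intro b _
      ring
  have h1 : X.lam n (m, a) (fun x => X.lam 1 (up x) φ)
      = ∑ i ∈ range (n + 1), ((if i + 1 ≤ m + n then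
        ∑ b, (X.mu a + m + 1 / 2 + n) * vc n i (X.mu a + m + 1 / 2) * (X.R ^ i) a b
          * φ (m + n - i, b) else 0)
        + (if i + 1 ≤ m + n then
          ∑ b, vc n i (X.mu a + m + 1 / 2) * (X.R ^ (i + 1)) a b * φ (m + n - 1 - i, b)
          else 0)) := by
    rw [lam_def]
    apply sum_congr rfl; intro i _
    by_cases hc : i + 1 ≤ m + n
    · rw [if_pos hc, if_pos hc, if_pos hc]
      have h2 : ∀ b, X.lam 1 (up (m + n - 1 - i, b)) φ
          = (X.mu b + ((m + n - 1 - i : ℕ) : ℂ) + 3 / 2) * φ (m + n - 1 - i + 1, b)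
            + ∑ c, X.R b c * φ (m + n - 1 - i, c) := fun b => lam1_up X _ b φ
      have h3 := hX0 i (m + n - 1 - i)
      have h4 : ∑ b, vc n i (X.mu a + m + 1 / 2) * (X.R ^ i) a b *
          X.lam 1 (up (m + n - 1 - i, b)) φ
          = ∑ b, vc n i (X.mu a + m + 1 / 2) * (X.R ^ i) a b *
      ((X.mu b + ((m + n - 1 - i : ℕ) : ℂ) + 3 / 2) * φ (m + n - 1 - i + 1, b)
        + ∑ c, X.R b c * φ (m + n - 1 - i, c)) := sum_congr rfl fun b _ => by rw [h2]
      have h5 : (∑ b, vc n i (X.mu a + ((m, a) : Ins ι).1 + 1 / 2) * (X.R ^ i) ((m, a) : Ins ι).2 b *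
          X.lam 1 (up (((m, a) : Ins ι).1 + n - 1 - i, b)) φ)
          = ∑ b, vc n i (X.mu a + m + 1 / 2) * (X.R ^ i) a b *
          X.lam 1 (up (m + n - 1 - i, b)) φ := rfl
      have e1 : m + n - 1 - i + 1 = m + n - i := by omega
      have e2 : X.mu a + i + ((m + n - 1 - i : ℕ) : ℂ) + 3 / 2 = X.mu a + m + 1 / 2 + n := by
        have : ((m + n - 1 - i : ℕ) : ℂ) = (m : ℂ) + n - 1 - i := by
          rw [Nat.cast_sub (by omega), Nat.cast_sub (by omega)]; push_cast; ring
        rw [this]; ring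
      rw [e1] at h3 h4
      rw [h5, h4, h3, e2]
    · rw [if_neg hc, if_neg hc, if_neg hc, add_zero]
  have h6 : X.lam (n + 1) (m, a) φ
      = ∑ i ∈ range (n + 1), ((if i ≤ m + n then
        ∑ b, (X.mu a + m + 1 / 2 + n) * vc n i (X.mu a + m + 1 / 2) * (X.R ^ i) a b
          * φ (m + n - i, b) else 0)
        + (if i + 1 ≤ m + n then
          ∑ b, vc n i (X.mu a + m + 1 / 2) * (X.R ^ (i + 1)) a b * φ (m + n - 1 - i, b)
          else 0)) := by
    simp only [lam]
    rw [sum_range_succ', sum_add_distrib]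
    have h7 : ∑ i ∈ range (n + 1), (if i ≤ m + n then
        ∑ b, (X.mu a + m + 1 / 2 + n) * vc n i (X.mu a + m + 1 / 2) * (X.R ^ i) a b
          * φ (m + n - i, b) else 0)
        = ∑ i ∈ range (n + 1), (if i + 1 ≤ m + n then
        ∑ b, (X.mu a + m + 1 / 2 + n) * vc n (i + 1) (X.mu a + m + 1 / 2) * (X.R ^ (i + 1)) a b
          * φ (m + n - (i + 1), b) else 0)
          + ∑ b, (X.mu a + m + 1 / 2 + n) * vc n 0 (X.mu a + m + 1 / 2) * (X.R ^ 0) a b
          * φ (m + n, b) := by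
      have h8 : ∑ i ∈ range (n + 1), (if i ≤ m + n then
        ∑ b, (X.mu a + m + 1 / 2 + n) * vc n i (X.mu a + m + 1 / 2) * (X.R ^ i) a b
          * φ (m + n - i, b) else 0)
          = ∑ i ∈ range (n + 1 + 1), (if i ≤ m + n then
        ∑ b, (X.mu a + m + 1 / 2 + n) * vc n i (X.mu a + m + 1 / 2) * (X.R ^ i) a b
          * φ (m + n - i, b) else 0) := by
        rw [sum_range_succ _ (n + 1)]
        symm
        apply add_eq_left.mpr
        split_ifs
        · apply sum_eq_zero; intro b _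
          rw [vc_gt n (n + 1) _ (Nat.lt_succ_self n)]; ring
        · rfl
      rw [h8, sum_range_succ']
      simp
    rw [h7]
    have h9 : ∑ i ∈ range (n + 1), (if i + 1 + 1 ≤ m + (n + 1) then
        ∑ b, vc (n + 1) (i + 1) (X.mu a + m + 1 / 2) * (X.R ^ (i + 1)) a b
          * φ (m + (n + 1) - 1 - (i + 1), b) else 0)
        = ∑ i ∈ range (n + 1), (if i + 1 ≤ m + n then
        ∑ b, (X.mu a + m + 1 / 2 + n) * vc n (i + 1) (X.mu a + m + 1 / 2) * (X.R ^ (i + 1)) a b
          * φ (m + n - (i + 1), b) else 0)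
          + ∑ i ∈ range (n + 1), (if i + 1 ≤ m + n then
          ∑ b, vc n i (X.mu a + m + 1 / 2) * (X.R ^ (i + 1)) a b * φ (m + n - 1 - i, b)
          else 0) := by
      rw [← sum_add_distrib]
      apply sum_congr rfl; intro i _
      by_cases hc : i + 1 ≤ m + n
      · rw [if_pos hc, if_pos hc, if_pos (by omega), ← sum_add_distrib]
        apply sum_congr rfl; intro b _
        have e1 : m + (n + 1) - 1 - (i + 1) = m + n - (i + 1) := by omega
        have e2 : m + n - 1 - i = m + n - (i + 1) := by omega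
        rw [e1, e2, vc_succ_succ]; ring
      · rw [if_neg hc, if_neg hc, if_neg (by omega), add_zero]
    rw [h9]
    have h10 : (if 0 + 1 ≤ m + (n + 1) then
        ∑ b, vc (n + 1) 0 (X.mu a + m + 1 / 2) * (X.R ^ 0) a b * φ (m + (n + 1) - 1 - 0, b)
        else 0) = ∑ b, (X.mu a + m + 1 / 2 + n) * vc n 0 (X.mu a + m + 1 / 2) * (X.R ^ 0) a b
          * φ (m + n, b) := by
      rw [if_pos (by omega)]
      apply sum_congr rfl; intro b _
      have e1 : m + (n + 1) - 1 - 0 = m + n := by omega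
      rw [e1, vc_succ_zero]
    rw [h10]
    ring
  rw [h6, h1, sum_add_distrib, sum_add_distrib]
  have h11 : ∑ i ∈ range (n + 1), (if i ≤ m + n then
        ∑ b, (X.mu a + m + 1 / 2 + n) * vc n i (X.mu a + m + 1 / 2) * (X.R ^ i) a b
          * φ (m + n - i, b) else 0)
      = ∑ i ∈ range (n + 1), (if i + 1 ≤ m + n then
        ∑ b, (X.mu a + m + 1 / 2 + n) * vc n i (X.mu a + m + 1 / 2) * (X.R ^ i) a b
          * φ (m + n - i, b) else 0)
        + (if m = 0 then ∑ ν, (X.R ^ n) a ν * X.lam 1 (0, ν) φ else 0) := by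
    rw [sum_range_succ, sum_range_succ, if_pos (show n ≤ m + n by omega)]
    have h12 : ∑ i ∈ range n, (if i ≤ m + n then
        ∑ b, (X.mu a + m + 1 / 2 + n) * vc n i (X.mu a + m + 1 / 2) * (X.R ^ i) a b
          * φ (m + n - i, b) else 0)
        = ∑ i ∈ range n, (if i + 1 ≤ m + n then
        ∑ b, (X.mu a + m + 1 / 2 + n) * vc n i (X.mu a + m + 1 / 2) * (X.R ^ i) a b
          * φ (m + n - i, b) else 0) := by
      apply sum_congr rfl; intro i hi
      rw [mem_range] at hi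
      rw [if_pos (by omega), if_pos (by omega)]
    rw [h12]
    by_cases hm : m = 0
    · subst hm
      rw [if_neg (show ¬ (n + 1 ≤ 0 + n) by omega), if_pos rfl, add_zero]
      congr 1
      apply sum_congr rfl; intro b _
      rw [vc_self, lam1_zero]
      by_cases h0 : (X.R ^ n) a b = 0
      · rw [h0]; ring
      · rw [pow_mu hX n a b h0]
        have : 0 + n - n = 0 := by omega
        rw [this]; push_cast; ring
    · rw [if_pos (show n + 1 ≤ m + n by omega), if_neg hm, add_zero]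
  rw [h11]
  ring

/-- right composition -/
lemma lamII (hX : X.IsGW) (n : ℕ) (s : Ins ι) (φ : Ins ι → ℂ) :
    X.lam (n + 1) s φ = X.lam 1 s (fun x => X.lam n (up x) φ)
      + (if s.1 = 0 then ∑ μ, X.R s.2 μ * X.lam n (0, μ) φ else 0) := by
  obtain ⟨m, a⟩ := s
  rw [lam1_eq]
  have h1 : (∑ b, X.R ((m, a) : Ins ι).2 b * (if ((m, a) : Ins ι).1 = 0 then 0
      else X.lam n (up (((m, a) : Ins ι).1 - 1, b)) φ))
      + (if ((m, a) : Ins ι).1 = 0 then ∑ μ, X.R ((m, a) : Ins ι).2 μ * X.lam n (0, μ) φ else 0)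
      = ∑ b, X.R a b * X.lam n (m, b) φ := by
    by_cases hm : m = 0
    · subst hm; simp
    · simp only [if_neg hm, add_zero]
      apply sum_congr rfl; intro b _
      have : up (m - 1, b) = (m, b) := by
        simp only [up]
        have : m - 1 + 1 = m := by omega
        rw [this]
      rw [this]
  rw [add_assoc, h1]
  have h2 : ∑ b, X.R a b * X.lam n (m, b) φ = ∑ i ∈ range (n + 1), if i + 1 ≤ m + n then
      ∑ b, vc n i (X.mu a + m + 1 / 2 + 1) * (X.R ^ (i + 1)) a b * φ (m + n - 1 - i, b)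
      else 0 := by
    simp only [lam, mul_sum]
    rw [sum_comm]
    apply sum_congr rfl; intro i _
    by_cases hc : i + 1 ≤ m + n
    · simp only [if_pos hc, mul_sum]
      rw [sum_comm]
      apply sum_congr rfl; intro b' _
      rw [pow_succ', Matrix.mul_apply, mul_sum, sum_mul]
      apply sum_congr rfl; intro b _
      by_cases h0 : X.R a b = 0
      · rw [h0]; ring
      · have := pow_mu hX 1 a b (by rw [pow_one]; exact h0)
        rw [this]
        have e : X.mu a + ((1 : ℕ) : ℂ) + m + 1 / 2 = X.mu a + m + 1 / 2 + 1 := by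
          push_cast; ring
        rw [e]; ring
    · simp only [if_neg hc, mul_zero, sum_const_zero]
  have h3 : X.lam n (up (m, a)) φ = ∑ i ∈ range (n + 1),
      ∑ b, vc n i (X.mu a + m + 1 / 2 + 1) * (X.R ^ i) a b * φ (m + n - i, b) := by
    have h0 : X.lam n (up (m, a)) φ = ∑ i ∈ range (n + 1), if i + 1 ≤ m + 1 + n then
      ∑ b, vc n i (X.mu a + ((m + 1 : ℕ) : ℂ) + 1 / 2) * (X.R ^ i) a b
        * φ (m + 1 + n - 1 - i, b) else 0 := rfl
    rw [h0]
    apply sum_congr rfl; intro i hi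
    rw [mem_range] at hi
    rw [if_pos (by omega)]
    apply sum_congr rfl; intro b _
    have e1 : m + 1 + n - 1 - i = m + n - i := by omega
    have e2 : X.mu a + ((m + 1 : ℕ) : ℂ) + 1 / 2 = X.mu a + m + 1 / 2 + 1 := by push_cast; ring
    rw [e1, e2]
  rw [h2, h3]
  simp only [lam]
  rw [sum_range_succ']
  have h4 : ∑ i ∈ range (n + 1), ∑ b, vc n i (X.mu a + m + 1 / 2 + 1) * (X.R ^ i) a b *
      φ (m + n - i, b)
      = ∑ i ∈ range (n + 1), (if i + 1 ≤ m + n then ∑ b, vc n (i + 1) (X.mu a + m + 1 / 2 + 1) *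
        (X.R ^ (i + 1)) a b * φ (m + n - 1 - i, b) else 0)
        + ∑ b, vc n 0 (X.mu a + m + 1 / 2 + 1) * (X.R ^ 0) a b * φ (m + n, b) := by
    have h5 : ∑ i ∈ range (n + 1), ∑ b, vc n i (X.mu a + m + 1 / 2 + 1) * (X.R ^ i) a b *
        φ (m + n - i, b)
        = ∑ i ∈ range (n + 1 + 1), ∑ b, vc n i (X.mu a + m + 1 / 2 + 1) * (X.R ^ i) a b *
        φ (m + n - i, b) := by
      rw [sum_range_succ _ (n + 1)]
      symm
      apply add_eq_left.mpr
      apply sum_eq_zero; intro b _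
      rw [vc_gt n (n + 1) _ (Nat.lt_succ_self n)]; ring
    rw [h5, sum_range_succ']
    congr 1
    apply sum_congr rfl; intro i hi
    rw [mem_range] at hi
    by_cases hc : i + 1 ≤ m + n
    · rw [if_pos hc]
      have : m + n - 1 - i = m + n - (i + 1) := by omega
      rw [this]
    · rw [if_neg hc]
      apply sum_eq_zero; intro b _
      rw [vc_gt n (i + 1) _ (by omega)]; ring
  rw [h4]
  have h6 : ∑ i ∈ range (n + 1), (if i + 1 + 1 ≤ m + (n + 1) then
      ∑ b, vc (n + 1) (i + 1) (X.mu a + m + 1 / 2) * (X.R ^ (i + 1)) a b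
        * φ (m + (n + 1) - 1 - (i + 1), b) else 0)
      = (X.mu a + m + 1 / 2) * ∑ i ∈ range (n + 1), (if i + 1 ≤ m + n then
        ∑ b, vc n (i + 1) (X.mu a + m + 1 / 2 + 1) *
        (X.R ^ (i + 1)) a b * φ (m + n - 1 - i, b) else 0)
        + ∑ i ∈ range (n + 1), if i + 1 ≤ m + n then
      ∑ b, vc n i (X.mu a + m + 1 / 2 + 1) * (X.R ^ (i + 1)) a b * φ (m + n - 1 - i, b)
      else 0 := by
    rw [mul_sum, ← sum_add_distrib]
    apply sum_congr rfl; intro i _
    by_cases hc : i + 1 ≤ m + n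
    · rw [if_pos hc, if_pos hc, if_pos (by omega), mul_sum, ← sum_add_distrib]
      apply sum_congr rfl; intro b _
      have e1 : m + (n + 1) - 1 - (i + 1) = m + n - 1 - i := by omega
      rw [e1, vc_left_succ]; ring
    · rw [if_neg hc, if_neg hc, if_neg (by omega)]; ring
  have h7 : (if 0 + 1 ≤ m + (n + 1) then
        ∑ b, vc (n + 1) 0 (X.mu a + m + 1 / 2) * (X.R ^ 0) a b * φ (m + (n + 1) - 1 - 0, b)
        else 0) = (X.mu a + m + 1 / 2) *
        ∑ b, vc n 0 (X.mu a + m + 1 / 2 + 1) * (X.R ^ 0) a b * φ (m + n, b) := by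
    rw [if_pos (by omega), mul_sum]
    apply sum_congr rfl; intro b _
    have e1 : m + (n + 1) - 1 - 0 = m + n := by omega
    rw [e1, vc_left_zero]; ring
  rw [h6, h7]
  ring

end GWData

end Vale.Agent.P269
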