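import Vale.Agent.P269.VirZero4

set_option linter.unusedSectionVars false

/-!
# Genus zero: the recursion `A_{k+1} f = A_0 z A_k f`
-/

namespace Vale.Agent.P269

open Finset

variable {ι B : Type} [AddCommMonoid B] [DecidableEq B] [HasAntidiagonal B]

lemma tp_diag_comp {par : ι → ℕ} (w : Ins ι → ℂ) (e0 : ℕ) (C : (Ins ι → ℂ) → ℂ)
    (hC : ∀ (k : ℂ) φ, C (fun u => k * φ u) = k * C φ)
    (hCe : ∀ φ ψ, (∀ u : Ins ι, Even (e0 + par u.2) → φ u = ψ u) → C φ = C ψ)
    (hw : ∀ s, w s ≠ 0 → Even (e0 + par s.2)) (Φ : Ins ι → Ser ι) (S : List (Ins ι)) :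
    tp par (fun s φ => w s * C φ) Φ S
      = tp par (fun s φ => w s * φ s) (fun _ T => C (fun u => Φ u T)) S := by
  induction S generalizing Φ with
  | nil => rfl
  | cons s S ih =>
    rw [tp_cons, tp_cons, ih]
    congr 1
    apply tp_diag_congr
    intro x hx T
    rw [← hC]
    apply hCe
    intro u hu
    congr 1
    apply GWData.neg_one_eq_of_even
    rw [← mul_add]
    apply Even.mul_left
    have h1 := hw x hx
    rw [Nat.even_add] at hu h1 ⊢
    tauto

lemma mul_supp0 (par : ι → ℕ) (e : ℕ) (q : Ser ι) (g : B → Ser ι) (d : B) (S : List (Ins ι)) :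
    mul par e (fun d T => if d = 0 then q T else 0) g d S = conv par e q (g d) S := by
  simp only [mul]
  rw [Finset.sum_eq_single ((0 : B), d)]
  · simp
  · intro v hv hne
    have h0 : v.1 ≠ 0 := by
      intro h0
      apply hne
      rw [HasAntidiagonal.mem_antidiagonal, h0, zero_add] at hv
      exact Prod.ext h0 hv
    simp only [if_neg h0]
    exact conv_zero_left par e _ S
  · intro h
    exact absurd (by rw [HasAntidiagonal.mem_antidiagonal]; simp) h

lemma mul_supp0_right (par : ι → ℕ) (e : ℕ) (f : B → Ser ι) (q : Ser ι) (d : B)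
    (S : List (Ins ι)) :
    mul par e f (fun d T => if d = 0 then q T else 0) d S = conv par e (f d) q S := by
  simp only [mul]
  rw [Finset.sum_eq_single (d, (0 : B))]
  · simp
  · intro v hv hne
    have h0 : v.2 ≠ 0 := by
      intro h0
      apply hne
      rw [HasAntidiagonal.mem_antidiagonal, h0, add_zero] at hv
      exact Prod.ext hv h0
    simp only [if_neg h0]
    exact conv_zero_right par e _ S
  · intro h
    exact absurd (by rw [HasAntidiagonal.mem_antidiagonal]; simp) h

variable [Fintype ι] [DecidableEq ι]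

namespace GWData

variable {X : GWData ι B}

/-- `lam 1` applied to a family -/
noncomputable def L1 (X : GWData ι B) (Φ : Ins ι → B → Ser ι) (y : Ins ι) (d : B)
    (T : List (Ins ι)) : ℂ := X.lam 1 y (fun x => Φ x d T)

lemma DA_step (hX : X.IsGW) (n : ℕ) (Φ : Ins ι → B → Ser ι) (d : B) (S : List (Ins ι)) :
    X.DA (n + 1) Φ d S = X.DA n (fun x => X.L1 Φ (up x)) d S := by
  rw [DA_eq, DA_eq, lamI hX n (1, X.one) (fun x => Φ x d S)]
  simp [L1]

lemma inv_RE (hX : X.IsGW) (n : ℕ) (a ν : ι) :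
    ∑ μ, X.Einv ν μ * (X.R ^ n * X.E) μ a = (X.R ^ n) a ν := by
  have : (X.Einv * (X.R ^ n * X.E)) ν a = (X.R ^ n) a ν := by
    rw [pow_adj hX, ← Matrix.mul_assoc, inv_mul hX, Matrix.one_mul, Matrix.transpose_apply]
  rw [← this, Matrix.mul_apply]

lemma RE_even (hX : X.IsGW) (n : ℕ) (a b : ι) (h : (X.R ^ n * X.E) a b ≠ 0) :
    Even (X.par a + X.par b) := by
  rw [Matrix.mul_apply] at h
  obtain ⟨c, _, hc⟩ := Finset.exists_ne_zero_of_sum_ne_zero h
  have k1 := pow_even hX _ _ _ (left_ne_zero_of_mul hc)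
  have k2 := E_even hX _ _ (right_ne_zero_of_mul hc)
  have : Even ((X.par a + X.par c) + (X.par c + X.par b)) := k1.add k2
  rw [show (X.par a + X.par c) + (X.par c + X.par b)
    = 2 * X.par c + (X.par a + X.par b) by ring] at this
  rw [Nat.even_add] at this
  exact this.mp (even_two_mul _)

lemma DT_step (hX : X.IsGW) (n : ℕ) (Φ : Ins ι → B → Ser ι) (d : B) (S : List (Ins ι)) :
    X.DT (n + 1) Φ d S = X.DT n (fun x => X.L1 Φ (up x)) d S
      + ∑ μ, ∑ ν, X.Einv ν μ * mul X.par (X.par μ)
        (fun d T => if d = 0 then quad (X.R ^ n * X.E) ((0, μ) :: T) else 0)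
        (X.L1 Φ (0, ν)) d S := by
  have hg1 := good_lam hX 1
  simp only [DT]
  rw [tp_congrA (lamI hX n), tp_addA, tp_comp
    (fun x k φ => (linR_lam X 1).smul (up x) k φ)
    (fun x φ ψ h => hg1.ev (up x) φ ψ h)]
  congr 1
  -- second part
  have h1 : ∀ μ ν, X.Einv ν μ * mul X.par (X.par μ)
        (fun d T => if d = 0 then quad (X.R ^ n * X.E) ((0, μ) :: T) else 0)
        (X.L1 Φ (0, ν)) d S
      = tp X.par (fun s φ => (X.Einv ν μ * (if s.1 = 0 then (X.R ^ n * X.E) μ s.2 else 0))
          * X.lam 1 (0, ν) φ) (fun x => Φ x d) S := by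
    intro μ ν
    rw [mul_supp0 X.par (X.par μ) (fun T => quad (X.R ^ n * X.E) ((0, μ) :: T)),
      conv_tp (X.par μ) (fun s => if s.1 = 0 then (X.R ^ n * X.E) μ s.2 else 0)
      (fun T => quad (X.R ^ n * X.E) ((0, μ) :: T)) (X.L1 Φ (0, ν) d)
      (quad_one _ _) (fun s => by rw [quad_two]; simp) (fun s t T => quad_three _ _ _ _ _)]
    · by_cases h0 : X.Einv ν μ = 0
      · rw [h0, zero_mul]
        rw [tp_congrA (A' := fun s φ => 0 * (0 : ℂ)) (fun s φ => by ring), tp_smulA, zero_mul]
      · rw [tp_diag_comp (fun s => X.Einv ν μ * (if s.1 = 0 then (X.R ^ n * X.E) μ s.2 else 0))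
          (X.par ν) (fun φ => X.lam 1 (0, ν) φ)
          (fun k φ => (linR_lam X 1).smul (0, ν) k φ) (fun φ ψ h => hg1.ev (0, ν) φ ψ h)]
        · rw [← tp_smulA]
          apply tp_congrA
          intro s φ
          ring
        · intro s hs
          have k1 := inv_even hX _ _ h0
          have h2 := right_ne_zero_of_mul hs
          by_cases h3 : s.1 = 0
          · rw [if_pos h3] at h2
            have k2 := RE_even hX n _ _ h2
            have : Even ((X.par ν + X.par μ) + (X.par μ + X.par s.2)) := k1.add k2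
            rw [show (X.par ν + X.par μ) + (X.par μ + X.par s.2)
              = 2 * X.par μ + (X.par ν + X.par s.2) by ring] at this
            rw [Nat.even_add] at this
            exact this.mp (even_two_mul _)
          · rw [if_neg h3] at h2; exact absurd rfl h2
    · intro s hs
      by_cases h3 : s.1 = 0
      · rw [if_pos h3] at hs
        exact RE_even hX n _ _ hs
      · rw [if_neg h3] at hs; exact absurd rfl hs
  simp only [h1]
  have h2 : ∀ μ, ∑ ν, tp X.par (fun s φ => (X.Einv ν μ *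
      (if s.1 = 0 then (X.R ^ n * X.E) μ s.2 else 0)) * X.lam 1 (0, ν) φ) (fun x => Φ x d) S
      = tp X.par (fun s φ => ∑ ν, (X.Einv ν μ *
      (if s.1 = 0 then (X.R ^ n * X.E) μ s.2 else 0)) * X.lam 1 (0, ν) φ) (fun x => Φ x d) S := by
    intro μ
    rw [tp_sumA]
  rw [sum_congr rfl (fun μ _ => h2 μ), ← tp_sumA]
  apply tp_congrA
  intro s φ
  by_cases hs : s.1 = 0
  · simp only [if_pos hs]
    rw [sum_comm]
    apply sum_congr rfl; intro ν _
    rw [← inv_RE hX n s.2 ν, sum_mul]
  · simp [hs]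

end GWData

end Vale.Agent.P269
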