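import Vale.Agent.P269.VirZero5

set_option linter.unusedSectionVars false

/-!
# Genus zero: the quadratic part of the recursion
-/

namespace Vale.Agent.P269

open Finset

variable {ι B : Type} [AddCommMonoid B] [DecidableEq B] [HasAntidiagonal B]
variable [Fintype ι] [DecidableEq ι]

namespace GWData

variable {X : GWData ι B}

lemma IR_mu (hX : X.IsGW) (i : ℕ) (a b : ι) (h : (X.Einv.transpose * X.R ^ i) a b ≠ 0) :
    X.mu b = i - X.mu a := by
  rw [Matrix.mul_apply] at h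
  obtain ⟨c, _, hc⟩ := Finset.exists_ne_zero_of_sum_ne_zero h
  have h1 := inv_deg hX c a (left_ne_zero_of_mul hc)
  have h2 := pow_deg hX i c b (right_ne_zero_of_mul hc)
  simp only [mu]
  have e1 : (X.p c : ℂ) + X.p a = X.dim := by exact_mod_cast h1.1
  have e2 : (X.p b : ℂ) = X.p c + i := by exact_mod_cast h2.1
  linear_combination e2 + e1

lemma IR_flip (hX : X.IsGW) (i : ℕ) (a b : ι) :
    (X.Einv.transpose * X.R ^ i) b a = (X.Einv * X.R ^ i) a b := by
  have h1 : X.Einv * X.R ^ i = (X.R ^ i).transpose * X.Einv := by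
    calc X.Einv * X.R ^ i = X.Einv * (X.R ^ i * (X.E * X.Einv)) := by
          rw [hX.E_inv, Matrix.mul_one]
      _ = X.Einv * (X.R ^ i * X.E) * X.Einv := by simp only [Matrix.mul_assoc]
      _ = X.Einv * (X.E * (X.R ^ i).transpose) * X.Einv := by rw [pow_adj hX i]
      _ = (X.Einv * X.E) * (X.R ^ i).transpose * X.Einv := by simp only [Matrix.mul_assoc]
      _ = _ := by rw [inv_mul hX, Matrix.one_mul]
  have : (X.Einv.transpose * X.R ^ i) b a = (X.Einv.transpose * X.R ^ i).transpose a b := rfl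
  rw [this, Matrix.transpose_mul, Matrix.transpose_transpose, ← h1]

/-- coefficients `g` of the quadratic terms -/
noncomputable def gG (X : GWData ι B) (Φ : Ins ι → B → Ser ι) (d : B) (S : List (Ins ι))
    (M : ℕ) (a : ι) (k : ℕ) (b : ι) : ℂ :=
  mul X.par (X.par a) (fun d T => X.F 0 d ((M, a) :: T)) (Φ (k, b)) d S

noncomputable def wW (X : GWData ι B) (n : ℕ) (g : ℕ → ι → ℕ → ι → ℂ) (i M : ℕ) : ℂ :=
  ∑ a, ∑ b, (-1) ^ (M + 1) * ((- X.mu a - M - 1 / 2 + n) * vc n i (- X.mu a - M - 1 / 2)) *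
    (X.Einv.transpose * X.R ^ i) a b * g M a (n - 1 - i - M) b

noncomputable def vV (X : GWData ι B) (n : ℕ) (g : ℕ → ι → ℕ → ι → ℂ) (i M : ℕ) : ℂ :=
  ∑ a, ∑ b, (-1) ^ (M + 1) * vc n i (- X.mu a - M - 1 / 2) *
    (X.Einv.transpose * X.R ^ (i + 1)) a b * g M a (n - 2 - i - M) b

lemma sum_out (n i m : ℕ) (g : ι → ι → ℕ → ℂ) :
    ∑ c, ∑ a, ∑ b, ∑ M ∈ range m, X.kap n i M c a b * g a b M
      = ∑ M ∈ range m, ∑ a, ∑ b, X.kap2 n i M a b * g a b M := by
  rw [sum_kap2]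
  calc _ = ∑ a, ∑ M ∈ range m, ∑ b, X.kap2 n i M a b * g a b M :=
        sum_congr rfl fun a _ => sum_comm
    _ = _ := sum_comm

/-- the quadratic part of level `n + 1` -/
lemma DC_C1 (hX : X.IsGW) (n : ℕ) (Φ : Ins ι → B → Ser ι) (d : B) (S : List (Ins ι)) :
    X.DC (n + 1) Φ d S = ∑ i ∈ range n, ∑ M ∈ range (n - i), X.wW n (X.gG Φ d S) i M
      + ∑ i ∈ range (n - 1), ∑ M ∈ range (n - 1 - i), X.vV n (X.gG Φ d S) i M := by
  have h0 : X.DC (n + 1) Φ d S = ∑ i ∈ range n, ∑ M ∈ range (n - i), ∑ a, ∑ b,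
      X.kap2 (n + 1) i M a b * X.gG Φ d S M a (n - 1 - i - M) b := by
    rw [DC]
    have e1 : n + 1 - 1 = n := rfl
    have e2 : n + 1 - 2 = n - 1 := by omega
    rw [e1, e2]
    apply sum_congr rfl; intro i _
    exact sum_out (n + 1) i (n - i) (fun a b M => X.gG Φ d S M a (n - 1 - i - M) b)
  rw [h0]
  obtain _ | n := n
  · simp
  · rw [sum_range_succ', sum_range_succ' (fun i => ∑ M ∈ range (n + 1 - i),
      X.wW (n + 1) (X.gG Φ d S) i M)]
    have h1 : ∑ M ∈ range (n + 1 - 0), ∑ a, ∑ b,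
      X.kap2 (n + 1 + 1) 0 M a b * X.gG Φ d S M a (n + 1 - 1 - 0 - M) b
      = ∑ M ∈ range (n + 1 - 0), X.wW (n + 1) (X.gG Φ d S) 0 M := by
      apply sum_congr rfl; intro M _
      rw [wW]
      apply sum_congr rfl; intro a _
      apply sum_congr rfl; intro b _
      rw [kap2_eq hX, vc_succ_zero]
    rw [h1]
    have h2 : ∀ i ∈ range n, ∑ M ∈ range (n + 1 - (i + 1)), ∑ a, ∑ b,
      X.kap2 (n + 1 + 1) (i + 1) M a b * X.gG Φ d S M a (n + 1 - 1 - (i + 1) - M) b
      = ∑ M ∈ range (n + 1 - (i + 1)), X.wW (n + 1) (X.gG Φ d S) (i + 1) M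
        + ∑ M ∈ range (n + 1 - 1 - i), X.vV (n + 1) (X.gG Φ d S) i M := by
      intro i _
      have e1 : n + 1 - 1 - i = n + 1 - (i + 1) := by omega
      rw [e1, ← sum_add_distrib]
      apply sum_congr rfl; intro M _
      rw [wW, vV, ← sum_add_distrib]
      apply sum_congr rfl; intro a _
      rw [← sum_add_distrib]
      apply sum_congr rfl; intro b _
      have e2 : n + 1 - 2 - i - M = n + 1 - 1 - (i + 1) - M := by omega
      rw [kap2_eq hX, vc_succ_succ, e2]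
      ring
    rw [sum_congr rfl h2, sum_add_distrib]
    have e3 : n + 1 - 1 = n := rfl
    rw [e3]
    ring

/-- the quadratic part of level `n`, composed with `lam 1` -/
lemma DC_C2 (hX : X.IsGW) (n : ℕ) (Φ : Ins ι → B → Ser ι) (d : B) (S : List (Ins ι)) :
    X.DC n (fun x => X.L1 Φ (up x)) d S = ∑ i ∈ range (n - 1), ∑ M ∈ range (n - 1 - i),
      (X.wW n (X.gG Φ d S) i M + X.vV n (X.gG Φ d S) i M) := by
  rw [DC]
  apply sum_congr rfl; intro i hi
  rw [mem_range] at hi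
  rw [sum_out n i (n - 1 - i) (fun a b M => mul X.par (X.par a)
    (fun d T => X.F 0 d ((M, a) :: T)) (X.L1 Φ (up (n - 2 - i - M, b))) d S)]
  apply sum_congr rfl; intro M hM
  rw [mem_range] at hM
  have h1 : ∀ a b, mul X.par (X.par a)
    (fun d T => X.F 0 d ((M, a) :: T)) (X.L1 Φ (up (n - 2 - i - M, b))) d S
      = (X.mu b + ((n - 2 - i - M : ℕ) : ℂ) + 3 / 2) * X.gG Φ d S M a (n - 1 - i - M) b
        + ∑ c, X.R b c * X.gG Φ d S M a (n - 2 - i - M) c := by
    intro a b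
    have h2 : X.L1 Φ (up (n - 2 - i - M, b)) = fun d T =>
        (X.mu b + ((n - 2 - i - M : ℕ) : ℂ) + 3 / 2) * Φ (n - 2 - i - M + 1, b) d T
        + ∑ c, X.R b c * Φ (n - 2 - i - M, c) d T := by
      funext d T
      rw [L1, lam1_up]
    rw [h2, mul_add_right, mul_smul_right, mul_sum_right]
    have e1 : n - 2 - i - M + 1 = n - 1 - i - M := by omega
    rw [e1]
    simp only [mul_smul_right]
    rfl
  simp only [h1]
  rw [wW, vV, ← sum_add_distrib]
  apply sum_congr rfl; intro a _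
  simp only [mul_add, sum_add_distrib]
  congr 1
  · apply sum_congr rfl; intro b _
    rw [kap2_eq hX]
    by_cases h0 : (X.Einv.transpose * X.R ^ i) a b = 0
    · rw [h0]; ring
    · rw [IR_mu hX i a b h0]
      have : ((n - 2 - i - M : ℕ) : ℂ) = (n : ℂ) - 2 - i - M := by
        rw [Nat.cast_sub (by omega), Nat.cast_sub (by omega), Nat.cast_sub (by omega)]
        push_cast; ring
      rw [this]; ring
  · simp only [mul_sum]
    rw [sum_comm]
    apply sum_congr rfl; intro c _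
    have h2 : (X.Einv.transpose * X.R ^ (i + 1)) a c
        = ∑ b, (X.Einv.transpose * X.R ^ i) a b * X.R b c := by
      rw [pow_succ X.R, ← Matrix.mul_assoc, Matrix.mul_apply (M := X.Einv.transpose * X.R ^ i)]
    rw [h2, mul_sum, sum_mul]
    apply sum_congr rfl; intro b _
    rw [kap2_eq hX]
    ring

/-- the boundary contribution -/
lemma DC_C3 (hX : X.IsGW) (n : ℕ) (Φ : Ins ι → B → Ser ι) (d : B) (S : List (Ins ι)) :
    ∑ μ, ∑ ν, X.Einv ν μ * mul X.par (X.par μ)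
        (fun d T => X.lam n (0, μ) (fun x => X.F 0 d (x :: T)))
        (X.L1 Φ (0, ν)) d S
      = ∑ i ∈ range n, X.wW n (X.gG Φ d S) i (n - 1 - i) := by
  have h1 : ∀ μ ν, mul X.par (X.par μ)
        (fun d T => X.lam n (0, μ) (fun x => X.F 0 d (x :: T)))
        (X.L1 Φ (0, ν)) d S
      = ∑ i ∈ range n, ∑ a, vc n i (X.mu μ + 1 / 2) * (X.R ^ i) μ a * (X.mu ν + 1 / 2)
        * X.gG Φ d S (n - 1 - i) a 0 ν := by
    intro μ ν
    have h2 : (fun d T => X.lam n (0, μ) (fun x => X.F 0 d (x :: T))) = fun d T =>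
        ∑ i ∈ range n, ∑ a, (vc n i (X.mu μ + 1 / 2) * (X.R ^ i) μ a)
          * X.F 0 d ((n - 1 - i, a) :: T) := by
      funext d T
      rw [lam_def]
      simp only
      rw [sum_range_succ, if_neg (by omega), add_zero]
      apply sum_congr rfl; intro i hi
      rw [mem_range] at hi
      rw [if_pos (by omega)]
      apply sum_congr rfl; intro a _
      have e1 : 0 + n - 1 - i = n - 1 - i := by omega
      rw [e1]; simp
    have h3 : X.L1 Φ (0, ν) = fun d T => (X.mu ν + 1 / 2) * Φ (0, ν) d T := by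
      funext d T
      rw [L1, lam1_zero]
    rw [h2, h3, mul_smul_right, mul_sum_left, mul_sum]
    apply sum_congr rfl; intro i _
    rw [mul_sum_left, mul_sum]
    apply sum_congr rfl; intro a _
    rw [mul_smul_left]
    by_cases h0 : (X.R ^ i) μ a = 0
    · rw [h0]; ring
    · rw [gG, mul_parity X.par (pow_even hX i _ _ h0)]
      ring
  simp only [h1]
  have h4 : ∑ μ, ∑ ν, X.Einv ν μ * ∑ i ∈ range n, ∑ a, vc n i (X.mu μ + 1 / 2) * (X.R ^ i) μ a
      * (X.mu ν + 1 / 2) * X.gG Φ d S (n - 1 - i) a 0 ν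
      = ∑ i ∈ range n, ∑ a, ∑ ν, ∑ μ, X.Einv ν μ * (vc n i (X.mu μ + 1 / 2) * (X.R ^ i) μ a
      * (X.mu ν + 1 / 2) * X.gG Φ d S (n - 1 - i) a 0 ν) := by
    simp only [mul_sum]
    calc _ = ∑ μ, ∑ i ∈ range n, ∑ ν, ∑ a, X.Einv ν μ * (vc n i (X.mu μ + 1 / 2)
          * (X.R ^ i) μ a * (X.mu ν + 1 / 2) * X.gG Φ d S (n - 1 - i) a 0 ν) :=
          sum_congr rfl fun μ _ => sum_comm
      _ = ∑ i ∈ range n, ∑ μ, ∑ ν, ∑ a, X.Einv ν μ * (vc n i (X.mu μ + 1 / 2)
          * (X.R ^ i) μ a * (X.mu ν + 1 / 2) * X.gG Φ d S (n - 1 - i) a 0 ν) := sum_comm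
      _ = ∑ i ∈ range n, ∑ μ, ∑ a, ∑ ν, X.Einv ν μ * (vc n i (X.mu μ + 1 / 2)
          * (X.R ^ i) μ a * (X.mu ν + 1 / 2) * X.gG Φ d S (n - 1 - i) a 0 ν) :=
          sum_congr rfl fun i _ => sum_congr rfl fun μ _ => sum_comm
      _ = ∑ i ∈ range n, ∑ a, ∑ μ, ∑ ν, X.Einv ν μ * (vc n i (X.mu μ + 1 / 2)
          * (X.R ^ i) μ a * (X.mu ν + 1 / 2) * X.gG Φ d S (n - 1 - i) a 0 ν) :=
          sum_congr rfl fun i _ => sum_comm
      _ = _ := sum_congr rfl fun i _ => sum_congr rfl fun a _ => sum_comm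
  rw [h4]
  apply sum_congr rfl; intro i hi
  rw [mem_range] at hi
  rw [wW]
  apply sum_congr rfl; intro a _
  apply sum_congr rfl; intro ν _
  have h5 : ∑ μ, X.Einv ν μ * (vc n i (X.mu μ + 1 / 2) * (X.R ^ i) μ a
      * (X.mu ν + 1 / 2) * X.gG Φ d S (n - 1 - i) a 0 ν)
      = vc n i (- X.mu ν + 1 / 2) * (X.Einv * X.R ^ i) ν a * (X.mu ν + 1 / 2)
        * X.gG Φ d S (n - 1 - i) a 0 ν := by
    rw [Matrix.mul_apply, mul_sum, sum_mul, sum_mul]
    apply sum_congr rfl; intro μ _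
    by_cases h0 : X.Einv ν μ = 0
    · rw [h0]; ring
    · have h6 : X.mu μ = - X.mu ν := by
        have := (inv_deg hX _ _ h0).1
        simp only [mu]
        have : (X.p ν : ℂ) + X.p μ = X.dim := by exact_mod_cast this
        linear_combination this
      rw [h6]; ring
  rw [h5, ← IR_flip hX]
  have e0 : n - 1 - i - (n - 1 - i) = 0 := by omega
  rw [e0]
  by_cases h0 : (X.Einv.transpose * X.R ^ i) a ν = 0
  · rw [h0]; ring
  · have h6 := IR_mu hX i a ν h0
    have h7 : X.mu a = i - X.mu ν := by rw [h6]; ring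
    rw [h7]
    have h8 : ((n - 1 - i : ℕ) : ℂ) = (n : ℂ) - 1 - i := by
      rw [Nat.cast_sub (by omega), Nat.cast_sub (by omega)]; push_cast; ring
    have h9 : -((i : ℂ) - X.mu ν) - ((n - 1 - i : ℕ) : ℂ) - 1 / 2
        = - (- X.mu ν + 1 / 2) - n + 1 := by
      rw [h8]; ring
    rw [h9, vc_reflect]
    have h10 : ((-1 : ℂ)) ^ (n - 1 - i + 1) * (-1) ^ (n + i) = 1 := by
      rw [← pow_add]
      apply Even.neg_one_pow
      refine ⟨n, ?_⟩
      omega
    linear_combination (-((X.mu ν + 1 / 2) * vc n i (- X.mu ν + 1 / 2) *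
      (X.Einv.transpose * X.R ^ i) a ν * X.gG Φ d S (n - 1 - i) a 0 ν)) * h10

/-- the quadratic part -/
lemma DC_step (hX : X.IsGW) (n : ℕ) (Φ : Ins ι → B → Ser ι) (d : B) (S : List (Ins ι)) :
    X.DC (n + 1) Φ d S = X.DC n (fun x => X.L1 Φ (up x)) d S
      + ∑ μ, ∑ ν, X.Einv ν μ * mul X.par (X.par μ)
        (fun d T => X.lam n (0, μ) (fun x => X.F 0 d (x :: T)))
        (X.L1 Φ (0, ν)) d S := by
  rw [DC_C1 hX, DC_C2 hX, DC_C3 hX]
  simp only [sum_add_distrib]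
  have h1 : ∑ i ∈ range n, ∑ M ∈ range (n - i), X.wW n (X.gG Φ d S) i M
      = ∑ i ∈ range (n - 1), ∑ M ∈ range (n - 1 - i), X.wW n (X.gG Φ d S) i M
        + ∑ i ∈ range n, X.wW n (X.gG Φ d S) i (n - 1 - i) := by
    have h2 : ∑ i ∈ range (n - 1), ∑ M ∈ range (n - 1 - i), X.wW n (X.gG Φ d S) i M
        = ∑ i ∈ range n, ∑ M ∈ range (n - 1 - i), X.wW n (X.gG Φ d S) i M := by
      obtain _ | n := n
      · simp
      · rw [sum_range_succ]
        have : n + 1 - 1 - n = 0 := by omega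
        rw [this]; simp
    rw [h2, ← sum_add_distrib]
    apply sum_congr rfl; intro i hi
    rw [mem_range] at hi
    have : n - i = n - 1 - i + 1 := by omega
    rw [this, sum_range_succ]
  rw [h1]; ring

end GWData

end Vale.Agent.P269
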