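import Vale.Agent.P269.VirZero6

set_option linter.unusedSectionVars false

/-!
# Genus zero: all the constraints hold
-/

namespace Vale.Agent.P269

open Finset

variable {ι B : Type} [AddCommMonoid B] [DecidableEq B] [HasAntidiagonal B]
variable [Fintype ι] [DecidableEq ι]

namespace GWData

variable {X : GWData ι B}

/-- contraction with `z A_n f` -/
noncomputable def WW (X : GWData ι B) (n : ℕ) (Ψ : Ins ι → B → Ser ι) (d : B)
    (S : List (Ins ι)) : ℂ :=
  X.DD n (fun x => Ψ (up x)) d S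
    + ∑ μ, ∑ ν, X.Einv ν μ * mul X.par (X.par μ) (X.LF n (0, μ)) (Ψ (0, ν)) d S

lemma DD_step (hX : X.IsGW) (n : ℕ) (Φ : Ins ι → B → Ser ι) (d : B) (S : List (Ins ι)) :
    X.DD (n + 1) Φ d S = X.WW n (X.L1 Φ) d S := by
  rw [DD, DA_step hX, DT_step hX, DC_step hX, WW, DD]
  have h1 : ∀ μ ν, mul X.par (X.par μ) (X.LF n (0, μ)) (X.L1 Φ (0, ν)) d S
      = mul X.par (X.par μ) (fun d T => X.lam n (0, μ) (fun x => X.F 0 d (x :: T)))
        (X.L1 Φ (0, ν)) d S
        + mul X.par (X.par μ)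
        (fun d T => if d = 0 then quad (X.R ^ n * X.E) ((0, μ) :: T) else 0)
        (X.L1 Φ (0, ν)) d S := by
    intro μ ν
    rw [← mul_add_left]
    rfl
  simp only [h1, mul_add, sum_add_distrib]
  ring

lemma WW_add (n : ℕ) (Φ Ψ : Ins ι → B → Ser ι) (d : B) (S : List (Ins ι)) :
    X.WW n (fun x d T => Φ x d T + Ψ x d T) d S = X.WW n Φ d S + X.WW n Ψ d S := by
  simp only [WW]
  rw [DD_add]
  simp only [mul_add_right, mul_add, sum_add_distrib]
  ring

lemma WW_neg (n : ℕ) (Φ : Ins ι → B → Ser ι) (d : B) (S : List (Ins ι)) :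
    X.WW n (fun x d T => - Φ x d T) d S = - X.WW n Φ d S := by
  simp only [WW]
  rw [DD_neg]
  have h : ∀ μ ν, mul X.par (X.par μ) (X.LF n (0, μ)) (fun d T => - Φ (0, ν) d T) d S
      = - mul X.par (X.par μ) (X.LF n (0, μ)) (Φ (0, ν)) d S := by
    intro μ ν
    have := mul_smul_right X.par (X.par μ) (-1) (X.LF n (0, μ)) (Φ (0, ν)) d S
    simpa using this
  simp only [h, mul_neg, sum_neg_distrib]
  ring

lemma WW_lin (hX : X.IsGW) (n : ℕ) {C : Ins ι → (Ins ι → ℂ) → ℂ} (hC : LinR C) (w : Ins ι)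
    (Φ : Ins ι → Ins ι → B → Ser ι) (d : B) (S : List (Ins ι)) :
    X.WW n (fun x d T => C w (fun u => Φ u x d T)) d S = C w (fun u => X.WW n (Φ u) d S) := by
  simp only [WW]
  rw [hC.add]
  congr 1
  · exact DD_lin hX n hC w (fun u x => Φ u (up x)) d S
  · rw [hC.sum]
    apply sum_congr rfl; intro μ _
    rw [hC.sum]
    apply sum_congr rfl; intro ν _
    rw [hC.smul, mul_lin_right X.par hC]

lemma quad_up_left (M : Matrix ι ι ℂ) (x : Ins ι) (S : List (Ins ι)) :
    quad M (up x :: S) = 0 := by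
  obtain ⟨m, a⟩ := x
  match S with
  | [] => exact quad_one _ _
  | [t] => rw [up, quad_two]; simp
  | t :: u :: S => exact quad_three _ _ _ _ _

lemma quad_up_right (M : Matrix ι ι ℂ) (w x : Ins ι) (S : List (Ins ι)) :
    quad M (w :: up x :: S) = 0 := by
  obtain ⟨m, a⟩ := x
  match S with
  | [] => rw [up, quad_two]; simp
  | t :: S => exact quad_three _ _ _ _ _

lemma LF_up (X : GWData ι B) (n : ℕ) (x : Ins ι) (d : B) (S : List (Ins ι)) :
    X.LF n (up x) d S = X.lam n (up x) (fun u => X.F 0 d (u :: S)) := by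
  rw [LF, quad_up_left]
  simp

lemma quad_step (X : GWData ι B) (n : ℕ) (w : Ins ι) (S : List (Ins ι)) :
    quad (X.R ^ (n + 1) * X.E) (w :: S)
      = if w.1 = 0 then ∑ μ, X.R w.2 μ * quad (X.R ^ n * X.E) ((0, μ) :: S) else 0 := by
  match S with
  | [] => simp [quad_one]
  | [t] =>
    simp only [quad_two]
    by_cases hw : w.1 = 0
    · by_cases ht : t.1 = 0
      · simp only [hw, ht, and_self, if_true]
        rw [pow_succ', Matrix.mul_assoc, Matrix.mul_apply (M := X.R)]
      · simp [ht]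
    · simp [hw]
  | t :: u :: S =>
    have : ∀ (M : Matrix ι ι ℂ) (w : Ins ι), quad M (w :: t :: u :: S) = 0 := fun M w =>
      quad_three M w t u S
    simp [this]

section Step

variable (hX : X.IsGW) (hT : X.TRR0) (n : ℕ)
  (hz : ∀ w d S, X.DD n (X.PF w) d S = - X.LF n w d S)

include hX hT hz

lemma WW_PF (x : Ins ι) (d : B) (S : List (Ins ι)) : X.WW n (X.PF x) d S = X.LF n (up x) d S := by
  have h1 : (fun y => X.PF x (up y)) = fun y d T => (∑ μ, ∑ ν, X.Einv ν μ *
      mul X.par (X.par μ + X.par y.2) (X.PF (0, μ) y) (X.PF x (0, ν)) d T)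
        + - X.PF (up x) y d T := by
    funext y d T
    have h2 := F_V hX hT d y x T
    have h3 : ∀ μ ν, mul X.par (X.par μ + X.par y.2) (X.PF (0, μ) y) (X.PF x (0, ν)) d T
        = mul X.par (X.par y.2 + X.par μ) (fun d T => X.F 0 d ((0, μ) :: y :: T))
          (fun d T => X.F 0 d (x :: (0, ν) :: T)) d T := by
      intro μ ν
      rw [add_comm (X.par μ)]
      rfl
    simp only [h3]
    rw [← h2]
    simp only [PF]
    ring
  rw [WW, h1, DD_add, DD_neg, DD_sum, hz]
  have h4 : ∀ μ ν, X.DD n (fun y d T => X.Einv ν μ *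
      mul X.par (X.par μ + X.par y.2) (X.PF (0, μ) y) (X.PF x (0, ν)) d T) d S
      = - (X.Einv ν μ * mul X.par (X.par μ) (X.LF n (0, μ)) (X.PF x (0, ν)) d S) := by
    intro μ ν
    rw [DD_smul, DD_mulR hX n (X.par μ) (X.PF (0, μ)) (X.PF x (0, ν))]
    have h5 : X.DD n (X.PF (0, μ)) = fun d T => (-1) * X.LF n (0, μ) d T := by
      funext d T; rw [hz]; ring
    rw [h5, mul_smul_left]; ring
  have h6 : ∀ μ, X.DD n (fun y d T => ∑ ν, X.Einv ν μ *
      mul X.par (X.par μ + X.par y.2) (X.PF (0, μ) y) (X.PF x (0, ν)) d T) d S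
      = ∑ ν, - (X.Einv ν μ * mul X.par (X.par μ) (X.LF n (0, μ)) (X.PF x (0, ν)) d S) := by
    intro μ
    rw [DD_sum]
    exact sum_congr rfl fun ν _ => h4 μ ν
  rw [sum_congr rfl (fun μ _ => h6 μ)]
  simp only [sum_neg_distrib]
  ring

lemma WW_third (w : Ins ι) (d : B) (S : List (Ins ι)) :
    X.WW n (fun y => X.DD 1 (fun u d T => X.F 0 d (w :: y :: u :: T))) d S = 0 := by
  have h1 : (fun x => X.DD 1 (fun (u : Ins ι) d T => X.F 0 d (w :: up x :: u :: T)))
      = fun x d T => ∑ μ, ∑ ν, X.Einv ν μ * mul X.par (X.par μ + X.par x.2) (X.PF (0, μ) x)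
        (X.DD 1 (fun u d T => X.F 0 d (w :: (0, ν) :: u :: T))) d T := by
    funext x d T
    rw [star hX hT d x w T]
    apply sum_congr rfl; intro μ _
    apply sum_congr rfl; intro ν _
    rw [add_comm (X.par x.2)]
    rfl
  rw [WW, h1, DD_sum]
  have h4 : ∀ μ ν, X.DD n (fun y d T => X.Einv ν μ *
      mul X.par (X.par μ + X.par y.2) (X.PF (0, μ) y)
        (X.DD 1 (fun u d T => X.F 0 d (w :: (0, ν) :: u :: T))) d T) d S
      = - (X.Einv ν μ * mul X.par (X.par μ) (X.LF n (0, μ))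
        (X.DD 1 (fun u d T => X.F 0 d (w :: (0, ν) :: u :: T))) d S) := by
    intro μ ν
    rw [DD_smul, DD_mulR hX n (X.par μ) (X.PF (0, μ))
      (X.DD 1 (fun u d T => X.F 0 d (w :: (0, ν) :: u :: T)))]
    have h5 : X.DD n (X.PF (0, μ)) = fun d T => (-1) * X.LF n (0, μ) d T := by
      funext d T; rw [hz]; ring
    rw [h5, mul_smul_left]; ring
  have h6 : ∀ μ, X.DD n (fun y d T => ∑ ν, X.Einv ν μ *
      mul X.par (X.par μ + X.par y.2) (X.PF (0, μ) y)
        (X.DD 1 (fun u d T => X.F 0 d (w :: (0, ν) :: u :: T))) d T) d S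
      = ∑ ν, - (X.Einv ν μ * mul X.par (X.par μ) (X.LF n (0, μ))
        (X.DD 1 (fun u d T => X.F 0 d (w :: (0, ν) :: u :: T))) d S) := by
    intro μ
    rw [DD_sum]
    exact sum_congr rfl fun ν _ => h4 μ ν
  rw [sum_congr rfl (fun μ _ => h6 μ)]
  simp only [sum_neg_distrib]
  ring

omit hT hz in
lemma WW_second (w : Ins ι) (d : B) (S : List (Ins ι)) :
    X.WW n (fun y d T => if d = 0 then quad (X.R ^ 1 * X.E) (w :: y :: T) else 0) d S
      = if w.1 = 0 then ∑ μ, X.R w.2 μ * X.LF n (0, μ) d S else 0 := by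
  rw [WW]
  have h1 : (fun (x : Ins ι) d T => if d = 0 then quad (X.R ^ 1 * X.E) (w :: up x :: T) else 0)
      = fun (_ : Ins ι) (_ : B) (_ : List (Ins ι)) => (0 : ℂ) := by
    funext x d T
    rw [quad_up_right]; simp
  rw [h1, DD_zero, zero_add]
  have h2 : ∀ μ ν, mul X.par (X.par μ) (X.LF n (0, μ))
      (fun d T => if d = 0 then quad (X.R ^ 1 * X.E) (w :: (0, ν) :: T) else 0) d S
      = X.LF n (0, μ) d S * (if w.1 = 0 then (X.R ^ 1 * X.E) w.2 ν else 0) := by
    intro μ ν
    rw [mul_supp0_right X.par (X.par μ) (X.LF n (0, μ))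
      (fun T => quad (X.R ^ 1 * X.E) (w :: (0, ν) :: T)),
      conv_const_right X.par (X.par μ) (if w.1 = 0 then (X.R ^ 1 * X.E) w.2 ν else 0)]
    · rw [quad_two]; simp
    · intro s T; exact quad_three _ _ _ _ _
  simp only [h2]
  by_cases hw : w.1 = 0
  · simp only [if_pos hw]
    apply sum_congr rfl; intro μ _
    have h3 : X.R w.2 μ = ∑ ν, (X.R ^ 1 * X.E) w.2 ν * X.Einv ν μ := by
      rw [← Matrix.mul_apply, Matrix.mul_assoc, hX.E_inv, Matrix.mul_one, pow_one]
    rw [h3, sum_mul]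
    apply sum_congr rfl; intro ν _
    ring
  · simp [hw]

/-- the inductive step -/
lemma zero_step (w : Ins ι) (d : B) (S : List (Ins ι)) :
    X.DD (n + 1) (X.PF w) d S + X.LF (n + 1) w d S = 0 := by
  have h1 : X.L1 (X.PF w) = fun y d T => - ((fun y d T => X.lam 1 w (fun u => X.PF u y d T)) y d T
      + (fun (y : Ins ι) d T => if d = 0 then quad (X.R ^ 1 * X.E) (w :: y :: T) else 0) y d T
      + (fun y => X.DD 1 (fun u d T => X.F 0 d (w :: y :: u :: T))) y d T) := by
    funext y d T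
    have := second hX d w y T
    simp only [L1, PF] at this ⊢
    rw [this]; ring
  rw [DD_step hX, h1, WW_neg, WW_add, WW_add, WW_third hX hT n hz, WW_second hX n,
    WW_lin hX n (linR_lam X 1)]
  have h2 : (fun u => X.WW n (X.PF u) d S) = fun u => X.lam n (up u) (fun x => X.F 0 d (x :: S)) := by
    funext u
    rw [WW_PF hX hT n hz, LF_up]
  have h3 : (fun u => X.WW n (fun x => X.PF u x) d S)
    = fun u => X.WW n (X.PF u) d S := rfl
  rw [h3, h2, LF, lamII hX n w, quad_step]
  by_cases hw : w.1 = 0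
  · simp only [if_pos hw, LF]
    simp only [mul_add, sum_add_distrib]
    by_cases hd : d = 0
    · simp only [if_pos hd]; ring
    · simp only [if_neg hd, mul_zero, sum_const_zero]; ring
  · simp only [if_neg hw]
    split_ifs <;> ring

end Step

/-- All the genus zero Virasoro constraints. -/
theorem vir_zero (hX : X.IsGW) (hD : X.Dilaton) (hT : X.TRR0) (n : ℕ) (d : B)
    (S : List (Ins ι)) : X.vir n 0 d S = 0 := by
  induction n generalizing d S with
  | zero => exact hX.string 0 d S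
  | succ n ihn =>
    obtain _ | n := n
    · exact hX.hori 0 d S
    · have hz : ∀ w d S, X.DD (n + 1) (X.PF w) d S = - X.LF (n + 1) w d S := by
        intro w d S
        have := ihn d (w :: S)
        rw [vir_cons hX n] at this
        linear_combination this
      have hc : ∀ w d S, X.vir (n + 1 + 1) 0 d (w :: S) = 0 := by
        intro w d S
        rw [vir_cons hX (n + 1)]
        exact zero_step hX hT (n + 1) hz w d S
      cases S with
      | cons w S => exact hc w d S
      | nil =>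
        have h1 := dil_vir hX hD (n + 1 + 1) 0 d []
        rw [hc] at h1
        simp only [List.length_nil, Nat.cast_zero] at h1
        linear_combination (1 / 2 : ℂ) * h1

end GWData

end Vale.Agent.P269
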